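import Crest.Agent.X212.An.Defs
import Crest.Agent.X212.Sob92.Lim

/-!
# Row 212, CYLF (helper70): the cylinder `Y × ℝ` in the format of `An/Defs`

Index type `Option ι`: `e none = ∂_t`, `e (some a) = e a`; measure `μ × dt`.
-/

set_option autoImplicit false
set_option linter.unusedSectionVars false
noncomputable section
open scoped Manifold ContDiff Topology InnerProductSpace NNReal
open MeasureTheory Set Function Filter

namespace Crest.Agent.X212.Cyf70
open Crest.Agent.X212.An Crest.Agent.X212.Sob92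

variable {E : Type} [NormedAddCommGroup E] [NormedSpace ℝ E] [FiniteDimensional ℝ E]
  [MeasurableSpace E] [BorelSpace E]
  {HM : Type} [TopologicalSpace HM] {I : ModelWithCorners ℝ E HM}
  {Y : Type} [TopologicalSpace Y] [ChartedSpace HM Y] [IsManifold I ∞ Y]
  {ι : Type} {N : Type} [NormedAddCommGroup N] [NormedSpace ℝ N]

variable (I) in
/-- the model of the cylinder -/
abbrev IC : ModelWithCorners ℝ (E × ℝ) (ModelProd HM ℝ) := I.prod 𝓘(ℝ, ℝ)

/-- the frame of the cylinder -/
def ce (e : ι → Π y : Y, TangentSpace I y) : Option ι → Π x : Y × ℝ, TangentSpace (IC I) x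
  | none, _ => ((0 : E), (1 : ℝ))
  | some a, x => (e a x.1, (0 : ℝ))

section calculus
variable {e : ι → Π y : Y, TangentSpace I y}

theorem mdiff_slice_fst {u : Y × ℝ → N} {x : Y × ℝ} (hu : MDifferentiableAt (IC I) 𝓘(ℝ, N) u x) :
    MDifferentiableAt I 𝓘(ℝ, N) (fun z => u (z, x.2)) x.1 :=
  hu.comp _ (mdifferentiableAt_id.prodMk mdifferentiableAt_const)

theorem diff_slice_snd {u : Y × ℝ → N} {x : Y × ℝ} (hu : MDifferentiableAt (IC I) 𝓘(ℝ, N) u x) :
    DifferentiableAt ℝ (fun s => u (x.1, s)) x.2 :=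
  mdifferentiableAt_iff_differentiableAt.1
    (hu.comp _ (mdifferentiableAt_const.prodMk mdifferentiableAt_id))

theorem dv_some {u : Y × ℝ → N} {x : Y × ℝ} (hu : MDifferentiableAt (IC I) 𝓘(ℝ, N) u x) (a : ι) :
    dv (IC I) (ce e (some a)) u x = dv I (e a) (fun z => u (z, x.2)) x.1 := by
  have h := mfderiv_prod_eq_add_apply (v := ce e (some a) x) hu
  have h0 : mfderiv 𝓘(ℝ, ℝ) 𝓘(ℝ, N) (fun z : ℝ => u (x.1, z)) x.2 (ce e (some a) x).2 = 0 :=
    map_zero _
  rw [h0, add_zero] at h
  exact h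

theorem dv_none {u : Y × ℝ → N} {x : Y × ℝ} (hu : MDifferentiableAt (IC I) 𝓘(ℝ, N) u x) :
    dv (IC I) (ce e none) u x = deriv (fun s => u (x.1, s)) x.2 := by
  have h := mfderiv_prod_eq_add_apply (v := ce e none x) hu
  have h0 : mfderiv I 𝓘(ℝ, N) (fun z : Y => u (z, x.2)) x.1 (ce e none x).1 = 0 := map_zero _
  rw [h0, zero_add, mfderiv_eq_fderiv] at h
  exact h

theorem ce_sm (he : ∀ a, ContMDiff I I.tangent ∞ fun y => (⟨y, e a y⟩ : TangentBundle I Y))
    (a : Option ι) : ContMDiff (IC I) (IC I).tangent ∞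
      fun x => (⟨x, ce e a x⟩ : TangentBundle (IC I) (Y × ℝ)) := by
  have hR : ∀ r : ℝ, ContMDiff 𝓘(ℝ, ℝ) 𝓘(ℝ, ℝ).tangent ∞
      fun t : ℝ => (⟨t, r⟩ : TangentBundle 𝓘(ℝ, ℝ) ℝ) := fun r =>
    contMDiff_vectorSpace_iff_contDiff.2 contDiff_const
  have hS := contMDiff_equivTangentBundleProd_symm (I := I) (M := Y) (I' := 𝓘(ℝ, ℝ)) (M' := ℝ)
    (n := ∞)
  cases a with
  | none =>
    have h0 : ContMDiff I I.tangent ∞ fun y : Y => (⟨y, 0⟩ : TangentBundle I Y) :=
      Bundle.contMDiff_zeroSection ℝ (TangentSpace I)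
    exact hS.comp ((h0.comp contMDiff_fst).prodMk ((hR 1).comp contMDiff_snd))
  | some a => exact hS.comp (((he a).comp contMDiff_fst).prodMk ((hR 0).comp contMDiff_snd))

theorem ce_span (hs : ∀ y, Submodule.span ℝ (range fun a => e a y) = ⊤) (x : Y × ℝ) :
    Submodule.span ℝ (range fun a => ce e a x) = ⊤ := by
  rw [Submodule.eq_top_iff']
  rintro ⟨v, s⟩
  let S : Submodule ℝ (E × ℝ) := Submodule.span ℝ (range fun a => ce e a x)
  have h1 : ∀ w : E, w ∈ (show Submodule ℝ E from Submodule.span ℝ (range fun a => e a x.1)) →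
      (w, (0 : ℝ)) ∈ S := by
    intro w hw
    have h : (show Submodule ℝ E from Submodule.span ℝ (range fun a => e a x.1)) ≤
        S.comap (LinearMap.inl ℝ E ℝ) :=
      Submodule.span_le.2 (by rintro _ ⟨a, rfl⟩; exact Submodule.subset_span ⟨some a, rfl⟩)
    exact h hw
  have h2 : ((0 : E), (1 : ℝ)) ∈ S := Submodule.subset_span ⟨none, rfl⟩
  have h3 := S.add_mem (h1 v (by have := hs x.1; erw [this]; trivial)) (S.smul_mem s h2)
  have h4 : ((v, (0 : ℝ)) + s • ((0 : E), (1 : ℝ)) : E × ℝ) = (v, s) := by simp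
  rw [h4] at h3
  exact h3

theorem two_le : (2 : WithTop ℕ∞) ≤ ∞ := by
  have : ((2 : ℕ∞) : WithTop ℕ∞) ≤ ((⊤ : ℕ∞) : WithTop ℕ∞) := WithTop.coe_le_coe.2 le_top
  exact this

instance : (leb E).IsAddHaarMeasure := by unfold leb; infer_instance

/-- the derivative of a `C²` germ along a smooth field is `C¹` -/
theorem dv_c1 {E' H' : Type*} [NormedAddCommGroup E'] [NormedSpace ℝ E'] [TopologicalSpace H']
    {J : ModelWithCorners ℝ E' H'} {M : Type*} [TopologicalSpace M] [ChartedSpace H' M]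
    [IsManifold J 1 M] {v : (x : M) → TangentSpace J x} {x : M}
    (he : ContMDiffAt J J.tangent ∞ (fun x => (⟨x, v x⟩ : TangentBundle J M)) x)
    {u : M → N} (hu : ContMDiffAt J 𝓘(ℝ, N) 2 u x) : ContMDiffAt J 𝓘(ℝ, N) 1 (dv J v u) x := by
  have h1 : ContMDiffAt J (𝓘(ℝ, N)).tangent 1
      (fun y => (⟨u y, mfderiv J 𝓘(ℝ, N) u y (v y)⟩ : TangentBundle 𝓘(ℝ, N) N)) x :=
    ContMDiffAt.clm_apply_of_inCoordinates (b₁ := id) (b₂ := u)
      (ϕ := fun y => mfderiv J 𝓘(ℝ, N) u y) (v := v)
      (hu.mfderiv_const (m := 1) (by norm_num)) (he.of_le (by simp)) (hu.of_le (by norm_num))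
  exact (contMDiff_snd_tangentBundle_modelSpace N 𝓘(ℝ, N) (n := 1) _).comp x h1

theorem ev_mdiff {u : Y × ℝ → N} {x : Y × ℝ} (hu : ContMDiffAt (IC I) 𝓘(ℝ, N) 2 u x) :
    ∀ᶠ z in 𝓝 x, MDifferentiableAt (IC I) 𝓘(ℝ, N) u z :=
  (contMDiffAt_iff_contMDiffAt_nhds (by simp)).1 hu |>.mono fun _ h => h.mdifferentiableAt (by simp)

theorem dv_some_some (he : ∀ a, ContMDiff I I.tangent ∞ fun y => (⟨y, e a y⟩ : TangentBundle I Y))
    {u : Y × ℝ → N} {x : Y × ℝ} (hu : ContMDiffAt (IC I) 𝓘(ℝ, N) 2 u x) (a b : ι) :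
    dv (IC I) (ce e (some a)) (dv (IC I) (ce e (some b)) u) x =
      dv I (e a) (dv I (e b) fun z => u (z, x.2)) x.1 := by
  rw [dv_some ((dv_c1 (ce_sm he _ x) hu).mdifferentiableAt (by simp))]
  refine dv_congr ?_
  have h1 : Tendsto (fun z : Y => (z, x.2)) (𝓝 x.1) (𝓝 x) :=
    (continuous_id.prodMk continuous_const).tendsto x.1
  filter_upwards [h1.eventually (ev_mdiff hu)] with z hz using dv_some hz b

/-- `∂_t` commutes with the fields of the cross section -/
theorem dv_comm [I.Boundaryless]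
    (he : ∀ a, ContMDiff I I.tangent ∞ fun y => (⟨y, e a y⟩ : TangentBundle I Y))
    {u : Y × ℝ → N} {x : Y × ℝ} (hu : ContMDiffAt (IC I) 𝓘(ℝ, N) 2 u x) (a : ι) :
    dv (IC I) (ce e none) (dv (IC I) (ce e (some a)) u) x =
      dv (IC I) (ce e (some a)) (dv (IC I) (ce e none) u) x := by
  obtain ⟨y, t⟩ := x
  set φ := extChartAt I y with hφ
  let g : E × ℝ → N := fun p => u (φ.symm p.1, p.2)
  have hy : y ∈ (chartAt HM y).source := mem_chart_source HM y
  have hyy : φ.symm (φ y) = y := extChartAt_to_inv y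
  have hg : ContDiffAt ℝ 2 g (φ y, t) := by
    have h1 : ContMDiffAt 𝓘(ℝ, E × ℝ) (IC I) 2 (fun p : E × ℝ => (φ.symm p.1, p.2)) (φ y, t) :=
      (((chart_symm_smoothAt (I := I) hy).of_le two_le).comp (φ y, t)
        (contDiff_fst.contMDiff.contMDiffAt)).prodMk contDiff_snd.contMDiff.contMDiffAt
    have h2 : ContMDiffAt (IC I) 𝓘(ℝ, N) 2 u (φ.symm (φ y), t) := by rwa [hyy]
    exact contMDiffAt_iff_contDiffAt.1 (h2.comp (φ y, t) h1)
  have hg1 : ∀ᶠ p in 𝓝 (φ y, t), DifferentiableAt ℝ g p :=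
    (hg.eventually (by simp)).mono fun _ h => h.differentiableAt (by simp)
  have hg2 : HasFDerivAt (fderiv ℝ g) (fderiv ℝ (fderiv ℝ g) (φ y, t)) (φ y, t) :=
    ((hg.fderiv_right (m := 1) (by norm_num)).differentiableAt (by simp)).hasFDerivAt
  have hsym := hg.isSymmSndFDerivAt (n := 2) (by simp)
  set w : E := dv I (e a) φ y with hw
  have hφd : MDifferentiableAt I 𝓘(ℝ, E) φ y :=
    (contMDiffAt_extChartAt (n := ∞)).mdifferentiableAt (by simp)
  rw [dv_none ((dv_c1 (ce_sm he _ _) hu).mdifferentiableAt (by simp)),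
    dv_some ((dv_c1 (ce_sm he _ _) hu).mdifferentiableAt (by simp))]
  have e1 : (fun s => dv (IC I) (ce e (some a)) u (y, s)) =ᶠ[𝓝 t]
      fun s => fderiv ℝ g (φ y, s) (w, 0) := by
    have h1 : Tendsto (fun s : ℝ => (y, s)) (𝓝 t) (𝓝 (y, t)) :=
      (continuous_const.prodMk continuous_id).tendsto t
    have h2 : Tendsto (fun s : ℝ => (φ y, s)) (𝓝 t) (𝓝 (φ y, t)) :=
      (continuous_const.prodMk continuous_id).tendsto t
    filter_upwards [h1.eventually (ev_mdiff hu), h2.eventually hg1] with s hs hs'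
    rw [dv_some hs]
    have h3 : HasFDerivAt ((fun z => u (z, s)) ∘ φ.symm)
        ((fderiv ℝ g (φ y, s)).comp (ContinuousLinearMap.inl ℝ E ℝ)) (φ y) :=
      HasFDerivAt.comp (g := g) (f := fun v => (v, s)) (φ y) hs'.hasFDerivAt
        (hasFDerivAt_prodMk_left (φ y) s)
    exact (of_chart_hasFDerivAt hy h3).2 (e a)
  have e2 : (fun z => dv (IC I) (ce e none) u (z, t)) =ᶠ[𝓝 y]
      fun z => (fun v => fderiv ℝ g (v, t) (0, 1)) (φ z) := by
    have h1 : Tendsto (fun z : Y => (z, t)) (𝓝 y) (𝓝 (y, t)) :=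
      (continuous_id.prodMk continuous_const).tendsto y
    have h2 : Tendsto (fun z : Y => (φ z, t)) (𝓝 y) (𝓝 (φ y, t)) :=
      ((continuousAt_extChartAt y).prodMk continuousAt_const).tendsto
    filter_upwards [h1.eventually (ev_mdiff hu), h2.eventually hg1,
      extChartAt_source_mem_nhds (I := I) y] with z hz hz' hzs
    rw [dv_none hz]
    have h3 : HasDerivAt (fun s => g (φ z, s)) (fderiv ℝ g (φ z, t) (0, 1)) t :=
      hz'.hasFDerivAt.comp_hasDerivAt t ((hasDerivAt_const t (φ z)).prodMk (hasDerivAt_id t))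
    have h4 : (fun s => g (φ z, s)) = fun s => u (z, s) := by
      funext s
      simp only [g, φ.left_inv hzs]
    rw [h4] at h3
    exact h3.deriv
  have d1 : HasDerivAt (fun s => fderiv ℝ g (φ y, s) (w, 0))
      (fderiv ℝ (fderiv ℝ g) (φ y, t) (0, 1) (w, 0)) t :=
    (ContinuousLinearMap.apply ℝ N ((w, 0) : E × ℝ)).hasFDerivAt.comp_hasDerivAt t
      (hg2.comp_hasDerivAt t ((hasDerivAt_const t (φ y)).prodMk (hasDerivAt_id t)))
  have d2 : HasFDerivAt (fun v => fderiv ℝ g (v, t) (0, 1))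
      ((ContinuousLinearMap.apply ℝ N ((0, 1) : E × ℝ)).comp
        ((fderiv ℝ (fderiv ℝ g) (φ y, t)).comp (ContinuousLinearMap.inl ℝ E ℝ))) (φ y) :=
    (ContinuousLinearMap.apply ℝ N ((0, 1) : E × ℝ)).hasFDerivAt.comp (φ y)
      (hg2.comp (φ y) (hasFDerivAt_prodMk_left (φ y) t))
  rw [e1.deriv_eq, d1.deriv, dv_congr e2, dv_comp hφd d2]
  exact hsym.eq _ _

theorem sm_slice_fst {u : Y × ℝ → N} (hu : Sm (IC I) u) (t : ℝ) : Sm I fun z => u (z, t) :=
  hu.comp (contMDiff_id.prodMk contMDiff_const)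

theorem sm_slice_snd {u : Y × ℝ → N} (hu : Sm (IC I) u) (y : Y) : ContDiff ℝ ∞ fun s => u (y, s) :=
  contMDiff_iff_contDiff.1 (hu.comp (contMDiff_const.prodMk contMDiff_id))

theorem sm_fst {f : Y → N} (hf : Sm I f) : Sm (IC I) fun x : Y × ℝ => f x.1 :=
  hf.comp contMDiff_fst

theorem sm_snd {f : ℝ → N} (hf : ContDiff ℝ ∞ f) : Sm (IC I) fun x : Y × ℝ => f x.2 :=
  hf.contMDiff.comp contMDiff_snd

omit [NormedSpace ℝ N] in
theorem hcs_slice_fst [T2Space Y] {u : Y × ℝ → N} (hu : HasCompactSupport u) (t : ℝ) :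
    HasCompactSupport fun z => u (z, t) :=
  HasCompactSupport.intro (hu.isCompact.image continuous_fst) fun z hz => by
    by_contra h
    exact hz ⟨(z, t), subset_tsupport _ h, rfl⟩

omit [NormedSpace ℝ N] in
theorem hcs_slice_snd {u : Y × ℝ → N} (hu : HasCompactSupport u) (y : Y) :
    HasCompactSupport fun s => u (y, s) :=
  HasCompactSupport.intro (hu.isCompact.image continuous_snd) fun s hs => by
    by_contra h
    exact hs ⟨(y, s), subset_tsupport _ h, rfl⟩

end calculus

variable [MeasurableSpace Y] [BorelSpace Y] [I.Boundaryless] [SigmaCompactSpace Y]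

theorem cyl_dens (μ : Measure Y) [IsFiniteMeasureOnCompacts μ] (x : Y × ℝ) {O : Set Y} {ρ : E → ℝ}
    (h : HasDens I μ x.1 O ρ) (hρ : ContinuousOn ρ (extChartAt I x.1 '' O)) :
    extChartAt (IC I) x '' (O ×ˢ univ) = (extChartAt I x.1 '' O) ×ˢ univ ∧
    HasDens (IC I) (μ.prod volume) x (O ×ˢ univ) fun p =>
      (Measure.addHaarScalarFactor ((leb E).prod (volume : Measure ℝ)) (leb (E × ℝ)) : ℝ) *
        ρ p.1 := by
  classical
  obtain ⟨h1, h2, h3, h4⟩ := h
  set φ := extChartAt I x.1 with hφ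
  have hch : (extChartAt (IC I) x : Y × ℝ → E × ℝ) = Prod.map φ id := by
    rw [extChartAt_prod]; rfl
  have him : extChartAt (IC I) x '' (O ×ˢ univ) = (φ '' O) ×ˢ univ := by
    rw [hch, prodMap_image_prod, image_id]
  refine ⟨him, h1.prod isOpen_univ, ⟨h2, trivial⟩, ?_, ?_⟩
  · rw [extChartAt_prod]
    exact fun z hz => ⟨h3 hz.1, by simp [chartAt_self_eq]⟩
  have hO : IsOpen (φ '' O) := by
    rw [φ.image_eq_target_inter_inv_preimage h3]
    exact (continuousOn_extChartAt_symm x.1).isOpen_inter_preimage (isOpen_extChartAt_target _) h1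
  have hm : Measurable (O.piecewise φ 0) :=
    ContinuousOn.measurable_piecewise ((continuousOn_extChartAt x.1).mono h3)
      continuous_zero.continuousOn h1.measurableSet
  have ha : (φ : Y → E) =ᵐ[μ.restrict O] O.piecewise φ 0 :=
    (piecewise_ae_eq_restrict h1.measurableSet).symm
  have hb : (Prod.map φ id : Y × ℝ → E × ℝ) =ᵐ[(μ.prod volume).restrict (O ×ˢ univ)]
      Prod.map (O.piecewise φ 0) id := by
    filter_upwards [ae_restrict_mem (h1.measurableSet.prod MeasurableSet.univ)] with z hz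
    simp [Prod.map, piecewise_eq_of_mem _ _ _ hz.1]
  have hρm : AEMeasurable (fun y => ENNReal.ofReal (ρ y)) ((leb E).restrict (φ '' O)) :=
    (hρ.aemeasurable hO.measurableSet).ennreal_ofReal
  rw [him, hch, Measure.map_congr hb, ← Measure.restrict_prod_eq_prod_univ,
    ← Measure.map_prod_map _ _ hm measurable_id, ← Measure.map_congr ha, h4, Measure.map_id,
    prod_withDensity_left₀ hρm, Measure.restrict_prod_eq_prod_univ]
  set c := Measure.addHaarScalarFactor ((leb E).prod (volume : Measure ℝ)) (leb (E × ℝ))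
  have hc : (leb E).prod (volume : Measure ℝ) = c • leb (E × ℝ) :=
    Measure.isAddLeftInvariant_eq_smul _ _
  rw [hc, Measure.restrict_smul, ENNReal.smul_def, withDensity_smul_measure,
    ← withDensity_smul' _ _ ENNReal.coe_ne_top]
  congr 1
  funext p
  show _ = ENNReal.ofReal ((c : ℝ) * ρ p.1)
  rw [ENNReal.ofReal_mul c.coe_nonneg, ENNReal.ofReal_coe_nnreal]
  rfl

variable [Fintype ι]

/-- the cylinder over a frame with measure -/
def cylP (F : Pre I Y ι) : Pre (IC I) (Y × ℝ) (Option ι) where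
  e := ce F.e
  μ := F.μ.prod volume
  sm := ce_sm F.sm
  span := ce_span F.span
  fin := inferInstance
  dens x := by
    obtain ⟨O, ρ, h1, h2, h3⟩ := F.dens x.1
    obtain ⟨h4, h5⟩ := cyl_dens F.μ x h1 h2.continuousOn
    refine ⟨_, _, h5, ?_, ?_⟩
    · rw [h4]
      exact contDiffOn_const.mul (h2.comp contDiff_fst.contDiffOn fun p hp => hp.1)
    · rw [h4]
      exact fun p hp => mul_pos (NNReal.coe_pos.2 (Measure.addHaarScalarFactor_pos_of_isAddHaarMeasure
        ((leb E).prod (volume : Measure ℝ)) (leb (E × ℝ)))) (h3 _ hp.1)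

section api
variable (F : Pre I Y ι) {u : Y × ℝ → N}

theorem cylP_μ : (cylP F).μ = F.μ.prod volume := rfl

theorem D_some_at {x : Y × ℝ} (hu : MDifferentiableAt (IC I) 𝓘(ℝ, N) u x) (a : ι) :
    (cylP F).D (some a) u x = F.D a (fun z => u (z, x.2)) x.1 := dv_some hu a

theorem D_none_at {x : Y × ℝ} (hu : MDifferentiableAt (IC I) 𝓘(ℝ, N) u x) :
    (cylP F).D none u x = deriv (fun s => u (x.1, s)) x.2 := dv_none (e := F.e) hu

theorem D_some (hu : Sm (IC I) u) (a : ι) (x : Y × ℝ) :
    (cylP F).D (some a) u x = F.D a (fun z => u (z, x.2)) x.1 :=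
  dv_some (hu.mdifferentiableAt (by simp)) a

theorem D_none (hu : Sm (IC I) u) (x : Y × ℝ) :
    (cylP F).D none u x = deriv (fun s => u (x.1, s)) x.2 :=
  dv_none (e := F.e) (hu.mdifferentiableAt (by simp))

theorem hasDerivAt_slice (hu : Sm (IC I) u) (y : Y) (t : ℝ) :
    HasDerivAt (fun s => u (y, s)) ((cylP F).D none u (y, t)) t := by
  rw [D_none F hu]
  exact ((sm_slice_snd hu y).differentiable (by simp) t).hasDerivAt

theorem D_comm (hu : Sm (IC I) u) (a : ι) :
    (cylP F).D none ((cylP F).D (some a) u) = (cylP F).D (some a) ((cylP F).D none u) :=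
  funext fun x => dv_comm F.sm ((hu x).of_le two_le) a

theorem D_none_fst {f : Y → N} (hf : Sm I f) : (cylP F).D none (fun x => f x.1) = 0 :=
  funext fun x => by rw [D_none F (sm_fst hf)]; simp

theorem D_some_fst {f : Y → N} (hf : Sm I f) (a : ι) :
    (cylP F).D (some a) (fun x => f x.1) = fun x => F.D a f x.1 :=
  funext fun x => D_some F (sm_fst hf) a x

theorem D_none_snd {f : ℝ → N} (hf : ContDiff ℝ ∞ f) :
    (cylP F).D none (fun x => f x.2) = fun x => deriv f x.2 :=
  funext fun x => D_none F (sm_snd hf) x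

theorem D_some_snd {f : ℝ → N} (hf : ContDiff ℝ ∞ f) (a : ι) :
    (cylP F).D (some a) (fun x => f x.2) = 0 :=
  funext fun x => by
    rw [D_some F (sm_snd hf)]
    exact congrFun (dv_const (I := I) (e := F.e a) (f x.2)) x.1

/-- Fubini, cross sections inside -/
theorem integral_cyl [T2Space Y] [CompleteSpace N] (hu : Continuous u) (hc : HasCompactSupport u) :
    ∫ x, u x ∂(cylP F).μ = ∫ t, ∫ y, u (y, t) ∂F.μ :=
  integral_prod_symm u (hu.integrable_of_hasCompactSupport (μ := (cylP F).μ) hc)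

/-- Fubini, time inside -/
theorem integral_cyl' [T2Space Y] [CompleteSpace N] (hu : Continuous u) (hc : HasCompactSupport u) :
    ∫ x, u x ∂(cylP F).μ = ∫ y, (∫ t, u (y, t)) ∂F.μ :=
  integral_prod u (hu.integrable_of_hasCompactSupport (μ := (cylP F).μ) hc)

theorem integral_D_none [T2Space Y] [CompleteSpace N] (hu : Sm (IC I) u)
    (hc : HasCompactSupport u) : ∫ x, (cylP F).D none u x ∂(cylP F).μ = 0 := by
  rw [integral_cyl' F ((cylP F).sm_D hu none).continuous ((cylP F).hcs_D hc none)]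
  have : ∀ y, ∫ t, (cylP F).D none u (y, t) = 0 := fun y =>
    integral_eq_zero_of_hasDerivAt_of_integrable (hasDerivAt_slice F hu y)
      ((sm_slice_snd ((cylP F).sm_D hu none) y).continuous.integrable_of_hasCompactSupport
        (hcs_slice_snd ((cylP F).hcs_D hc none) y))
      ((sm_slice_snd hu y).continuous.integrable_of_hasCompactSupport (hcs_slice_snd hc y))
  simp [this]

end api

/-- projector of the cylinder frame -/
def cP (P : ι → ι → Y → ℝ) : Option ι → Option ι → Y × ℝ → ℝ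
  | none, none => fun _ => 1
  | some a, some b => fun x => P a b x.1
  | _, _ => fun _ => 0

/-- brackets of the cylinder frame -/
def cc (c : ι → ι → ι → Y → ℝ) : Option ι → Option ι → Option ι → Y × ℝ → ℝ
  | some a, some b, some l => fun x => c a b l x.1
  | _, _, _ => fun _ => 0

/-- divergences of the cylinder frame -/
def cd (d : ι → Y → ℝ) : Option ι → Y × ℝ → ℝ
  | some a => fun x => d a x.1
  | none => fun _ => 0

/-- the cylinder -/
def cyl [T2Space Y] (F : Fr I Y ι) : Fr (IC I) (Y × ℝ) (Option ι) where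
  toPre := cylP F.toPre
  P := cP F.P
  c := cc F.c
  dv := cd F.dv
  P_sm a b := by
    cases a <;> cases b
    exacts [contMDiff_const, contMDiff_const, contMDiff_const, sm_fst (F.P_sm _ _)]
  c_sm a b l := by
    cases a <;> cases b <;> cases l <;> first | exact contMDiff_const | exact sm_fst (F.c_sm _ _ _)
  dv_sm a := by
    cases a
    exacts [contMDiff_const, sm_fst (F.dv_sm _)]
  P_symm a b x := by
    cases a <;> cases b
    exacts [rfl, rfl, rfl, F.P_symm _ _ _]
  P_e a x := by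
    rw [Fintype.sum_option]
    cases a with
    | none => simp [cP]
    | some a =>
      have h := congrArg (ContinuousLinearMap.inl ℝ E ℝ) (F.P_e a x.1)
      erw [map_sum] at h
      simp only [cP, zero_smul, zero_add]
      refine Eq.trans (Finset.sum_congr rfl fun b _ => ?_) h
      exact ((ContinuousLinearMap.inl ℝ E ℝ).map_smul _ _).symm
  P_ker x ξ h a := by
    rw [Fintype.sum_option] at h ⊢
    have h1 := congrArg (ContinuousLinearMap.fst ℝ E ℝ) h
    have h2 := congrArg (ContinuousLinearMap.snd ℝ E ℝ) h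
    erw [map_add, map_sum, map_smul, map_zero] at h1 h2
    cases a with
    | none =>
      have h3 : ∑ b, (ContinuousLinearMap.snd ℝ E ℝ) (ξ (some b) • ce F.e (some b) x) = 0 :=
        Finset.sum_eq_zero fun b _ => smul_zero (ξ (some b))
      have h4 : ξ none • (1 : ℝ) + ∑ b, (ContinuousLinearMap.snd ℝ E ℝ)
          (ξ (some b) • ce F.e (some b) x) = 0 := h2
      rw [h3] at h4
      simpa [cP] using h4
    | some a =>
      have h3 : ξ none • (0 : E) + ∑ b, ξ (some b) • (show E from F.e b x.1) = 0 := h1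
      rw [smul_zero, zero_add] at h3
      simpa [cP] using F.P_ker x.1 (fun b => ξ (some b)) h3 a
  c_P a b l x := by
    rw [Fintype.sum_option]
    cases a <;> cases b <;> cases l <;> simp [cP, cc, F.c_P]
  br a b f x hf := by
    rw [Fintype.sum_option]
    cases a with
    | none =>
      cases b with
      | none => simp [cc]
      | some b => exact (sub_eq_zero.2 (dv_comm F.sm hf b)).trans (by simp [cc])
    | some a =>
      cases b with
      | none => exact (sub_eq_zero.2 (dv_comm F.sm hf a).symm).trans (by simp [cc])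
      | some b =>
        have h := F.br a b (fun z => f (z, x.2)) x.1
          (hf.comp x.1 (contMDiffAt_id.prodMk contMDiffAt_const))
        have h1 := dv_some_some F.sm hf a b
        have h2 := dv_some_some F.sm hf b a
        simp only [cc, zero_mul, zero_add, D_some_at F.toPre (hf.mdifferentiableAt (by simp))]
        exact (congrArg₂ (· - ·) h1 h2).trans h
  ibp a f hf hc := by
    cases a with
    | none => simpa [cd] using integral_D_none F.toPre hf hc
    | some a =>
      rw [integral_cyl F.toPre ((cylP F.toPre).sm_D hf _).continuous ((cylP F.toPre).hcs_D hc _),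
        integral_cyl F.toPre (u := fun x => cd F.dv (some a) x * f x)
          ((sm_fst (F.dv_sm a)).continuous.mul hf.continuous) hc.mul_left, ← integral_neg]
      refine integral_congr_ae (Eventually.of_forall fun t => ?_)
      simp only [D_some F.toPre hf]
      exact F.ibp a _ (sm_slice_fst hf t) (hcs_slice_fst hc t)

theorem cyl_toPre [T2Space Y] (F : Fr I Y ι) : (cyl F).toPre = cylP F.toPre := rfl

end Crest.Agent.X212.Cyf70
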