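import Crest.Agent.X212.Cyf70.Lz
import Crest.Agent.X212.Dec35.Nat

/-!
# Row 212, CYLF (helper70): the exact kernel on the cross-section
-/

set_option autoImplicit false
set_option linter.unusedSectionVars false
set_option linter.unusedSimpArgs false
noncomputable section
open scoped Manifold ContDiff Topology InnerProductSpace
open MeasureTheory Set Function Filter Real

namespace Crest.Agent.X212.Cyf70
open An An.Pre Map77 Sob92 Nd18 Dec35 Rf65

section gen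
variable {V W : Type} [NormedAddCommGroup V] [InnerProductSpace ℝ V] [NormedAddCommGroup W]
  [InnerProductSpace ℝ W]

theorem hd_cos {f g : ℝ → V} {z : V} {K : ℝ} (hg : HD g z)
    (h : ∀ ε, ‖f ε - g (sin ε)‖ ≤ K * |cos ε - 1|) : HD f z := by
  have h1 : HasDerivAt (g ∘ sin) (cos 0 • z) 0 :=
    HasDerivAt.scomp 0 (by rw [sin_zero]; exact hg) (hasDerivAt_sin 0)
  have h2 : HasDerivAt (fun ε => f ε - g (sin ε)) 0 0 := by
    have h0 := h 0
    rw [cos_zero, sub_self, abs_zero, mul_zero, norm_le_zero_iff] at h0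
    rw [hasDerivAt_iff_isLittleO_nhds_zero]
    simp only [h0, zero_add, smul_zero, sub_zero]
    refine (Asymptotics.IsBigO.of_bound K (g := fun ε => cos ε - 1) (.of_forall h)).trans_isLittleO ?_
    simpa using hasDerivAt_iff_isLittleO_nhds_zero.1 (hasDerivAt_cos 0)
  simpa using h2.fun_add h1

theorem HD.clm (L : V →L[ℝ] W) {f : ℝ → V} {z : V} (H : HD f z) : HD (fun ε => L (f ε)) (L z) :=
  L.hasFDerivAt.comp_hasDerivAt 0 H

theorem rot_der (B : V →L[ℝ] V →L[ℝ] W) (v p : V) {l l' z t0 : W} {t : ℝ → W} (ht : HD t z)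
    (h : ∀ ε, sin ε • l + (cos ε - 1) • l' + B (sin ε • v + (cos ε - 1) • p)
      (sin ε • v + (cos ε - 1) • p) - (t ε - t0) = 0) : l = z := by
  have k := fun {X : Type} [NormedAddCommGroup X] [NormedSpace ℝ X] (a b : X) =>
    ((hasDerivAt_sin 0).smul_const a).fun_add (((hasDerivAt_cos 0).sub_const 1).smul_const b)
  have := (((k l l').fun_add ((B.hasFDerivAt.comp_hasDerivAt 0 (k v p)).clm_apply (k v p))).fun_sub
    (ht.sub_const t0)).unique ((hasDerivAt_const (0 : ℝ) 0).congr_of_eventuallyEq (.of_forall h))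
  simpa [sub_eq_zero] using this

variable {E : Type} [NormedAddCommGroup E] [NormedSpace ℝ E] [FiniteDimensional ℝ E]
  [MeasurableSpace E] [BorelSpace E]
  {HM : Type} [TopologicalSpace HM] {I : ModelWithCorners ℝ E HM} [I.Boundaryless]
  {M : Type} [TopologicalSpace M] [ChartedSpace HM M] [IsManifold I ∞ M] [MeasurableSpace M]
  [T2Space M] [BorelSpace M] [SecondCountableTopology M] {ι : Type} [Fintype ι]
  {lam : Type} [Fintype lam] {r n : ℕ} {B : Base M ι lam} {G : Geo I M ι lam} {c : Cfg M ι lam r}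

variable (c) in
/-- the radial direction -/
def rdC (x : M) : Cv c := i2 _ _ (c.Φ x)

theorem tg_rdC (h : c.Adm B G) : Tg B c (rdC c) :=
  Tg.of (fun x => by rw [rdC, show fa (i2 _ _ (c.Φ x)) = 0 from f2_i2 _, map_zero]) fun x => by
    rw [rdC, show fp (i2 _ _ (c.Φ x)) = c.Φ x from s2_i2 _, h.pos]

theorem cb_rdC (h : Bs B G c) : G.F.Cb (rdC c) := Cb_clm (i2 (Fm ι c.m.A) c.m.V) h.cΦ

theorem rot_eq (ε : ℝ) : rot c (fun _ => ε) 0 = sin ε • jC c + (cos ε - 1) • rdC c :=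
  funext fun y => ext2 (by simp [jC, rdC]) ((fp_rot y).trans (by
    simp only [Pi.add_apply, Pi.smul_apply, map_add, map_smul, jC, rdC, s2_i2, Pi.zero_apply,
      map_zero, add_zero, ph_apply]
    module))

theorem lin_jC (hB : B.OK I) (hG : G.OK B) (h : c.Adm B G) {τ : Pt M ι lam r n} {x : M} {z : Ev c}
    (H : HD (fun ε : ℝ => te τ c (sin ε • jC c + (cos ε - 1) • rdC c) x) z)
    (h0 : ∀ ε : ℝ, se B G τ c (rot c (fun _ => ε) 0) x = 0) : lin B G.F c (jC c) x = z := by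
  refine rot_der (qd B c x) (jC c x) (rdC c x) (l' := lin B G.F c (rdC c) x) (t0 := te τ c 0 x) H
    fun ε => ?_
  have k := se_eq hB hG h τ
    (sm_rot h (θ := fun _ => ε) (v := 0) contMDiff_const contMDiff_const) (tg_rot h Tg.zero _) x
  have z := h0 0
  rw [rot_zero] at z
  rw [h0, z, zero_add, rot_eq, lin, app_lin (u := sin ε • jC c) (v := rdC c) _ _
    ((contMDiff_const (I' := 𝓘(ℝ, ℝ)) (c := sin ε)).smul (sm_jC h))
    (sm_clm (i2 (Fm ι c.m.A) c.m.V) h.sm), app_csmul _ _ (sm_jC h)] at k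
  exact k.symm

end gen

variable {E3 : Type} [NormedAddCommGroup E3] [NormedSpace ℝ E3] [FiniteDimensional ℝ E3]
  [MeasurableSpace E3] [BorelSpace E3]
  {H3 : Type} [TopologicalSpace H3] {I3 : ModelWithCorners ℝ E3 H3} [I3.Boundaryless]
  {Y : Type} [TopologicalSpace Y] [ChartedSpace H3 Y] [IsManifold I3 ∞ Y] [T2Space Y]
  [MeasurableSpace Y] [BorelSpace Y] [SecondCountableTopology Y] [CompactSpace Y]
  {κ : Type} [Fintype κ] {lam : Type} [Fintype lam]
  {N : ND Y lam} {D : YD I3 Y κ lam} {β : YC Y κ lam} {ξ η : Y → (cy β).m.A} {u : Cz β}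

theorem cb_csmul {k : ℕ} {c e : ℝ} (ε : ℝ) (hu : Sm (IC I3) u) (hc : D.Z.CB k u c) (he : |ε| ≤ e) :
    D.Z.CB k (ε • u) (e * |c|) := fun w hw x => by
  rw [Prm93.Dw_smul ε w hu, Pi.smul_apply, norm_smul]
  exact mul_le_mul he ((hc w hw x).trans (le_abs_self _)) (norm_nonneg _) ((abs_nonneg _).trans he)

theorem vb_csmul (ε : ℝ) (hu : Vb D β u) : Vb D β (ε • u) :=
  ⟨Cb_smul (Cb_const ε) hu.cb, hu.tg.smul fun _ => ε⟩

/-- solutions -/
theorem sz_zero (h : N.Crit D β) : sz D β (N.q1 D.nk) 0 = 0 := funext fun x => by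
  have e : ∀ c, c = cy β → c.eD D.G (N.q1 D.nk : Pt _ _ _ 0 0) x = 0 ∧
      c.eC D.B D.G (N.q1 D.nk : Pt _ _ _ 0 0) x = 0 := fun c e => e ▸ ⟨h.sol.D x, h.sol.C x⟩
  have := e _ cf_zero
  exact (congrArg₂ (fun (p : (cy β).m.V) (q : Fm _ (cy β).m.A) => i1 _ _ p + i2 _ _ q) this.1
    this.2).trans ((congrArg₂ (· + ·) (map_zero _) (map_zero _)).trans (add_zero _))

/-- at a point fixed by the circle the generator vanishes -/
theorem n0_fix (h : Hz N D β) (hη : Gs I3 β η) (hl : LapStmt I3 Y κ lam) (irr : Irr D β)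
    (h0 : sig D.B D.Z (cy β) 2 (fun x => jY β x.1 + gY D β 1 η x.1) = 0)
    (H : Fix D.Z (cy β) univ) : n0 h hη = 0 := by
  obtain ⟨ζ, p, e⟩ := H
  have s : Sm (IC I3) ζ := contMDiffOn_univ.1 p.sm
  have g : Gs I3 β fun y => ζ (y, 0) := ⟨sm_slice_fst s 0, fun x => p.mem (x.1, 0) trivial⟩
  have e1 : ∀ y, jY β y + gY D β 1 η y = gY D β 1 (η + (1 : ℝ) • fun y => ζ (y, 0)) y := fun y => by
    rw [gY_lin h hη g, one_smul, add_comm]
    refine congrArg _ (ext2 (fm_ext fun a => ?_) ?_)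
    · rw [jY, fa_jC, gY]
      cases a with
      | none => exact (fa_dg_none h.adm g.sm _).symm
      | some a =>
        rw [fa_dg_some (sm_fst g.sm) (y, 0) a, ← fa_dg_some (l := 1) s (y, 0) a, fa_dg,
          p.par _ _ trivial, neg_zero]; rfl
    · rw [jY, fp_jC, gY, fp_dg, one_smul]; exact (e (y, 0) trivial).symm
  have e2 := xi_zero h hl irr (hη.lin g 1) (by
    simp only [← e1, h0, Pi.zero_apply, inner_zero_left, integral_zero])
  refine Subtype.ext (funext fun y => ?_)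
  change sc2 _ _ (1 / 2) 1 (jY β y + gY D β 1 η y) = 0
  rw [e1, e2, show gY D β 1 0 y = 0 from dg_zero _, map_zero]

namespace Kp
variable (h : Kp N D β)
include h

theorem hd_rot {p v : Cz β} (hp : Vb D β p) (hv : Vb D β v) {x : Y × ℝ} {z : Cv (cy β)}
    (H : HD (fun ε : ℝ => gz N D β (ε • v) x) z) :
    HD (fun ε : ℝ => gz N D β (sin ε • v + (cos ε - 1) • p) x) z := by
  obtain ⟨γ, hγ, k, hK⟩ := h.p1
  obtain ⟨A, hA⟩ := hp.cb
  obtain ⟨B, hB⟩ := hv.cb
  obtain ⟨K, hK⟩ := hK (1 * |B k| + 2 * |A k|)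
  refine hd_cos (K := K * |A k|) H fun ε => ?_
  have v1 := vb_csmul (sin ε) (⟨⟨B, hB⟩, hv.tg⟩ : Vb D β v)
  have v2 := vb_csmul (cos ε - 1) (⟨⟨A, hA⟩, hp.tg⟩ : Vb D β p)
  have c1 := cb_csmul (sin ε) hB.1 (hB.2 k) (abs_sin_le_one ε)
  have c2 := cb_csmul (e := 2) (cos ε - 1) hA.1 (hA.2 k)
    (abs_le.2 ⟨by linarith [neg_one_le_cos ε], by linarith [cos_le_one ε]⟩)
  refine (hK _ _ ⟨Cb_add v1.cb v2.cb, v1.tg.add v2.tg⟩ v1 (CB_add v1.cb.choose_spec.1
    v2.cb.choose_spec.1 c1 c2) (CB_mono c1 (le_add_of_nonneg_right (by positivity))) x.2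
    (|cos ε - 1| * |A k|) (by positivity) (fun s => ?_) x.1).trans_eq (by ring)
  rw [add_sub_cancel_left]
  exact (Lt.of_CB (cb_csmul _ hA.1 (hA.2 k) le_rfl) s).mono le_rfl
    (le_mul_of_one_le_right (by positivity) (one_le_exp (by positivity)))

theorem hz_none (s : SY D β) (s0 : ∀ y, fa (s.1 y) none = 0) (x : Y × ℝ) :
    fa (hz N D β (fun x => s.1 x.1) x) none = 0 :=
  let ⟨_, _, _, _, H⟩ := h.slice s
  ((pj _ none ∘L fa).hasFDerivAt.comp_hasDerivAt 0 (H x).1).unique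
    ((hasDerivAt_const (0 : ℝ) 0).congr_of_eventuallyEq (Eventually.of_forall fun ε =>
      h.iv (ε • s).1 (ε • s).2.1 (tg_fst h.toHz (ε • s)) (fun y => by simp [s0]) x))

/-- the direction of the circle solves the linearised equations -/
theorem j_ker (hc : N.Crit D β) (hn : NatZ D (N.q1 D.nk : Pt _ _ _ 0 0)) (x : Y × ℝ) :
    lin D.B D.Z (cy β) (fun x => jY β x.1) x = kE D β x (hz N D β (fun x => jY β x.1) x) := by
  obtain ⟨γ, -, C, -, H⟩ := h.slice (jS h.toHz)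
  have k0 : HD (fun ε : ℝ => gz N D β (ε • jC (cy β)) x) (hz N D β (jC (cy β)) x) := (H x).1
  have v : Vb D β (jC (cy β)) := vb_fst h.toHz (jS h.toHz)
  have p : Vb D β (rdC (cy β)) := ⟨cb_rdC (G := D.G) (bs_cyl h.ok h.adm), tg_rdC h.adm.adm⟩
  have z : ∀ ε : ℝ, sz D β (N.q1 D.nk) (rot (cy β) (fun _ => ε) 0) x = 0 := fun ε =>
    (sz_rot_const h.ok h.adm hn (a := 0) contMDiff_const Tg.zero ε x).trans (by
      rw [sz_zero hc]; exact map_zero _)
  rw [show (fun x : Y × ℝ => jY β x.1) = jC (cy β) from rfl]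
  refine lin_jC h.ok.B h.ok.G h.adm.adm ?_ z
  simp only [te_q1 h.toHz]
  exact (h.hd_rot p v k0).clm _

variable (hd : Module.finrank ℝ E3 ≤ 3) {K : HZ D β 0 →L[ℝ] HZ D β 0} (hK : IsK N D β K)
include hd

theorem σ_half {s : SY D β} {x : Y × ℝ} (h1 : lin D.B D.Z (cy β) (fun x => s.1 x.1) x =
      kE D β x (hz N D β (fun x => s.1 x.1) x))
    (h2 : fa (hz N D β (fun x => s.1 x.1) x) none = 0) :
    (AZ D β).σ none x.1 (EY N D β (scY h.toHz (1 / 2) 1 s).1 x.1) =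
      i1 _ _ ((1 / 2 : ℝ) • sig D.B D.Z (cy β) 2 (fun x => s.1 x.1) x) := by
  have k := h.σ_EY hd (scY h.toHz (1 / 2) 1 s) x
  rw [show (fun y : Y × ℝ => sc2 _ _ 2 1 ((scY h.toHz (1 / 2) 1 s).1 y.1)) = fun x => s.1 x.1 from
    sc2_half fun x => s.1 x.1, KE, ← h1, KT, _root_.smul_apply, show (pj _ none ∘L fa) _ = 0 from h2,
    sub_self, map_zero, map_zero, smul_zero, add_zero, add_zero] at k
  exact k

include hK

theorem EY_add (s t : SY D β) : EY N D β (s + t).1 = EY N D β s.1 + EY N D β t.1 := by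
  obtain ⟨e, e1, e2⟩ := h.OY_toH hd hK s
  obtain ⟨f, f1, f2⟩ := h.OY_toH hd hK t
  obtain ⟨g, g1, g2⟩ := h.OY_toH hd hK (s + t)
  rw [map_add, map_add, e2, f2, ← map_add] at g2
  rw [← g1, ← e1, ← f1, ← Ell97.toH_inj D.F 0 _ g2]; rfl

variable (hc : N.Crit D β) (hn : NatZ D (N.q1 D.nk : Pt _ _ _ 0 0)) (hη : Gs I3 β η)
  (h0 : sig D.B D.Z (cy β) 2 (fun x => jY β x.1 + gY D β 1 η x.1) = 0)
include hc hn h0

/-- **the generator lies in the kernel** -/
theorem OY_n0 : OY K (D.F.toH 1 _ (n0 h.toHz hη)) = 0 := by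
  obtain ⟨e, e1, e2⟩ := h.OY_toH hd hK (n0 h.toHz hη)
  rw [e2, show e = 0 from Subtype.ext (funext fun y => ?_), map_zero]
  have s : n0 h.toHz hη = scY h.toHz (1 / 2) 1 (jS h.toHz) + scY h.toHz (1 / 2) 1 (gS h.toHz 1 hη) :=
    Subtype.ext (funext fun y => map_add (sc2 _ _ (1 / 2) 1) (jY β y) (gY D β 1 η y))
  have g := h.gau_fst hc hη (y, 0)
  have k1 := h.σ_half hd (s := jS h.toHz) (h.j_ker hc hn (y, 0))
    (h.hz_none _ (fun y => congrArg (· none) (fa_jC (c := cy β) (y, 0))) _)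
  have k2 := h.σ_half hd (s := gS h.toHz 1 hη) g.1 g.2
  have k3 := sig_lin (F := D.Z) (B := D.B) (l := 2) 1 (sm_fst (jS h.toHz).2.1)
    (sm_fst (gS h.toHz 1 hη).2.1) (y, 0)
  rw [one_smul, one_smul] at k3
  have k4 : (AZ D β).σ none y (e.1 y) = 0 := by
    rw [e1, s, h.EY_add hd hK, Pi.add_apply, map_add, k1, k2, ← map_add, ← smul_add,
      k3.symm.trans (congrFun h0 _), Pi.zero_apply, smul_zero, map_zero]
  have k5 := (cyO_AZ h.toHz hd).inner_σ (e.2.2.2 y) (e.1 y)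
  rw [k4, inner_zero_left] at k5
  exact inner_self_eq_zero.1 k5

variable (hl : LapStmt I3 Y κ lam) (irr : Irr D β) (hN : N.Nondeg D β)
include hl irr hN

/-- **the kernel** -/
theorem ker_eq : (OY K).ker = ℝ ∙ D.F.toH 1 _ (n0 h.toHz hη) := by
  refine le_antisymm (fun v hv => ?_) ((Submodule.span_singleton_le_iff_mem _ _).2
    (h.OY_n0 hd hK hc hn hη h0))
  obtain ⟨c, e⟩ := h.ker_le hd hK hl hc irr hN hη h0 hv
  exact Submodule.mem_span_singleton.2 ⟨c, e.symm⟩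

omit h0 in
open Classical in
theorem finrank_ker : Module.finrank ℝ (OY K).ker = if Fix D.Z (cy β) univ then 0 else 1 := by
  obtain ⟨η, hη, h0⟩ := exists_u0 h.toHz hl irr
  rw [h.ker_eq hd hK hc hn hη h0 hl irr hN]
  split_ifs with f
  · rw [n0_fix h.toHz hη hl irr h0 f, map_zero, Submodule.span_zero_singleton, finrank_bot]
  · refine finrank_span_singleton fun e => f (fix_n0 h.toHz hη ?_)
    rw [μ0, Ell97.toH_inj D.F 1 _ (e.trans (map_zero _).symm), ← inner_toH, map_zero, inner_zero_left]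

end Kp

end Crest.Agent.X212.Cyf70
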