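import Crest.Agent.X212.Cyf70.CD
import Crest.Agent.X212.Crt72.Mass

/-!
# Row 212, CYLF (helper70): the index of `∂_t + L + a(t)` is the spectral flow (`Crt72.SF`)
-/

set_option autoImplicit false
set_option linter.unusedSectionVars false
open Function Filter Topology Module Set MeasureTheory
open scoped RealInnerProductSpace BoundedContinuousFunction ContDiff

noncomputable section
namespace Crest.Agent.X212.Cyf70
open Crest.Agent.X212.Fred93 (Fr ind Est)
open Crest.Agent.X212.Crt72 (IsPj SF)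

theorem R.of_eq {X : Type*} [NormedAddCommGroup X] {f f' : Lam X} {g g' : ℝ → X} (e : f = f')
    (h : R f g) (h' : R f' g') : ∀ᵐ t, g t = g' t := EventuallyEq.trans h.symm (e ▸ h')

theorem memLp_exp {c : ℝ} (hc : 0 < c) : MemLp (fun t : ℝ => Real.exp (-(c * |t|))) 2 volume := by
  rw [memLp_two_iff_integrable_sq (by fun_prop), ← integrableOn_univ, ← Iic_union_Ioi (a := 0)]
  refine IntegrableOn.union ?_ ?_
  · refine (integrableOn_exp_mul_Iic (a := 2 * c) (by linarith) 0).congr_fun (fun t ht => ?_)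
      measurableSet_Iic
    simp only [abs_of_nonpos (mem_Iic.1 ht), ← Real.exp_nat_mul]
    congr 1; push_cast; ring
  · refine (integrableOn_exp_mul_Ioi (a := -(2 * c)) (by linarith) 0).congr_fun (fun t ht => ?_)
      measurableSet_Ioi
    simp only [abs_of_pos (mem_Ioi.1 ht), ← Real.exp_nat_mul]
    congr 1; push_cast; ring

theorem Stp.exists_prim {σ σ' : ℝ →ᵇ ℝ} {r : ℝ} (h : Stp σ σ' r) :
    ∃ (Λ : ℝ → ℝ) (C : ℝ), (∀ t, HasDerivAt Λ (2 * σ t - 1) t) ∧ ∀ t, |t| - C ≤ Λ t := by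
  let G : ℝ → ℝ := fun t => ∫ s in (0 : ℝ)..t, σ s
  have hG : ∀ t, |G t| ≤ ‖σ‖ * |t| := fun t => by
    simpa using intervalIntegral.norm_integral_le_of_norm_le_const (a := 0) (b := t)
      fun s _ => σ.norm_coe_le_norm s
  have ha : ∀ a b, G b = G a + ∫ s in a..b, σ s := fun a b =>
    (intervalIntegral.integral_add_adjacent_intervals (σ.continuous.intervalIntegrable _ _)
      (σ.continuous.intervalIntegrable _ _)).symm
  have hr := h.pos
  refine ⟨fun t => 2 * G t - t, 2 * (‖σ‖ * r + r), fun t =>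
    ((σ.continuous.integral_hasStrictDerivAt 0 t).hasDerivAt.const_mul 2).sub (hasDerivAt_id t),
    fun t => show _ ≤ 2 * G t - t from ?_⟩
  rcases le_total t (-r) with h1 | h1
  · have := abs_le.1 (hG (-r))
    rw [ha (-r) t, intervalIntegral.integral_congr (g := fun _ => 0) fun s hs => h.lo s
      (uIcc_of_ge h1 ▸ hs).2, abs_of_nonpos (by linarith)]
    rw [abs_neg, abs_of_pos hr] at this
    simp only [intervalIntegral.integral_zero]; linarith
  rcases le_total r t with h2 | h2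
  · have := abs_le.1 (hG r)
    rw [ha r t, intervalIntegral.integral_congr (g := fun _ => 1) fun s hs => h.hi s
      (uIcc_of_le h2 ▸ hs).1, abs_of_nonneg (by linarith)]
    rw [abs_of_pos hr] at this
    simp only [intervalIntegral.integral_const, smul_eq_mul]; linarith
  · have h3 : |t| ≤ r := abs_le.2 ⟨h1, h2⟩
    have := abs_le.1 ((hG t).trans (mul_le_mul_of_nonneg_left h3 (norm_nonneg _)))
    linarith

variable {X₁ X₀ Z : Type*} [NormedAddCommGroup X₁] [NormedSpace ℝ X₁] [CompleteSpace X₁]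
  [NormedAddCommGroup X₀] [InnerProductSpace ℝ X₀] [CompleteSpace X₀] [NormedAddCommGroup Z]
  [NormedSpace ℝ Z] [CompleteSpace Z]
  {i L : X₁ →L[ℝ] X₀} {J : Z →L[ℝ] Lam X₁} {T : Z →L[ℝ] Lam X₀}

variable (i L J T) in
/-- the index of `∂_t + L + a + σ(t) (b - a)` -/
def sf (σ : ℝ →ᵇ ℝ) (a b : X₀ →L[ℝ] X₀) : ℤ :=
  cind (mt X₀ σ) (Dz i L J T (cp a)) (Dz i L J T (cp b))

variable (X₀) in
/-- symmetric operators -/
def SymA : Submodule ℝ (X₀ →L[ℝ] X₀) where
  carrier := {a | ∀ x y, ⟪a x, y⟫ = ⟪x, a y⟫}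
  add_mem' {a b} ha hb x y := by simp [inner_add_left, inner_add_right, ha x y, hb x y]
  zero_mem' x y := by simp
  smul_mem' c a ha x y := by simp [real_inner_smul_left, real_inner_smul_right, ha x y]

theorem gl_Dz (σ K K' : Lam X₀ →L[ℝ] Lam X₀) :
    gl σ (Dz i L J T K) (Dz i L J T K') = Dz i L J T (K + σ ∘L (K' - K)) := by
  ext1 u; simp [gl_apply, Dz_apply, add_assoc]

namespace CylD
variable {τ : ℝ} (h : CylD τ i L J T)
include h

theorem ode {μ : ℝ →ᵇ ℝ} {F : ℝ → ℝ} (hF : ∀ t, HasDerivAt F (-(τ * μ t * F t)) t)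
    (hF0 : ∀ t, 0 < F t) {u : Z} (hu : T u + mt X₀ μ (cp i (J u)) = 0) :
    ∃ c : X₀, R (cp i (J u)) fun t => F t • c := by
  refine weak_ode (μ := fun t => τ * μ t) (by fun_prop) hF hF0 fun φ φ' h1 h2 h3 => ?_
  have c0 : Continuous φ := continuous_iff_continuousAt.2 fun t => (h1 t).continuousAt
  have h4 : HasCompactSupport φ' := by
    rw [show φ' = deriv φ from funext fun t => (h1 t).deriv.symm]; exact h3.deriv
  have hl : LocallyIntegrable (cp i (J u)) volume := (Lp.memLp _).locallyIntegrable one_le_two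
  have h5 : HasCompactSupport fun t => φ' t - τ * μ t * φ t := h4.sub h3.mul_left
  refine ext_inner_left ℝ fun x => ?_
  have r1 := (R.toLp (c0.memLp_of_hasCompactSupport h3)).ten x
  have r2 := (R.toLp (h2.memLp_of_hasCompactSupport h4)).ten x
  have h6 := h.ibp r1 r2 (fun t => (h1 t).smul_const x) u
  have r3 : R (T u) fun t => -(μ t • cp i (J u) t) := by
    rw [eq_neg_of_add_eq_zero_left hu]; exact ((R.rfl _).ma μ _).neg
  rw [r3.inner r1, (R.rfl _).inner r2, ← integral_const_mul, ← integral_add (r3.integrable r1)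
    (((R.rfl _).integrable r2).const_mul τ)] at h6
  rw [inner_zero_right, ← integral_inner (hl.integrable_smul_left_of_hasCompactSupport
    (by fun_prop) h5), ← mul_zero τ, ← h6, ← integral_const_mul]
  refine integral_congr_ae (ae_of_all _ fun t => ?_)
  simp only [real_inner_smul_right, inner_neg_left, real_inner_comm x]
  linear_combination (-(φ' t * ⟪x, cp i (J u) t⟫)) * h.sq

variable {a P : X₀ →L[ℝ] X₀} {K : Submodule ℝ X₁} {ε : ℝ} (ha : a ∈ SymA X₀) (hP : IsPj i K P)
  (hK : ∀ k ∈ K, Crt72.Op i L a k = -ε • i k)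
include ha hP hK

theorem inner_pj (x : X₁) (y : X₀) : ⟪L x + a (i x), P y⟫ = -ε * ⟪i x, P y⟫ := by
  obtain ⟨k, hk, e⟩ := hP.mem y
  rw [e, inner_add_left, h.sym, ha, ← inner_add_right, ← Crt72.Op_apply, hK k hk,
    real_inner_smul_right]

theorem lift_pj {y : Lam X₀} (hy : cp P y = y) {g : Lam X₀} (hg : ∀ w, ⟪T w, y⟫ = -⟪cp i (J w), g⟫) :
    ∃ v, cp i (J v) = y ∧ Dz i L J T (cp a) v = g - ε • y := by
  obtain ⟨v, h1, h2⟩ := h.neg.regK (inner_ma 1 ha) (y := y) (g := g - ε • y) fun w => by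
    have : ⟪cp L (J w) + cp a (cp i (J w)), cp P y⟫ = ⟪cp i (J w), -ε • cp P y⟫ :=
      R.inner_eq (by rr) (by rr) (by rr) (by rr) (ae_of_all _ fun t => by
        simpa [real_inner_smul_right] using h.inner_pj ha hP hK _ _)
    rw [hy] at this
    rw [Dz_apply, add_assoc, inner_add_left, this, neg_apply, inner_neg_left, hg, neg_neg,
      ← inner_add_right, neg_smul, sub_eq_add_neg]
  exact ⟨v, h1, by simpa using h2⟩

theorem split (hb : Bijective (Crt72.Op i L a)) {ν : ℝ →ᵇ ℝ} {u : Z}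
    (hu : Dz i L J T (cp a + ma ν P) u = 0) : cp P (cp i (J u)) = cp i (J u) ∧
      T u + mt X₀ (ν - .const ℝ ε) (cp i (J u)) = 0 := by
  have hPP : ∀ y, P (P y) = P y := fun y => let ⟨k, hk, e⟩ := hP.mem y; by rw [e, hP.fix k hk]
  obtain ⟨v, h1, h2⟩ := h.lift_pj ha hP hK (y := cp P (cp i (J u)))
    (R.ext' (by rr) (by rr) fun t => by simp [hPP]) fun w => h.skew P w u
  have e := R.of_eq (show T u + cp L (J u) + (cp a (cp i (J u)) + ma ν P (cp i (J u))) = 0 from hu)
    (by rr) (by rr)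
  have hS : ∀ x, P (L x + a (i x)) = -ε • P (i x) := fun x => ext_inner_right ℝ fun y => by
    rw [hP.symm, h.inner_pj ha hP hK, real_inner_smul_left, hP.symm]
  have h3 : v = u := (h.bij_cp ha hb).1 (by
    rw [h2, Dz_apply]
    refine R.ext (by rr) (by rr) ?_
    filter_upwards [e] with t ht
    simp only [BoundedContinuousFunction.coe_one, Pi.one_apply, one_smul] at ht ⊢
    have e1 := congrArg P ht
    rw [add_assoc, ← add_assoc (L _), map_add, map_add, hS, map_smul, hPP, map_zero] at e1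
    linear_combination (norm := module) e1 - ht)
  subst h3
  refine ⟨h1.symm, R.ext (by rr) R.zero ?_⟩
  filter_upwards [e, R.of_eq h1 (by rr) (by rr)] with t ht h4
  simp only [BoundedContinuousFunction.coe_one, Pi.one_apply, one_smul] at ht h4
  obtain ⟨k, hk, e1⟩ := hP.mem (i (J v t))
  have e2 : L (J v t) + a (i (J v t)) = -ε • i (J v t) := by
    rw [h.inj (h4.trans e1)]; exact hK k hk
  rw [← h4] at ht
  simp only [BoundedContinuousFunction.coe_one, Pi.one_apply, one_smul,
    BoundedContinuousFunction.coe_sub, Pi.sub_apply, BoundedContinuousFunction.const_apply,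
    ContinuousLinearMap.id_apply]
  linear_combination (norm := module) ht - e2

omit h ha hP hK

/-- **one eigenvalue crossing** -/
theorem flip (h : CylD 1 i L J T) (ha : a ∈ SymA X₀) (hP : IsPj i K P)
    (hK : ∀ k ∈ K, Crt72.Op i L a k = -ε • i k) (hε : 0 < ε) {σ σ' : ℝ →ᵇ ℝ} {r : ℝ}
    (hσ : Stp σ σ' r) (hb : Bijective (Crt72.Op i L a))
    (hb' : Bijective (Crt72.Op i L (a + (2 * ε) • P))) :
    sf i L J T σ a (a + (2 * ε) • P) = finrank ℝ K := by
  obtain ⟨s, hs⟩ := h.exists_mul hσ.der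
  have hf := fr_gl (h.lim_cp hσ (fun u => (hs u).1) ha hb) (h.lim_cp hσ (fun u => (hs u).1)
    ((SymA X₀).add_mem ha ((SymA X₀).smul_mem (2 * ε) hP.symm)) hb')
  let ν := (2 * ε) • σ
  have e0 : cp a + mt X₀ σ ∘L (cp (a + (2 * ε) • P) - cp a) = cp a + ma ν P := by
    ext1 f; simp [ν, ma_ma, ma_smul]
  rw [gl_Dz, e0] at hf
  obtain ⟨Λ, C, hΛ, hC⟩ := hσ.exists_prim
  have hν : ∀ t, (ν - .const ℝ ε : ℝ →ᵇ ℝ) t = ε * (2 * σ t - 1) := fun t => by simp [ν]; ring
  have hsy : ∀ x y, ⟪(cp a + ma ν P) x, y⟫ = ⟪x, (cp a + ma ν P) y⟫ := fun x y => by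
    simp only [_root_.add_apply, inner_add_left, inner_add_right, inner_ma 1 ha, inner_ma ν hP.symm]
  have hsur := h.surj hsy hf.1.isClosed_range fun v hv => by
    obtain ⟨c, hc⟩ := h.neg.ode (F := fun t => Real.exp (ε * Λ t)) (fun t =>
      ((hΛ t).const_mul ε).exp.congr_deriv (by rw [hν]; ring)) (fun t => Real.exp_pos _)
      (h.neg.split ha hP hK hb hv).2
    have h1 : MemLp (fun _ : ℝ => c) 2 volume :=
      hc.memLp.of_le_mul (c := Real.exp (ε * C)) aestronglyMeasurable_const (ae_of_all _ fun t => by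
        rw [norm_smul, Real.norm_of_nonneg (Real.exp_pos _).le, ← mul_assoc, ← Real.exp_add]
        refine le_mul_of_one_le_left (norm_nonneg _) (Real.one_le_exp ?_)
        nlinarith [hC t, abs_nonneg t])
    have h2 : c = 0 := ((memLp_const_iff two_ne_zero ENNReal.ofNat_ne_top).1 h1).resolve_right
      (by simp)
    exact h.injI ((hc.ext' R.zero fun t => by simp [h2]).trans (by simp))
  have hF : ∀ t, HasDerivAt (fun t => Real.exp (-(ε * Λ t)))
      (-(1 * (ν - .const ℝ ε : ℝ →ᵇ ℝ) t * Real.exp (-(ε * Λ t)))) t := fun t =>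
    ((hΛ t).const_mul ε).fun_neg.exp.congr_deriv (by rw [hν]; ring)
  have hm : MemLp (fun t => Real.exp (-(ε * Λ t))) 2 volume :=
    (memLp_exp hε).of_le_mul (c := Real.exp (ε * C))
      (continuous_iff_continuousAt.2 fun t => (hF t).continuousAt).aestronglyMeasurable
      (ae_of_all _ fun t => by
        rw [Real.norm_of_nonneg (Real.exp_pos _).le, Real.norm_of_nonneg (Real.exp_pos _).le,
          ← Real.exp_add]
        exact Real.exp_le_exp.2 (by nlinarith [hC t]))
  have rF := R.toLp hm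
  let θ : X₁ →L[ℝ] Lam X₀ := ten (hm.toLp _) ∘L i
  have rθ : ∀ k, R (θ k) fun t => Real.exp (-(ε * Λ t)) • i k := fun k => rF.ten _
  have hθ : Injective θ := fun k k' e => by
    obtain ⟨t, ht⟩ := (R.of_eq e (rθ k) (rθ k')).exists
    exact h.inj (smul_right_injective _ (Real.exp_pos _).ne' ht)
  have hmap : (Dz i L J T (cp a + ma ν P)).ker.map (cp i ∘L J : Z →L[ℝ] Lam X₀).toLinearMap =
      K.map θ.toLinearMap := by
    ext y
    constructor
    · rintro ⟨u, hu, rfl⟩
      obtain ⟨h1, h2⟩ := h.split ha hP hK hb hu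
      obtain ⟨c, hc⟩ := h.ode hF (fun t => Real.exp_pos _) h2
      obtain ⟨k, hk, e⟩ := hP.mem c
      exact ⟨k, hk, ((rθ k).ext' (hc.ma 1 P) fun t => by simp [e]).trans h1⟩
    · rintro ⟨k, hk, rfl⟩
      have r := rθ k
      obtain ⟨v, h1, h2⟩ := h.lift_pj ha hP hK (y := θ k)
        (R.ext' (r.ma 1 P) r fun t => by simp [hP.fix k hk])
        (g := -mt X₀ (ν - .const ℝ ε) (θ k)) fun w => by
          have := h.ibp r (r.ma (ν - .const ℝ ε) (ContinuousLinearMap.id ℝ _)).neg
            (fun t => ((hF t).smul_const (i k)).congr_deriv (by simp [smul_smul])) w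
          linarith
      refine ⟨v, ?_, h1⟩
      change Dz i L J T (cp a) v = _ at h2
      change T v + cp L (J v) + (cp a (cp i (J v)) + ma ν P (cp i (J v))) = 0
      rw [← add_assoc, ← Dz_apply, h2, h1]
      exact R.ext' (by rr) R.zero fun t => by simp [hP.fix k hk, sub_smul]
  rw [sf, ← hf.finrank_ker hsur, (Submodule.equivMapOfInjective
    (cp i ∘L J : Z →L[ℝ] Lam X₀).toLinearMap h.injI _).finrank_eq, hmap,
    ← (Submodule.equivMapOfInjective θ.toLinearMap hθ K).finrank_eq]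

/-- **The index on the cylinder is a spectral flow.** -/
theorem isSF (h : CylD 1 i L J T) (hi : IsCompactOperator i) (hL : Fr L 0) {σ σ' : ℝ →ᵇ ℝ} {r : ℝ}
    (hσ : Stp σ σ' r) : SF i L (SymA X₀) (sf i L J T σ) := by
  obtain ⟨s, hs⟩ := h.exists_mul hσ.der
  have l := fun a => h.lim_cp (a := a) hσ fun u => (hs u).1
  refine ⟨h.inj, hi, h.sym, hL, fun a ha => ha, fun _ _ _ _ P hP => hP.symm,
    fun a ha b hb c hc h1 h2 h3 => cind_add (l a ha h1) (l b hb h2) (l c hc h3),
    fun a ha b hb H => ?_, fun a ha K P ε hε _ hP _ hK => h.flip ha hP hK hε hσ⟩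
  have := cind_path (A := fun s => Dz i L J T (cp (a + s • (b - a))))
    (Continuous.continuousOn (by unfold Dz; fun_prop)) fun s hs => l _
      ((SymA X₀).add_mem ha ((SymA X₀).smul_mem s ((SymA X₀).sub_mem hb ha))) (H s hs)
  simpa [sf] using this

end CylD

end Crest.Agent.X212.Cyf70
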