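import Crest.Agent.X212.Cyf70.L2
import Crest.Agent.X212.Cyf70.Flip
import Crest.Agent.X212.Ell97.Main
import Crest.Agent.X212.Cht98.Cov

/-!
# Row 212, CYLF (helper70): translation invariant operators of Dirac type `ν (∂_t + L)` on `Y × ℝ`
-/

set_option autoImplicit false
set_option linter.unusedSectionVars false
noncomputable section
open scoped Manifold ContDiff Topology InnerProductSpace BoundedContinuousFunction
open MeasureTheory Set Function Filter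

namespace Crest.Agent.X212.Cyf70
open An An.Pre Sob92 Ell97
open Fred93 (Est)

section good
variable {E : Type} [NormedAddCommGroup E] [NormedSpace ℝ E] [FiniteDimensional ℝ E]
  [MeasurableSpace E] [BorelSpace E]
  {HM : Type} [TopologicalSpace HM] {I : ModelWithCorners ℝ E HM}
  {M : Type} [TopologicalSpace M] [ChartedSpace HM M] [IsManifold I ∞ M] [MeasurableSpace M]
  {ι : Type} [Fintype ι] {V W : Type} [NormedAddCommGroup V] [InnerProductSpace ℝ V]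
  [NormedAddCommGroup W] [InnerProductSpace ℝ W]

theorem good_of_cb {F : Fr I M ι} {A : Op M ι V W} (hp : F.Cb A.p) (hq : F.Cb A.q)
    (hσ : ∀ a, F.Cb (A.σ a)) (hB : F.Cb A.B) (p1 : ∀ x v, A.p x (A.p x v) = A.p x v)
    (p2 : ∀ x v w, ⟪A.p x v, w⟫_ℝ = ⟪v, A.p x w⟫_ℝ) (q1 : ∀ x v, A.q x (A.q x v) = A.q x v)
    (q2 : ∀ x v w, ⟪A.q x v, w⟫_ℝ = ⟪v, A.q x w⟫_ℝ) (σp : ∀ a x v, A.σ a x (A.p x v) = A.σ a x v)
    (qσ : ∀ a x v, A.q x (A.σ a x v) = A.σ a x v) (qB : ∀ x v, A.q x (A.B x v) = A.B x v)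
    (Pσ : ∀ a x, ∑ b, F.P a b x • A.σ b x = A.σ a x) : ∃ C, A.Good F C := by
  obtain ⟨C1, h1⟩ := hp
  obtain ⟨C2, h2⟩ := hq
  choose C3 h3 using hσ
  obtain ⟨C4, h4⟩ := hB
  have h0 : ∀ k, 0 ≤ ∑ a, |C3 a k| := fun k => Finset.sum_nonneg fun _ _ => abs_nonneg _
  refine ⟨fun k => |C1 k| + |C2 k| + |C4 k| + ∑ a, |C3 a k|, ⟨CBs_mono h1 fun k => ?_, p1, p2⟩,
    ⟨CBs_mono h2 fun k => ?_, q1, q2⟩, fun a => CBs_mono (h3 a) fun k => ?_,
    CBs_mono h4 fun k => ?_, σp, qσ, qB, Pσ⟩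
  · linarith [le_abs_self (C1 k), abs_nonneg (C2 k), abs_nonneg (C4 k), h0 k]
  · linarith [le_abs_self (C2 k), abs_nonneg (C1 k), abs_nonneg (C4 k), h0 k]
  · linarith [le_abs_self (C3 a k), abs_nonneg (C1 k), abs_nonneg (C2 k), abs_nonneg (C4 k),
      Finset.single_le_sum (f := fun a => |C3 a k|) (fun _ _ => abs_nonneg _) (Finset.mem_univ a)]
  · linarith [le_abs_self (C4 k), abs_nonneg (C1 k), abs_nonneg (C2 k), h0 k]

end good

variable {E : Type} [NormedAddCommGroup E] [NormedSpace ℝ E] [FiniteDimensional ℝ E]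
  [MeasurableSpace E] [BorelSpace E]
  {HM : Type} [TopologicalSpace HM] {I : ModelWithCorners ℝ E HM} [I.Boundaryless]
  {Y : Type} [TopologicalSpace Y] [ChartedSpace HM Y] [IsManifold I ∞ Y] [T2Space Y]
  [MeasurableSpace Y] [BorelSpace Y] [SecondCountableTopology Y] [CompactSpace Y]
  {ι : Type} [Fintype ι]
  {V W : Type} [NormedAddCommGroup V] [InnerProductSpace ℝ V] [NormedAddCommGroup W]
  [InnerProductSpace ℝ W] [FiniteDimensional ℝ V] [FiniteDimensional ℝ W]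

/-- the operator on the cylinder -/
abbrev cyo (A : Op Y (Option ι) V W) : Op (Y × ℝ) (Option ι) V W :=
  ⟨pc A.p, pc A.q, fun a x => A.σ a x.1, fun x => A.B x.1⟩

/-- the inverse of the symbol of `dt` -/
def nu (A : Op Y (Option ι) V W) (y : Y) : W →L[ℝ] V := Op.tr (A.σ none y)

/-- the operator on the cross-section -/
abbrev sop (A : Op Y (Option ι) V W) : Op Y ι V V :=
  ⟨A.p, A.p, fun a y => nu A y ∘L A.σ (some a) y, fun y => nu A y ∘L A.B y⟩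

variable (F : Fr I Y ι) (A : Op Y (Option ι) V W)

/-- `cyo A = ν (∂_t + L)` is of Dirac type, `L = sop A` is symmetric -/
structure CyO : Prop where
  dim : Module.finrank ℝ E ≤ 3
  good : ∃ C, (cyo A).Good (cyl F) C
  cl : (cyo A).Cliff (cyl F)
  sym : ∀ u v : Sec I A.p, F.ip 0 ((sop A).app F u.1) v.1 = F.ip 0 u.1 ((sop A).app F v.1)

/-- `L` on Sobolev spaces -/
abbrev LH (k : ℕ) : F.H (k + 1) A.p →L[ℝ] F.H k A.p := (sop A).H F k

/-- the operator on Sobolev spaces of the cylinder -/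
def AH (k : ℕ) : (cylP F.toPre).H (k + 1) (pc A.p) →L[ℝ] (cylP F.toPre).H k (pc A.q) :=
  (cyo A).H (cyl F) k

/-- its formal adjoint -/
def AS (k : ℕ) : (cylP F.toPre).H (k + 1) (pc A.q) →L[ℝ] (cylP F.toPre).H k (pc A.p) :=
  Hs (cyl F) (cyo A) k

/-- `ν⁻¹` -/
def NH (k : ℕ) : (cylP F.toPre).H k (pc A.q) →L[ℝ] (cylP F.toPre).H k (pc A.p) :=
  (cylP F.toPre).mulH k _ _ fun x => nu A x.1

/-- `ν` -/
def NH' (k : ℕ) : (cylP F.toPre).H k (pc A.p) →L[ℝ] (cylP F.toPre).H k (pc A.q) :=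
  (cylP F.toPre).mulH k _ _ fun x => A.σ none x.1

/-- `∂_t : L²₁(Y × ℝ) → L²(ℝ, L²(Y))` -/
abbrev TH (p : Y → V →L[ℝ] V) : (cylP F.toPre).H 1 (pc p) →L[ℝ] Lam (F.H 0 p) :=
  Ψ F.toPre 0 p ∘L DtH F.toPre 0 p

variable {F A}

theorem inner_nu (y : Y) (w : W) (v : V) : ⟪nu A y w, v⟫_ℝ = ⟪w, A.σ none y v⟫_ℝ := tr_inner _ _ _

namespace CyO
variable (h : CyO F A) {k : ℕ}
include h

theorem nu_σ (y : Y) (v : V) : nu A y (A.σ none y v) = A.p y v := ext_inner_right ℝ fun w => by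
  have := h.cl.1 none none (y, 0) v w
  rw [inner_nu]; change _ + _ = 2 * 1 * _ at this; linarith

theorem inner_nu_nu (y : Y) (v w : W) : ⟪nu A y v, nu A y w⟫_ℝ = ⟪A.q y v, w⟫_ℝ := by
  have := h.cl.2 none none (y, 0) v w
  change ⟪-nu A y v, -nu A y w⟫_ℝ + ⟪-nu A y v, -nu A y w⟫_ℝ = 2 * 1 * ⟪A.q y v, w⟫_ℝ at this
  rw [inner_neg_neg] at this; linarith

theorem σ_nu (y : Y) (w : W) : A.σ none y (nu A y w) = A.q y w := ext_inner_left ℝ fun v => by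
  rw [← inner_nu, h.inner_nu_nu]; exact h.good.choose_spec.q.symm (y, 0) v w

theorem p_nu (y : Y) (w : W) : A.p y (nu A y w) = nu A y w := ext_inner_right ℝ fun v => by
  rw [show ⟪A.p y (nu A y w), v⟫_ℝ = ⟪nu A y w, A.p y v⟫_ℝ from h.good.choose_spec.p.symm (y, 0) _ _,
    inner_nu, inner_nu]
  exact congrArg _ (h.good.choose_spec.σp none (y, 0) v)

theorem skew (a : ι) (y : Y) (v w : V) :
    ⟪nu A y (A.σ (some a) y v), w⟫_ℝ = -⟪v, nu A y (A.σ (some a) y w)⟫_ℝ := by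
  have := h.cl.1 (some a) none (y, 0) v w
  change _ + _ = 2 * 0 * _ at this
  rw [inner_nu, real_inner_comm _ v, inner_nu, real_inner_comm (A.σ none y v)]; linarith

theorem sm_σ (a : Option ι) : Sm I (A.σ a) := sm_slice_fst (h.good.choose_spec.σ a).1 0

theorem sm_nu : Sm I (nu A) := (trL V W).contMDiff.comp (h.sm_σ none)

theorem cliffL : (sop A).CliffL F := fun a b y v w => by
  have q : ∀ a v, A.q y (A.σ a y v) = A.σ a y v := fun a => h.good.choose_spec.qσ a (y, 0)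
  simp only [ContinuousLinearMap.comp_apply, h.inner_nu_nu, q]
  exact h.cl.1 (some a) (some b) (y, 0) v w

theorem cliff : (sop A).Cliff F := by
  refine ⟨h.cliffL, fun a b y v w => ?_⟩
  have e : ∀ a, ((sop A).adj F).σ a y = (sop A).σ a y := fun a => ContinuousLinearMap.ext fun v =>
    ext_inner_right ℝ fun w => by
      change ⟪-Op.tr _ v, w⟫_ℝ = _
      rw [inner_neg_left, tr_inner]; exact (h.skew a y v w).symm
  rw [e, e]; exact h.cliffL a b y v w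

theorem good_sop : ∃ C, (sop A).Good F C := by
  obtain ⟨C, g⟩ := h.good
  have hp : F.Cb A.p := Cb_of_compact (sm_slice_fst g.p.cb.1 0)
  refine good_of_cb hp hp (fun a => Cb_of_compact (h.sm_nu.clm_comp (h.sm_σ _)))
    (Cb_of_compact (h.sm_nu.clm_comp (sm_slice_fst g.B.1 0))) (fun y => g.p.idem (y, 0))
    (fun y => g.p.symm (y, 0)) (fun y => g.p.idem (y, 0)) (fun y => g.p.symm (y, 0))
    (fun a y v => congrArg (nu A y) (g.σp (some a) (y, 0) v)) (fun a y v => h.p_nu y _)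
    (fun y v => h.p_nu y _) fun a y => ?_
  have := g.Pσ (some a) (y, 0)
  rw [Fintype.sum_option] at this
  change (0 : ℝ) • _ + ∑ b, F.P a b y • A.σ (some b) y = A.σ (some a) y at this
  rw [zero_smul, zero_add] at this
  simp only [← this, ContinuousLinearMap.comp_finsetSum, ContinuousLinearMap.comp_smul]

theorem tameY : ∃ C, F.Tame C := Cht98.exists_tame F (h.dim.trans (by norm_num))

theorem tameZ : ∃ C, (cyl F).Tame C := Cht98.tame_cyl F h.dim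

theorem symH (x y : F.H 1 A.p) :
    ⟪LH F A 0 x, F.incl 1 0 A.p y⟫_ℝ = ⟪F.incl 1 0 A.p x, LH F A 0 y⟫_ℝ := by
  obtain ⟨C, g⟩ := h.good_sop
  induction x, y using H_ind₂ with
  | hP => exact isClosed_eq (by fun_prop) (by fun_prop)
  | h u v =>
    rw [LH, H_toH g, H_toH g, incl_toH zero_le_one, incl_toH zero_le_one, inner_toH, inner_toH]
    exact h.sym u v

theorem Hs_eq : Hs F (sop A) 0 = LH F A 0 := by
  obtain ⟨C, g⟩ := h.good_sop
  obtain ⟨C', t⟩ := h.tameY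
  refine ContinuousLinearMap.ext fun y => ext_inner_left ℝ fun x => ?_
  refine (denseRange_incl (F := F.toPre) (p := A.p) zero_le_one).induction_on x
    (isClosed_eq (by fun_prop) (by fun_prop)) fun x => ?_
  exact (adjH t g x y).symm.trans (h.symH x y)

theorem frL (k : ℕ) : Fred93.Fr (LH F A k) 0 := by
  obtain ⟨C, g⟩ := h.good_sop
  obtain ⟨C', t⟩ := h.tameY
  obtain ⟨_, h1⟩ := Ell97.gard t g h.cliff.1 0
  obtain ⟨_, h2⟩ := gard_adj t g h.cliff.2 0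
  refine ((par t g h.cliff).fr_of_est (Cht98.rellich zero_lt_one) (Cht98.rellich zero_lt_one)
    h1 h2 k).cast (sub_eq_zero.2 ?_)
  exact congrArg (fun T : F.H 1 A.p →L[ℝ] F.H 0 A.p => (Module.finrank ℝ T.ker : ℤ)) h.Hs_eq.symm

theorem cb_nu : (cylP F.toPre).Cb fun x => nu A x.1 := Cht98.Cb_fst _ (Cb_of_compact h.sm_nu)

theorem cb_σ (a : Option ι) : (cylP F.toPre).Cb fun x => A.σ a x.1 := ⟨_, h.good.choose_spec.σ a⟩

theorem rep_NH : (cylP F.toPre).Rep (NH F A k) fun u x => nu A x.1 (u x) :=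
  rep_mulH h.cb_nu (Maps.of_left fun x => h.p_nu x.1)

theorem rep_NH' : (cylP F.toPre).Rep (NH' F A k) fun u x => A.σ none x.1 (u x) :=
  rep_mulH (h.cb_σ none) (Maps.of_left (h.good.choose_spec.qσ none))

theorem NH_NH' (x : (cylP F.toPre).H k (pc A.p)) : NH F A k (NH' F A k x) = x :=
  DFunLike.congr_fun (RepT_eq (RepT_comp h.rep_NH h.rep_NH') Rep_id fun u =>
    funext fun x => (h.nu_σ _ _).trans (u.2.2.2 x)) x

theorem NH'_NH (x : (cylP F.toPre).H k (pc A.q)) : NH' F A k (NH F A k x) = x :=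
  DFunLike.congr_fun (RepT_eq (RepT_comp h.rep_NH' h.rep_NH) Rep_id fun u =>
    funext fun x => (h.σ_nu _ _).trans (u.2.2.2 x)) x

theorem incl_NH {j : ℕ} (hj : j ≤ k) (x : (cylP F.toPre).H k (pc A.q)) :
    (cylP F.toPre).incl k j _ (NH F A k x) = NH F A j ((cylP F.toPre).incl k j _ x) :=
  Rep_incl h.rep_NH h.rep_NH hj hj x

theorem incl_NH' {j : ℕ} (hj : j ≤ k) (x : (cylP F.toPre).H k (pc A.p)) :
    (cylP F.toPre).incl k j _ (NH' F A k x) = NH' F A j ((cylP F.toPre).incl k j _ x) :=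
  Rep_incl h.rep_NH' h.rep_NH' hj hj x

theorem inner_NH (x : (cylP F.toPre).H 0 (pc A.q)) (y : (cylP F.toPre).H 0 (pc A.p)) :
    ⟪NH F A 0 x, y⟫_ℝ = ⟪x, NH' F A 0 y⟫_ℝ := by
  induction x, y using H_ind₂ with
  | hP => exact isClosed_eq (by fun_prop) (by fun_prop)
  | h u v =>
    rw [RepT_toH h.rep_NH, RepT_toH h.rep_NH', inner_toH, inner_toH]
    exact integral_congr_ae (ae_of_all _ fun x => inner_nu _ _ _)

theorem rep_AH : (cylP F.toPre).Rep (AH F A k) ((cyo A).app (cyl F)) :=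
  (rep_OpH h.good.choose_spec k).1

theorem adj_AH (x : (cylP F.toPre).H 1 (pc A.p)) (y : (cylP F.toPre).H 1 (pc A.q)) :
    ⟪AH F A 0 x, (cylP F.toPre).incl 1 0 _ y⟫_ℝ = ⟪(cylP F.toPre).incl 1 0 _ x, AS F A 0 y⟫_ℝ :=
  adjH h.tameZ.choose_spec h.good.choose_spec x y

theorem reg_AH {y : (cylP F.toPre).H 0 (pc A.q)} {g : (cylP F.toPre).H 0 (pc A.p)}
    (H : ∀ u, ⟪AH F A 0 u, y⟫_ℝ = ⟪(cylP F.toPre).incl 1 0 _ u, g⟫_ℝ) :
    ∃ v, (cylP F.toPre).incl 1 0 _ v = y ∧ AS F A 0 v = g :=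
  weak_reg (par h.tameZ.choose_spec h.good.choose_spec h.cl) H

theorem reg_AS {y : (cylP F.toPre).H 0 (pc A.p)} {g : (cylP F.toPre).H 0 (pc A.q)}
    (H : ∀ u, ⟪AS F A 0 u, y⟫_ℝ = ⟪(cylP F.toPre).incl 1 0 _ u, g⟫_ℝ) :
    ∃ v, (cylP F.toPre).incl 1 0 _ v = y ∧ AH F A 0 v = g :=
  weak_reg (par h.tameZ.choose_spec h.good.choose_spec h.cl).swap H

theorem gard_AH : ∃ K, Est (AH F A k) ((cylP F.toPre).incl (k + 1) 0 (pc A.p)) K :=
  Ell97.gard h.tameZ.choose_spec h.good.choose_spec h.cl.1 k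

/-- `ν⁻¹ A = ∂_t + L` -/
theorem Ψ_AH (x : (cylP F.toPre).H (k + 1) (pc A.p)) : Ψ F.toPre k A.p (NH F A k (AH F A k x)) =
    Ψ F.toPre k A.p (DtH F.toPre k A.p x) + cp (LH F A k) (Ψ F.toPre (k + 1) A.p x) := by
  obtain ⟨C', g'⟩ := h.good_sop
  induction x using H_ind with
  | hP => exact isClosed_eq (by fun_prop) (by fun_prop)
  | h u =>
    rw [RepT_toH h.rep_AH, RepT_toH h.rep_NH, DtH_toH]
    refine (R_Ψ _).ext' ((R_Ψ _).add ((R_Ψ u).ma 1 _)) fun t => ?_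
    rw [BoundedContinuousFunction.coe_one, Pi.one_apply, one_smul, LH, H_toH g', ← map_add]
    refine congrArg _ (Subtype.ext (funext fun y => ?_))
    change nu A y (∑ a, A.σ a y ((cylP F.toPre).D a u.1 (y, t)) + A.B y (u.1 (y, t))) =
      (dt F.toPre u).1 (y, t) + (∑ a, nu A y (A.σ (some a) y (F.D a (fun z => u.1 (z, t)) y)) +
        nu A y (A.B y (u.1 (y, t))))
    rw [Fintype.sum_option, map_add, map_add, map_sum, h.nu_σ, add_assoc]
    simp only [D_some _ u.2.1]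
    exact congrArg (· + _) ((dt F.toPre u).2.2.2 (y, t))

/-- **The cylinder is an abstract cylinder.** -/
theorem cylD : CylD 1 (F.incl 1 0 A.p) (LH F A 0) (Ψ F.toPre 1 A.p) (TH F A.p) := by
  have eI := fun x => (Ψ_incl (F := F.toPre) (p := A.p) zero_le_one x).symm
  have eA : ∀ x, TH F A.p x + cp (LH F A 0) (Ψ F.toPre 1 A.p x) =
      Ψ F.toPre 0 A.p (NH F A 0 (AH F A 0 x)) := fun x => (h.Ψ_AH x).symm
  have ext : ∀ {y z : Lam (F.H 0 A.p)}, (∀ u, ⟪cp (F.incl 1 0 A.p) (Ψ F.toPre 1 A.p u), y⟫_ℝ =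
      ⟪cp (F.incl 1 0 A.p) (Ψ F.toPre 1 A.p u), z⟫_ℝ) → y = z := fun {y z} H => by
    refine ext_inner_left ℝ fun x => ?_
    obtain ⟨x, rfl⟩ := Ψ_surj x
    refine (denseRange_incl (F := cylP F.toPre) (p := pc A.p) zero_le_one).induction_on x
      (isClosed_eq (by fun_prop) (by fun_prop)) fun x => ?_
    rw [← eI, H]
  have sk : ∀ u v, ⟪TH F A.p u, cp (F.incl 1 0 A.p) (Ψ F.toPre 1 A.p v)⟫_ℝ =
      -⟪cp (F.incl 1 0 A.p) (Ψ F.toPre 1 A.p u), TH F A.p v⟫_ℝ := fun u v => by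
    simp only [eI, ContinuousLinearMap.comp_apply, inner_Ψ, DtH_skew]
  have sy : ∀ u v : Lam (F.H 1 A.p), ⟪cp (LH F A 0) u, cp (F.incl 1 0 A.p) v⟫_ℝ =
      ⟪cp (F.incl 1 0 A.p) u, cp (LH F A 0) v⟫_ℝ := fun u v =>
    R.inner_eq (by rr) (by rr) (by rr) (by rr) (ae_of_all _ fun t => by simp [h.symH])
  have eS : ∀ x, -TH F A.p x + cp (LH F A 0) (Ψ F.toPre 1 A.p x) =
      Ψ F.toPre 0 A.p (AS F A 0 (NH' F A 1 x)) := fun x => ext fun u => by
    rw [inner_add_right, inner_neg_right, ← sk, ← sy, ← inner_add_left, eA, eI, eI, inner_Ψ, inner_Ψ,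
      h.inner_NH, ← h.incl_NH' zero_le_one, h.adj_AH]
  refine ⟨one_mul 1, incl_inj F zero_le_one _, h.symH, fun x y e => ?_, ?_, fun y z H => ?_,
    fun y z H => ?_, ?_, fun b h1 h2 => ?_⟩
  · exact incl_inj (cyl F) zero_le_one _ ((Ψe F.toPre A.p).injective
      ((eI x).symm.trans ((congrArg _ e).trans (eI y))))
  · refine ((cylP F.toPre).dense_toH 1 (pc A.p)).mono ?_
    rintro _ ⟨u, rfl⟩
    refine ⟨_, _, hasDerivAt_slc u, cont_slc _, hcs_slc u, R_Ψ u, ?_⟩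
    rw [ContinuousLinearMap.comp_apply, DtH_toH]
    exact (R_Ψ _).congr fun t => by rw [one_smul, incl_toH zero_le_one]
  · obtain ⟨y, rfl⟩ := Ψ_surj y
    obtain ⟨z, rfl⟩ := Ψ_surj z
    obtain ⟨v, h1, h2⟩ := h.reg_AH (y := NH' F A 0 y) (g := z) fun u => by
      have := H u
      rwa [eA, eI, inner_Ψ, inner_Ψ, h.inner_NH] at this
    refine ⟨NH F A 1 v, ?_, ?_⟩
    · rw [eI, h.incl_NH zero_le_one, h1, h.NH_NH']
    · rw [eS, h.NH'_NH, h2]
  · obtain ⟨y, rfl⟩ := Ψ_surj y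
    obtain ⟨z, rfl⟩ := Ψ_surj z
    obtain ⟨v, h1, h2⟩ := h.reg_AS (y := y) (g := NH' F A 0 z) fun u => by
      have := H (NH F A 1 u)
      rwa [eS, eI, inner_Ψ, inner_Ψ, h.NH'_NH, h.incl_NH zero_le_one, h.inner_NH] at this
    exact ⟨v, by rw [eI, h1], by rw [eA, h2, h.NH_NH']⟩
  · obtain ⟨K, hK⟩ := h.gard_AH (k := 0)
    refine ⟨|K| * (‖NH' F A 0‖ + 1), by positivity, fun u => (hK u).trans ?_⟩
    rw [mul_assoc]
    refine mul_le_mul (le_abs_self K) ?_ (by positivity) (abs_nonneg K)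
    have h1 := (NH' F A 0).le_opNorm (NH F A 0 (AH F A 0 u))
    rw [h.NH'_NH, ← norm_Ψ (NH F A 0 _), ← eA] at h1
    have h2 := mul_le_mul_of_nonneg_left (norm_add_le (TH F A.p u)
      (cp (LH F A 0) (Ψ F.toPre 1 A.p u))) (norm_nonneg (NH' F A 0))
    rw [eI, norm_Ψ]
    change ‖AH F A 0 u‖ + ‖(cylP F.toPre).incl 1 0 (pc A.p) u‖ ≤ _
    nlinarith [norm_nonneg (NH' F A 0), norm_nonneg (TH F A.p u),
      norm_nonneg (cp (LH F A 0) (Ψ F.toPre 1 A.p u)),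
      norm_nonneg ((cylP F.toPre).incl 1 0 (pc A.p) u)]
  · have c1 : Sm (IC I) fun x : Y × ℝ => b x.2 := sm_snd h1
    have c2 : HasCompactSupport fun x : Y × ℝ => b x.2 :=
      HasCompactSupport.intro (isCompact_univ.prod h2.isCompact) fun x hx =>
        image_eq_zero_of_notMem_tsupport fun h => hx ⟨trivial, h⟩
    refine (((Cq.zero (Cht98.rellich_smul (F := cylP F.toPre) (q := pc A.p) c1 c2
      zero_lt_one)).left (Ψ F.toPre 0 A.p)).congr (D := 0) (fun u => ?_) fun u => by simp).cpt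
    simp only [ContinuousLinearMap.comp_apply]
    rw [Ψ_smul (Cb_of_hcs c1 c2), ← eI, ma_ma, mul_one, ContinuousLinearMap.id_comp]

/-- **Spectral flow on the cross-section.** -/
theorem isSF {σ σ' : ℝ →ᵇ ℝ} {r : ℝ} (hσ : Stp σ σ' r) :
    Crt72.SF (F.incl 1 0 A.p) (LH F A 0) (SymA _)
      (sf (F.incl 1 0 A.p) (LH F A 0) (Ψ F.toPre 1 A.p) (TH F A.p) σ) :=
  h.cylD.isSF (Cht98.rellich zero_lt_one) (h.frL 0) hσ

/-- the unitary `L²(q) ≃ L²(ℝ, L²(p))` as an equivalence -/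
def U : (cylP F.toPre).H 0 (pc A.q) ≃L[ℝ] Lam (F.H 0 A.p) :=
  (ContinuousLinearEquiv.equivOfInverse (NH F A 0) (NH' F A 0) h.NH'_NH h.NH_NH').trans
    (Ψe F.toPre A.p).toContinuousLinearEquiv

theorem U_apply (x : (cylP F.toPre).H 0 (pc A.q)) : h.U x = Ψ F.toPre 0 A.p (NH F A 0 x) := rfl

/-- a term of order zero, seen in `L²(ℝ, L²(p))` -/
def KL (K : (cylP F.toPre).H 0 (pc A.p) →L[ℝ] (cylP F.toPre).H 0 (pc A.q)) :
    Lam (F.H 0 A.p) →L[ℝ] Lam (F.H 0 A.p) :=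
  (h.U : _ →L[ℝ] _) ∘L K ∘L ((Ψe F.toPre A.p).symm.toContinuousLinearEquiv : _ →L[ℝ] _)

theorem KL_Ψ (K : (cylP F.toPre).H 0 (pc A.p) →L[ℝ] (cylP F.toPre).H 0 (pc A.q))
    (x : (cylP F.toPre).H 0 (pc A.p)) : h.KL K (Ψ F.toPre 0 A.p x) = h.U (K x) :=
  congrArg (fun z => h.U (K z)) ((Ψe F.toPre A.p).symm_apply_apply x)

/-- `A + K = U⁻¹ (∂_t + L + K')` -/
theorem U_A (K : (cylP F.toPre).H 0 (pc A.p) →L[ℝ] (cylP F.toPre).H 0 (pc A.q)) :
    (h.U : _ →L[ℝ] _) ∘L (AH F A 0 + K ∘L (cylP F.toPre).incl 1 0 (pc A.p)) =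
      Dz (F.incl 1 0 A.p) (LH F A 0) (Ψ F.toPre 1 A.p) (TH F A.p) (h.KL K) :=
  ContinuousLinearMap.ext fun x => by
    rw [Dz_apply, ← Ψ_incl zero_le_one, h.KL_Ψ]
    exact (map_add h.U _ _).trans (congrArg (· + _) (h.Ψ_AH x))

theorem fr_iff (K : (cylP F.toPre).H 0 (pc A.p) →L[ℝ] (cylP F.toPre).H 0 (pc A.q)) {n : ℤ} :
    Fred93.Fr (AH F A 0 + K ∘L (cylP F.toPre).incl 1 0 (pc A.p)) n ↔
      Fred93.Fr (Dz (F.incl 1 0 A.p) (LH F A 0) (Ψ F.toPre 1 A.p) (TH F A.p) (h.KL K)) n := by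
  rw [← h.U_A]
  exact ⟨fun H => ((Fred93.Fr.equiv h.U).comp H).cast (by simp),
    fun H => (((Fred93.Fr.equiv h.U.symm).comp H).cast (by simp)).congr fun x => by simp⟩

theorem bij_iff (K : (cylP F.toPre).H 0 (pc A.p) →L[ℝ] (cylP F.toPre).H 0 (pc A.q)) :
    Bijective (AH F A 0 + K ∘L (cylP F.toPre).incl 1 0 (pc A.p) :
      (cylP F.toPre).H 1 (pc A.p) →L[ℝ] (cylP F.toPre).H 0 (pc A.q)) ↔
      Bijective (Dz (F.incl 1 0 A.p) (LH F A 0) (Ψ F.toPre 1 A.p) (TH F A.p) (h.KL K)) := by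
  rw [← h.U_A]
  exact (Bijective.of_comp_iff' h.U.bijective _).symm

end CyO

end Crest.Agent.X212.Cyf70
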