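import Crest.Agent.X212.Dec35.Cyl
import Crest.Agent.X212.Nd18.Term

/-!
# Row 212, CYLF (helper70): the Hessian of the delay functional on the cylinder; the leaves
-/

set_option autoImplicit false
set_option linter.unusedSectionVars false
noncomputable section
open scoped Manifold ContDiff Topology InnerProductSpace
open MeasureTheory Set Function Filter Real

namespace Crest.Agent.X212.Cyf70
open An Map77 Sob92 Nd18 Dec35

variable {E3 : Type} [NormedAddCommGroup E3] [NormedSpace ℝ E3] [FiniteDimensional ℝ E3]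
  [MeasurableSpace E3] [BorelSpace E3]
  {H3 : Type} [TopologicalSpace H3] {I3 : ModelWithCorners ℝ E3 H3} [I3.Boundaryless]
  {Y : Type} [TopologicalSpace Y] [ChartedSpace H3 Y] [IsManifold I3 ∞ Y] [T2Space Y]
  [MeasurableSpace Y] [BorelSpace Y] [SecondCountableTopology Y] [CompactSpace Y]
  {κ : Type} [Fintype κ] {lam : Type} [Fintype lam]
  {V : Type} [NormedAddCommGroup V] [InnerProductSpace ℝ V]

/-- the derivative at `0` in the direction `u` -/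
def d0 {β : YC Y κ lam} (f : Cz β → Y × ℝ → V) (u : Cz β) (x : Y × ℝ) : V :=
  deriv (fun ε : ℝ => f (ε • u) x) 0

section defs
variable (N : ND Y lam) (D : YD I3 Y κ lam) (β : YC Y κ lam)

/-- the gradient of the delay functional at `β + a`, projected to the bundle of variations -/
def gz (a : Cz β) (x : Y × ℝ) : Cv (cy β) := (mbd D.B (cy β).m).pC x
  (i1 _ _ (show Fm (Option κ) (cy β).m.A from (N.dg D.nk).gA D.Z (cf (cy β) a) x) +
    i2 _ _ (show (cy β).m.V from (N.dg D.nk).gP D.Z (cf (cy β) a) x))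

/-- the Hessian -/
def hz : Cz β → Cz β := d0 (gz N D β)

/-- from the gradient to the perturbation: `te q1 u x = kE x (gz u x)` -/
def kE (x : Y × ℝ) : Cv (cy β) →L[ℝ] Ev (cy β) :=
  -(sm2 (ContinuousLinearMap.id ℝ _) ((4 : ℝ) • ContinuousLinearMap.id ℝ _) ∘L
    (mbd D.B (cy β).m).pE x ∘L (mbd D.B (cy β).m).σ none x ∘L (mbd D.B (cy β).m).pC x)

/-- standing hypotheses -/
structure Hz : Prop where
  ok : D.OK
  nd : N.OK D
  adm : D.Adm β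

/-- differentiable at `0` on the weighted Sobolev spaces, uniformly in the weight -/
structure Tw (f : Cz β → Y × ℝ → V) : Prop where
  der : ∀ u, Vr D β u → ∀ x, HasDerivAt (fun ε : ℝ => f (ε • u) x) (d0 f u x) 0
  add : ∀ u v, Vr D β u → Vr D β v → d0 f (u + v) = d0 f u + d0 f v
  fl : ∀ u, Vr D β u → Fl D.Z.toPre (d0 f u) ∧ Fl D.Z.toPre (f u - f 0)
  bd : ∃ d > 0, ∀ k, 8 ≤ k → ∀ Dd : ℕ → ℝ, ∃ C ≥ 0, ∃ r₀ > 0, ∀ ψ : ℝ → ℝ,
    Wd D.Z.toPre (fun x => ψ x.2) d Dd → ∀ u, Vr D β u →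
      nw D.Z.toPre k (fun x => ψ x.2) (d0 f u) ≤ C * nw D.Z.toPre k (fun x => ψ x.2) u ∧
      (nw D.Z.toPre (k + 1) (fun x => ψ x.2) u ≤ r₀ →
        nw D.Z.toPre k (fun x => ψ x.2) (f u - f 0 - d0 f u) ≤
          C * nw D.Z.toPre (k + 1) (fun x => ψ x.2) u ^ 2)

/-- the non-gradient terms vanish to the second order -/
def Q2 : Prop := ∀ T : YW I3 Y, Tw D β (te (N.q2 (n := 0) D.nk T.1) (cy β)) ∧
  (∀ u, Vr D β u → d0 (te (N.q2 (n := 0) D.nk T.1) (cy β)) u = 0) ∧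
  te (N.q2 (n := 0) D.nk T.1) (cy β) 0 = 0

/-- the weighted `L²` Lipschitz bound at `β` -/
def Lp0 : Prop := ∃ d > 0, ∃ C ≥ 0, ∀ ψ : ℝ → ℝ, Neck67.Sm ψ → (∀ t, |deriv ψ t| ≤ d) →
  ∀ u, Vr D β u → nw D.Z.toPre 0 (fun x => ψ x.2) (gz N D β u - gz N D β 0) ≤
    C * nw D.Z.toPre 0 (fun x => ψ x.2) u

/-- `gz` is a gradient -/
def Grad : Prop := ∃ F : Cz β → ℝ, ∀ a v, Vr D β a → Vr D β v → HasCompactSupport a →
  HasCompactSupport v →
  HasDerivAt (fun s : ℝ => F (a + s • v)) (∫ x, ⟪gz N D β a x, v x⟫_ℝ ∂D.Z.μ) 0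

/-- the Hessian is symmetric -/
def Sy : Prop := ∀ u v, Vr D β u → Vr D β v → HasCompactSupport u → HasCompactSupport v →
  ∫ x, ⟪hz N D β u x, v x⟫_ℝ ∂D.Z.μ = ∫ x, ⟪u x, hz N D β v x⟫_ℝ ∂D.Z.μ

/-- translation invariance -/
def Ti : Prop := ∀ a, Vb D β a → ∀ (s : ℝ) (x : Y × ℝ),
  gz N D β (fun z => a (z.1, z.2 + s)) x = gz N D β a (x.1, x.2 + s)

/-- no `dt`-component at invariant configurations in temporal gauge -/
def Iv0 : Prop := ∀ b : Y → Cv (cy β), Sm I3 b → Tg D.B (cy β) (fun x => b x.1) →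
  (∀ y, fa (b y) none = 0) → ∀ x, fa (gz N D β (fun x => b x.1) x) none = 0

/-- the gauge directions -/
def Gau : Prop := ∀ ξ, Fl D.Z.toPre ξ → (∀ x, ξ x ∈ (cy β).m.gS x) →
  (lin D.B D.Z (cy β) (dg D.Z (cy β) 1 ξ) = fun x => kE D β x (hz N D β (dg D.Z (cy β) 1 ξ) x)) ∧
    ∀ x, fa (hz N D β (dg D.Z (cy β) 1 ξ) x) none = 0

/-- exponentially decaying memory -/
def P1g : Prop := ∃ γ > 0, ∃ k' : ℕ, ∀ C : ℝ, ∃ K : ℝ, ∀ a a' : Cz β, Vb D β a → Vb D β a' →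
  D.Z.CB k' a C → D.Z.CB k' a' C → ∀ t m, 0 ≤ m →
  (∀ s, Lt D k' (a - a') s (m * exp (γ * |s - t|))) →
  ∀ y, ‖gz N D β a (y, t) - gz N D β a' (y, t)‖ ≤ K * m

/-- **the package** -/
structure Kp : Prop extends Hz N D β where
  tw : Tw D β (gz N D β)
  q2 : Q2 N D β
  lip : Lp0 N D β
  sy : Sy N D β
  ti : Ti N D β
  iv : Iv0 N D β
  gau : N.Crit D β → Gau N D β
  p1 : P1g N D β

end defs

variable (I3 Y κ lam)

/-- all data -/
abbrev All (p : ND Y lam → YD I3 Y κ lam → YC Y κ lam → Prop) : Prop :=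
  ∀ N D β, Hz N D β → p N D β

/-- LEAF KP-TW -/
def TwStmt : Prop := All I3 Y κ lam fun N D β => Tw D β (gz N D β) ∧ Q2 N D β
/-- LEAF KP-LG -/
def LgStmt : Prop := All I3 Y κ lam fun N D β => Lp0 N D β ∧ Grad N D β
/-- LEAF KP-SY -/
def SyStmt : Prop := All I3 Y κ lam fun N D β => Tw D β (gz N D β) → Grad N D β → Sy N D β
/-- LEAF KP-NAT -/
def NtStmt : Prop := All I3 Y κ lam fun N D β => Ti N D β ∧
  (N.Crit D β → Tw D β (gz N D β) → Iv0 N D β → Gau N D β)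
/-- LEAF KP-IV -/
def IvStmt : Prop := All I3 Y κ lam Iv0
/-- LEAF KP-P1 -/
def P1Stmt : Prop := All I3 Y κ lam P1g

/-- LEAF KP-LAP: the gauge condition can be solved on the cross-section -/
def LapStmt : Prop := ∀ (D : YD I3 Y κ lam) (β : YC Y κ lam), D.OK → D.Adm β → ∀ l : ℝ,
  (∀ (b : Y → Cv (cy β)) (ξ : Y → β.m.A), Sm I3 b → Tg D.B (cy β) (fun x => b x.1) → Sm I3 ξ →
    (∀ y, ξ y ∈ β.m.gS y) →
    ∫ y, ⟪sig D.B D.Z (cy β) l (fun x => b x.1) (y, 0), ξ y⟫_ℝ ∂D.F.μ =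
      ∫ y, ⟪i1 _ _ (fa (b y)) + i2 _ _ (l • fp (b y)),
        dg D.Z (cy β) l (fun x => ξ x.1) (y, 0)⟫_ℝ ∂D.F.μ) ∧
  (Irr D β → l ≠ 0 → ∀ b : Y → Cv (cy β), Sm I3 b → Tg D.B (cy β) (fun x => b x.1) →
    ∃ ξ : Y → β.m.A, Sm I3 ξ ∧ (∀ y, ξ y ∈ β.m.gS y) ∧
      sig D.B D.Z (cy β) l (fun x => b x.1 + dg D.Z (cy β) 1 (fun z => ξ z.1) x) = 0)

variable {I3 Y κ lam}

theorem kp_of (h1 : TwStmt I3 Y κ lam) (h2 : LgStmt I3 Y κ lam) (h3 : SyStmt I3 Y κ lam)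
    (h4 : NtStmt I3 Y κ lam) (h5 : IvStmt I3 Y κ lam) (h6 : P1Stmt I3 Y κ lam) :
    All I3 Y κ lam Kp := fun N D β h =>
  ⟨h, (h1 N D β h).1, (h1 N D β h).2, (h2 N D β h).1, h3 N D β h (h1 N D β h).1 (h2 N D β h).2,
    (h4 N D β h).1, h5 N D β h, fun c => (h4 N D β h).2 c (h1 N D β h).1 (h5 N D β h), h6 N D β h⟩

end Crest.Agent.X212.Cyf70
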