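import Crest.Agent.X212.Cyf70.Ke
import Crest.Agent.X212.Dec35.Un
import Crest.Agent.X212.Dec35.Tw
import Crest.Agent.X212.Kp63.Nat
import Crest.Agent.X212.Kp63.Iv
import Crest.Agent.X212.Lg24.Main
import Crest.Agent.X212.St29.Lap
import Crest.Agent.X212.Hd34.Sy
import Crest.Agent.X212.Cys97.Main

/-!
# Row 212, CYLF (helper70): the package `Kp` and the input `LzIn` from the leaf `P1Stmt`
-/

set_option autoImplicit false
set_option linter.unusedSectionVars false
noncomputable section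
open scoped Manifold ContDiff Topology

namespace Crest.Agent.X212.Cyf70
open An Nd18 Dec35

variable {E3 : Type} [NormedAddCommGroup E3] [NormedSpace ℝ E3] [FiniteDimensional ℝ E3]
  [MeasurableSpace E3] [BorelSpace E3]
  {H3 : Type} [TopologicalSpace H3] {I3 : ModelWithCorners ℝ E3 H3} [I3.Boundaryless]
  {Y : Type} [TopologicalSpace Y] [ChartedSpace H3 Y] [IsManifold I3 ∞ Y] [T2Space Y]
  [MeasurableSpace Y] [BorelSpace Y] [SecondCountableTopology Y] [CompactSpace Y]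
  {κ : Type} [Fintype κ] {lam : Type} [Fintype lam]

theorem lapStmt : LapStmt I3 Y κ lam := St29.Lap.lap

/-- **the package** -/
theorem kp (h : P1Stmt I3 Y κ lam) : All I3 Y κ lam Kp :=
  kp_of (twStmt (Cys97.sm _ _ _ _)) Lg24.lgStmt (Hd34.Sy.syStmt (c0 (Cys97.sm _ _ _ _)))
    Kp63.ntStmt Kp63.ivStmt h

variable {N : ND Y lam} {D : YD I3 Y κ lam} {β : YC Y κ lam}

theorem hz_of (hD : D.OK) (hN : N.OK D) (hc : N.Crit D β) : Hz N D β :=
  ⟨hD, hN, hc.sol.toAdm, hc.tmp⟩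

/-- **LZ** at a nondegenerate critical point -/
theorem lzIn [PreconnectedSpace Y] (h : P1Stmt I3 Y κ lam) (hd : Module.finrank ℝ E3 ≤ 3)
    (hD : D.OK) (hN : N.OK D) (hc : N.Crit D β) (hn : N.Nondeg D β) (irr : D.Zr β → ¬D.Ln β) :
    LzIn D β N :=
  have H := hz_of hD hN hc
  let ⟨n, ν, h1, h2, _⟩ := (kp h N D β H).lz_q hd lapStmt hc (irr_of hD H.adm irr) hn
  ⟨ν, _, _, _, n, h2, h1⟩

theorem lzIn_cd [PreconnectedSpace Y] (h : P1Stmt I3 Y κ lam) (hd : Module.finrank ℝ E3 ≤ 3)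
    (hD : D.OK) (hN : N.OK D) (S : N.CD D) (i : S.C) : LzIn D (S.β i) N :=
  lzIn h hd hD hN (S.crit i) (S.nd i) (S.irr i)

end Crest.Agent.X212.Cyf70
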