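import Crest.Agent.X212.Cyf70.Ks

/-!
# Row 212, CYLF (helper70): the kernel of the operator on the cross-section
-/

set_option autoImplicit false
set_option linter.unusedSectionVars false
set_option linter.unusedSimpArgs false
noncomputable section
open scoped Manifold ContDiff Topology InnerProductSpace
open MeasureTheory Set Function Filter Real

namespace Crest.Agent.X212.Cyf70
open An An.Pre Map77 Sob92 Nd18 Dec35 Rf65
open Wz78 (nab)

section gen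
variable {E : Type} [NormedAddCommGroup E] [NormedSpace ℝ E] [FiniteDimensional ℝ E]
  [MeasurableSpace E] [BorelSpace E]
  {HM : Type} [TopologicalSpace HM] {I : ModelWithCorners ℝ E HM} [I.Boundaryless]
  {M : Type} [TopologicalSpace M] [ChartedSpace HM M] [IsManifold I ∞ M] [MeasurableSpace M]
  [T2Space M] [BorelSpace M] [SecondCountableTopology M] {ι : Type} [Fintype ι]
  {V W : Type} [NormedAddCommGroup V] [InnerProductSpace ℝ V]
  [NormedAddCommGroup W] [InnerProductSpace ℝ W] {F : Fr I M ι}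

theorem app_csmul (A : Op M ι V W) (c : ℝ) {u : M → V} (hu : Sm I u) (x : M) :
    A.app F (c • u) x = c • A.app F u x := by
  simp only [Op.app, Pre.op, F.D_smul hu, Pi.smul_apply, map_smul, smul_add, Finset.smul_sum]

theorem app_lin (A : Op M ι V W) (c : ℝ) {u v : M → V} (hu : Sm I u) (hv : Sm I v) (x : M) :
    A.app F (u + c • v) x = A.app F u x + c • A.app F v x := by
  rw [Ell97.app_add (v := c • v) hu ((contMDiff_const (I' := 𝓘(ℝ, ℝ)) (c := c)).smul hv),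
    app_csmul A c hv]

theorem app_congr (A : Op M ι V W) {u v : M → V} {x : M} (h : u =ᶠ[𝓝 x] v) :
    A.app F u x = A.app F v x := by
  simp only [Op.app, Pre.op, Pre.D_def, dv_congr h, h.self_of_nhds]

theorem sec_zero [FiniteDimensional ℝ V] {p : M → V →L[ℝ] V} {s : Sec I p}
    (H : ∫ y, ⟪s.1 y, s.1 y⟫_ℝ ∂F.μ = 0) : s = 0 :=
  Ell97.toH_inj F 0 _ ((inner_self_eq_zero (𝕜 := ℝ).1 ((inner_toH F.toPre 0 p s s).trans H)).trans
    (map_zero _).symm)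

theorem f2_ii (a : V) (b : W) : f2 V W (i1 V W a + i2 V W b) = a := by simp

theorem s2_ii (a : V) (b : W) : s2 V W (i1 V W a + i2 V W b) = b := by simp

section cfg
variable {lam : Type} [Fintype lam] {r n : ℕ} {B : Base M ι lam} {G : Geo I M ι lam}
  {c : Cfg M ι lam r} {l : ℝ} {u v : M → Cv c}

theorem fa_dg (ζ : M → c.m.A) (x : M) (a : ι) :
    fa (dg F c l ζ x) a = -nab I F.e (c.m.adW c.W) a ζ x := by simp [dg]

theorem fp_dg (ζ : M → c.m.A) (x : M) : fp (dg F c l ζ x) = l • opL (ζ x) (c.Φ x) := by simp [dg]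

theorem sc2_dg (ζ : M → c.m.A) (x : M) : sc2 _ _ 1 l (dg F c 1 ζ x) = dg F c l ζ x :=
  ext2 (by simp [dg]) (by simp [dg])

theorem dg_zero (x : M) : dg F c l (fun _ => 0) x = 0 :=
  ext2 (fm_ext fun a => by rw [fa_dg]; simp [nab, dv_const]) (by rw [fp_dg]; simp)

theorem par_of {ζ : M → c.m.A} (hl : l ≠ 0) (h : ∀ x, dg F c l ζ x = 0) (x : M) :
    (∀ a, nab I F.e (c.m.adW c.W) a ζ x = 0) ∧ opL (ζ x) (c.Φ x) = 0 :=
  ⟨fun a => neg_eq_zero.1 ((fa_dg ζ x a).symm.trans (by rw [h, map_zero]; rfl)),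
    (smul_eq_zero_iff_right hl).1 ((fp_dg ζ x).symm.trans (by rw [h, map_zero]))⟩

theorem i_sc2 (v : Cv c) : i1 _ _ (fa v) + i2 _ _ (l • fp v) = sc2 _ _ 1 l v :=
  ext2 (by simp) (by simp)

theorem sig_eq (u : M → Cv c) :
    sig B F c l u = ((dO B F c l).adj F).app F fun x => sc2 _ _ 1 l (u x) := by
  simp only [sig, i_sc2]

theorem sig_lin (a : ℝ) (hu : Sm I u) (hv : Sm I v) (x : M) :
    sig B F c l (u + a • v) x = sig B F c l u x + a • sig B F c l v x := by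
  rw [sig_eq, sig_eq, sig_eq, ← app_lin _ a (sm_clm _ hu) (sm_clm _ hv)]
  exact congrArg (Op.app _ _ · x) (funext fun z => by
    simp only [Pi.add_apply, Pi.smul_apply, map_add, map_smul])

variable (c) in
/-- the direction of the circle -/
def jC (x : M) : Cv c := i2 _ _ (c.m.J (c.Φ x))

theorem fa_jC (x : M) : fa (jC c x) = 0 := f2_i2 _

theorem fp_jC (x : M) : fp (jC c x) = c.m.J (c.Φ x) := s2_i2 _

theorem sm_jC (h : c.Adm B G) : Sm I (jC c) := sm_clm (i2 (Fm ι c.m.A) c.m.V) (sm_clm c.m.J h.sm)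

theorem tg_jC (h : c.Adm B G) : Tg B c (jC c) :=
  Tg.of (fun x => by rw [fa_jC, map_zero]) fun x => by
    rw [fp_jC, ← mul_apply_eq_comp, ← Wz78.J_pp h.ok, mul_apply_eq_comp, h.pos]

theorem hd_se (hB : B.OK I) (hG : G.OK B) (h : c.Adm B G) (τ : Pt M ι lam r n) (hu : Sm I u)
    (ht : Tg B c u) {x : M} {z : Ev c} (H : HD (fun ε : ℝ => te τ c (ε • u) x) z) :
    HD (fun ε : ℝ => se B G τ c (ε • u) x) (lin B G.F c u x - z) := by
  have e : (fun ε : ℝ => se B G τ c (ε • u) x) = fun ε : ℝ => se B G τ c 0 x + ε • lin B G.F c u x +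
      (ε * ε) • qd B c x (u x) (u x) - (te τ c (ε • u) x - te τ c 0 x) := funext fun ε => by
    rw [se_eq hB hG h τ (u := ε • u) ((contMDiff_const (I' := 𝓘(ℝ, ℝ)) (c := ε)).smul hu)
      (ht.smul fun _ => ε), lin, app_csmul _ ε hu]
    simp only [Pi.smul_apply, map_smul, _root_.smul_apply, smul_smul]
  rw [e]
  simpa using ((((hasDerivAt_id' (0 : ℝ)).smul_const (lin B G.F c u x)).const_add
    (se B G τ c 0 x)).fun_add (((hasDerivAt_id' (0 : ℝ)).fun_mul (hasDerivAt_id' 0)).smul_const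
      (qd B c x (u x) (u x)))).fun_sub (H.sub_const (te τ c 0 x))

theorem hd_eq {τ : Pt M ι lam r n} {x : M} (H : HD (fun ε : ℝ => se B G τ c (ε • u) x) 0) :
    HD (V := c.m.V) (fun ε => (vr c (fun x => ε • fa (u x)) fun x => ε • fp (u x)).eD G τ x) 0 ∧
    ∀ s, HD (V := c.m.A)
      (fun ε => (vr c (fun x => ε • fa (u x)) fun x => ε • fp (u x)).eC B G τ x s) 0 := by
  have e1 := fun ε : ℝ => funext fun x => (map_smul fa ε (u x)).symm
  have e2 := fun ε : ℝ => funext fun x => (map_smul fp ε (u x)).symm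
  refine ⟨?_, fun s => ?_⟩
  · have := (f2 _ _).hasFDerivAt.comp_hasDerivAt 0 H
    rw [map_zero] at this
    exact this.congr_of_eventuallyEq (.of_forall fun ε => (congrArg₂
      (fun a b => show c.m.V from (vr c a b).eD G τ x) (e1 ε) (e2 ε)).trans (f2_ii _ _).symm)
  · have := (pj _ s ∘L s2 _ _).hasFDerivAt.comp_hasDerivAt 0 H
    rw [map_zero] at this
    exact this.congr_of_eventuallyEq (.of_forall fun ε => (congrArg₂
      (fun a b => show c.m.A from (vr c a b).eC B G τ x s) (e1 ε) (e2 ε)).trans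
        (congrArg (fun z : Fm (ι × ι) c.m.A => z s) (s2_ii (V := c.m.V) (W := Fm (ι × ι) c.m.A)
          ((cf c (ε • u)).eD G τ x) ((cf c (ε • u)).eC B G τ x)).symm))

end cfg

variable [CompactSpace M] [FiniteDimensional ℝ V] [FiniteDimensional ℝ W]
  {A : Op M (Option ι) V W}

theorem nab_some (A : Option ι → M × ℝ → V →L[ℝ] V) {ζ : M × ℝ → V} (h : Sm (IC I) ζ) (a : ι)
    (x : M × ℝ) : nab (IC I) (cyl F).e A (some a) ζ x =
      nab I F.e (fun a y => A (some a) (y, x.2)) a (fun y => ζ (y, x.2)) x.1 :=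
  congrArg (· + _) (D_some F.toPre h a x)

theorem nab_none (A : Option ι → M × ℝ → V →L[ℝ] V) {ξ : M → V} (h : Sm I ξ) (x : M × ℝ) :
    nab (IC I) (cyl F).e A none (fun x => ξ x.1) x = A none x (ξ x.1) :=
  (congrArg (· + _) (congrFun (D_none_fst F.toPre h) x)).trans (zero_add _)

theorem CyO.inner_σ (h : CyO F A) {y : M} {v : V} (hv : A.p y v = v) (w : V) :
    ⟪v, w⟫_ℝ = ⟪A.σ none y v, A.σ none y w⟫_ℝ := by rw [← inner_nu, h.nu_σ, hv]

theorem CyO.app_fst (h : CyO F A) {w : M → V} (hw : Sm I w) (x : M × ℝ) :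
    (cyo A).app (cyl F) (fun x => w x.1) x = A.σ none x.1 ((sop A).app F w x.1) := by
  have g := h.good.choose_spec
  have e1 := congrFun (D_none_fst F.toPre hw) x
  have e2 := fun a => congrFun (D_some_fst F.toPre hw a) x
  have q1 : ∀ a v, A.q x.1 (A.σ a x.1 v) = A.σ a x.1 v := fun a => g.qσ a x
  have q2 : ∀ v, A.q x.1 (A.B x.1 v) = A.B x.1 v := g.qB x
  simp only [Op.app, Pre.op, Fintype.sum_option, cyl, e1, e2, map_add, map_sum, Pi.zero_apply,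
    map_zero, zero_add, ContinuousLinearMap.comp_apply, h.σ_nu, q1, q2]

end gen

variable {E3 : Type} [NormedAddCommGroup E3] [NormedSpace ℝ E3] [FiniteDimensional ℝ E3]
  [MeasurableSpace E3] [BorelSpace E3]
  {H3 : Type} [TopologicalSpace H3] {I3 : ModelWithCorners ℝ E3 H3} [I3.Boundaryless]
  {Y : Type} [TopologicalSpace Y] [ChartedSpace H3 Y] [IsManifold I3 ∞ Y] [T2Space Y]
  [MeasurableSpace Y] [BorelSpace Y] [SecondCountableTopology Y] [CompactSpace Y]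
  {κ : Type} [Fintype κ] {lam : Type} [Fintype lam]
  {N : ND Y lam} {D : YD I3 Y κ lam} {β : YC Y κ lam} {l : ℝ} {ξ η : Y → (cy β).m.A}

variable (I3 β) in
/-- sections of the gauge algebra on the cross-section -/
structure Gs (ξ : Y → (cy β).m.A) : Prop where
  sm : Sm I3 ξ
  mem : ∀ x : Y × ℝ, ξ x.1 ∈ (cy β).m.gS x

theorem Gs.lin (h : Gs I3 β ξ) (h' : Gs I3 β η) (c : ℝ) : Gs I3 β (ξ + c • η) :=
  ⟨h.sm.add ((contMDiff_const (I' := 𝓘(ℝ, ℝ)) (c := c)).smul h'.sm),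
    fun y => add_mem (h.mem y) (Submodule.smul_mem _ c (h'.mem y))⟩

variable (D β) in
/-- the gauge directions on the cross-section -/
def gY (l : ℝ) (ξ : Y → (cy β).m.A) (y : Y) : Cv (cy β) := dg D.Z (cy β) l (fun x => ξ x.1) (y, 0)

variable (β) in
/-- the direction of the circle -/
def jY (y : Y) : Cv (cy β) := jC (cy β) (y, 0)

variable (D β) in
/-- the covariant derivative on the cross-section -/
def nY (a : κ) (ξ : Y → (cy β).m.A) : Y → (cy β).m.A :=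
  nab I3 D.F.e (fun a y => (cy β).m.adW (cy β).W (some a) (y, 0)) a ξ

theorem fa_dg_some {ζ : Y × ℝ → (cy β).m.A} (h : Sm (IC I3) ζ) (x : Y × ℝ) (a : κ) :
    fa (dg D.Z (cy β) l ζ x) (some a) = -nY D β a (fun y => ζ (y, x.2)) x.1 :=
  (fa_dg ζ x _).trans (congrArg Neg.neg (nab_some _ h a x))

theorem fa_dg_none (A : D.Adm β) (h : Sm I3 ξ) (x : Y × ℝ) :
    fa (dg D.Z (cy β) l (fun x => ξ x.1) x) none = 0 := by
  have e : (cy β).W none x = 0 := A.tmp x.1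
  refine (fa_dg _ x _).trans (neg_eq_zero.2 ((nab_none _ h x).trans ?_))
  rw [Md.adW, e, ← Wz78.adcL_apply, map_zero, _root_.zero_apply]

theorem dg_fst (A : D.Adm β) (h : Sm I3 ξ) :
    dg D.Z (cy β) l (fun x => ξ x.1) = fun x => gY D β l ξ x.1 := funext fun x => by
  refine ext2 (fm_ext fun a => ?_) ?_
  · cases a with
    | none => rw [fa_dg_none A h x, gY, fa_dg_none A h]
    | some a => rw [fa_dg_some (sm_fst h) x a, gY, fa_dg_some (sm_fst h) (x.1, 0) a]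
  · rw [gY, fp_dg, fp_dg]; rfl

theorem sc2_gY (y : Y) : sc2 _ _ 1 l (gY D β 1 ξ y) = gY D β l ξ y := sc2_dg _ _

section hz
variable (h : Hz N D β)
include h

theorem dO_fst (hξ : Gs I3 β ξ) (l : ℝ) : (dO D.B D.Z (cy β) l).app D.Z (fun x => ξ x.1) =
    (fun x => gY D β l ξ x.1) ∧ Tg D.B (cy β) fun x => gY D β l ξ x.1 :=
  dg_fst h.adm hξ.sm ▸ dO_app h.ok.B h.ok.G h.adm.adm l (sm_fst hξ.sm) hξ.mem

/-- the gauge direction as a section -/
def gS (l : ℝ) (hξ : Gs I3 β ξ) : SY D β :=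
  secY h (b := gY D β l ξ) (sm_of_fst ((dO_fst h hξ l).1 ▸
    Ell97.sm_app ((bs_cyl h.ok h.adm).good_dO l).choose_spec.2 (sm_fst hξ.sm) :)) (dO_fst h hξ l).2

theorem gY_lin (hξ : Gs I3 β ξ) (hη : Gs I3 β η) (c : ℝ) (y : Y) :
    gY D β l (ξ + c • η) y = gY D β l ξ y + c • gY D β l η y := by
  rw [← congrFun (dO_fst h (hξ.lin hη c) l).1 (y, 0), ← congrFun (dO_fst h hξ l).1 (y, 0),
    ← congrFun (dO_fst h hη l).1 (y, 0)]
  exact app_lin _ c (sm_fst hξ.sm) (sm_fst hη.sm) _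

/-- the direction of the circle as a section -/
def jS : SY D β := secY h (b := jY β) (sm_slice_fst (sm_jC h.adm.adm) 0) (tg_jC h.adm.adm)

theorem nondeg (hn : N.Nondeg D β) (u : SY D β) (u0 : ∀ y, fa (u.1 y) none = 0)
    (H : ∀ x, HD (fun ε : ℝ => se D.B D.G (N.q1 (n := 0) D.nk) (cy β) (ε • fun y => u.1 y.1) x) 0) :
    ∃ ξ, Gs I3 β ξ ∧ ∃ c : ℝ, ∀ y, u.1 y = gY D β 1 ξ y + c • jY β y := by
  have tu := tg_fst h u
  have k : ∃ (ξ : Y → (cy β).m.A) (c : ℝ), Sm I3 ξ ∧ (∀ y, ξ y ∈ (cy β).m.gS (y, 0)) ∧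
      (∀ a y, fa (u.1 y) (some a) = -nY D β a ξ y) ∧ ∀ y, fp (u.1 y) =
        opL (ξ y) ((cy β).Φ (y, 0)) + c • (cy β).m.J ((cy β).Φ (y, 0)) :=
    hn (fun y => fa (u.1 y)) (fun y => fp (u.1 y)) (fa.contMDiff.comp u.2.1)
      (fp.contMDiff.comp u.2.1) (fun y => tu.p1 (y, 0)) u0 (fun y => tu.pp (y, 0))
      (fun x => (hd_eq (H x)).1) fun x => (hd_eq (H x)).2
  obtain ⟨ξ, c, h1, h2, h3, h4⟩ := k
  refine ⟨ξ, ⟨h1, fun x => h2 x.1⟩, c, fun y => ext2 (fm_ext fun a => ?_) ?_⟩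
  · rw [map_add, map_smul, jY, fa_jC, smul_zero, add_zero, gY]
    cases a with
    | none => rw [u0, fa_dg_none h.adm h1]
    | some a => rw [h3, fa_dg_some (sm_fst h1)]
  · rw [map_add, map_smul, jY, fp_jC, gY, fp_dg, one_smul, h4]

variable (hl : LapStmt I3 Y κ lam)
include hl

theorem ibp (s : SY D β) (hξ : Gs I3 β ξ) :
    ∫ y, ⟪sig D.B D.Z (cy β) 2 (fun x => s.1 x.1) (y, 0), ξ y⟫_ℝ ∂D.F.μ =
      ∫ y, ⟪sc2 _ _ 1 2 (s.1 y), gY D β 2 ξ y⟫_ℝ ∂D.F.μ :=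
  ((hl D β h.ok h.adm 2).1 s.1 ξ s.2.1 (tg_fst h s) hξ.sm fun y => hξ.mem (y, 0)).trans
    (integral_congr_ae (ae_of_all _ fun y => congrArg (⟪·, gY D β 2 ξ y⟫_ℝ) (i_sc2 (s.1 y))))

theorem xi_zero (irr : Irr D β) (hξ : Gs I3 β ξ)
    (H : ∫ y, ⟪sig D.B D.Z (cy β) 2 (fun x => gY D β 1 ξ x.1) (y, 0), ξ y⟫_ℝ ∂D.F.μ = 0) : ξ = 0 := by
  have e : ∀ x, dg D.Z (cy β) 2 (fun x => ξ x.1) x = 0 := fun x => by
    rw [dg_fst h.adm hξ.sm]
    refine congrFun (congrArg Subtype.val (sec_zero (F := D.F) (s := gS h 2 hξ) ?_)) x.1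
    refine Eq.trans ?_ ((ibp h hl (gS h 1 hξ) hξ).symm.trans H)
    exact integral_congr_ae (ae_of_all _ fun y => congrArg (⟪·, gY D β 2 ξ y⟫_ℝ) (sc2_gY y).symm)
  exact funext fun y => irr (fun x => ξ x.1) ⟨(sm_fst hξ.sm).contMDiffOn, fun x _ => hξ.mem x,
    fun a x _ => (par_of two_ne_zero e x).1 a⟩ (fun x => (par_of two_ne_zero e x).2) (y, 0)

theorem exists_u0 (irr : Irr D β) :
    ∃ ξ, Gs I3 β ξ ∧ sig D.B D.Z (cy β) 2 (fun x => jY β x.1 + gY D β 1 ξ x.1) = 0 := by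
  obtain ⟨ξ, h1, h2, h3⟩ := (hl D β h.ok h.adm 2).2 irr two_ne_zero _ (jS h).2.1 (tg_fst h (jS h))
  refine ⟨ξ, ⟨h1, fun x => h2 x.1⟩, Eq.trans ?_ h3⟩
  exact congrArg (fun f : Cz β => sig D.B D.Z (cy β) 2 fun x => jY β x.1 + f x)
    (dg_fst (ξ := ξ) h.adm h1).symm

end hz

variable (N D β) in
/-- the operator on the cross-section -/
def EY (b : Y → Cv (cy β)) (y : Y) : Cv (cy β) := (sop (AZ D β)).app D.F b y + kY N D β b y

namespace Kp
variable (h : Kp N D β)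
include h

theorem gau_fst (hc : N.Crit D β) (hξ : Gs I3 β ξ) (x : Y × ℝ) :
    lin D.B D.Z (cy β) (fun x => gY D β 1 ξ x.1) x =
      kE D β x (hz N D β (fun x => gY D β 1 ξ x.1) x) ∧
    fa (hz N D β (fun x => gY D β 1 ξ x.1) x) none = 0 := by
  obtain ⟨C, -, g⟩ := (bs_cyl h.ok h.adm).good_dO 1
  obtain ⟨γ, hγ, H⟩ := h.approx
  let u : ℕ → Y × ℝ → (cy β).m.A := fun n x => slo n x.2 • ξ x.1
  have u1 : ∀ n, Fl D.Z.toPre (u n) := fun n =>
    .of_hcs (tens (sm_slo n).cd (hcs_slo n) ⟨ξ, mem_triv hξ.sm (.of_compactSpace _)⟩).2.1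
      (tens (sm_slo n).cd (hcs_slo n) ⟨ξ, mem_triv hξ.sm (.of_compactSpace _)⟩).2.2.1
  have u2 : ∀ n x, u n x ∈ (cy β).m.gS x := fun n x => Submodule.smul_mem _ _ (hξ.mem x)
  have u3 := fun n => dO_app h.ok.B h.ok.G h.adm.adm 1 (u1 n).sm (u2 n)
  have u4 : Ell97.UB (fun _ : ℕ => D.Z.toPre) u :=
    Cls.smul (K := ub _) ub_slo (ub_cb (cb_fst (sm_fst hξ.sm)))
  have o : ∀ {n : ℕ} {x : Y × ℝ}, |x.2| < n → ∀ᶠ z : Y × ℝ in 𝓝 x, |z.2| < n := fun {n x} hx =>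
    (isOpen_lt continuous_snd.abs (continuous_const (y := (n : ℝ)))).eventually_mem (x := x) hx
  have e : ∀ (n : ℕ) (x : Y × ℝ), |x.2| < n → dg D.G.F (cy β) 1 (u n) x = gY D β 1 ξ x.1 :=
      fun n x hx => by
    rw [← (u3 n).1, ← congrFun (dO_fst h.toHz hξ 1).1 x]
    exact app_congr _ ((o hx).mono fun z hz => by
      simp only [u, slo_one (n := n) (hz.le.trans (by simp)), one_smul])
  obtain ⟨K, -, H⟩ := H (vb_fst h.toHz (gS h.toHz 1 hξ)) (b := fun n => dg D.G.F (cy β) 1 (u n))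
    (fun n => ⟨(u3 n).1 ▸ (u1 n).opA g, (u3 n).2⟩) (by
      simp only [← fun n => (u3 n).1]
      exact (ub _).add (Cls.sum (K := ub _) fun a => (ub _).app (ub_cb ⟨_, g.σ a⟩) ((ub _).D u4 a))
        ((ub _).app (ub_cb ⟨_, g.B⟩) u4)) e
  have t : Tendsto (fun n => hz N D β (dg D.G.F (cy β) 1 (u n)) x) atTop
      (𝓝 (hz N D β (fun x => gY D β 1 ξ x.1) x)) :=
    tendsto_iff_norm_sub_tendsto_zero.2 (squeeze_zero (fun _ => norm_nonneg _)
      (fun n => (norm_sub_rev _ _).trans_le ((H x).2 n)) (tendsto_ex hγ _ _ one_pos))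
  have G := fun n => h.gau hc (u n) (u1 n) (u2 n)
  refine ⟨tendsto_nhds_unique (tendsto_const_nhds.congr' ?_) (((kE D β x).continuous.tendsto _).comp t),
    tendsto_nhds_unique (((pj _ none ∘L fa).continuous.tendsto _).comp t)
      (tendsto_const_nhds.congr fun n => ((G n).2 x).symm)⟩
  filter_upwards [tendsto_natCast_atTop_atTop.eventually_gt_atTop |x.2|] with n hn
  exact (app_congr _ ((o hn).mono (e n))).symm.trans (congrFun (G n).1 x)

variable (hd : Module.finrank ℝ E3 ≤ 3)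
include hd

theorem σ_EY (s : SY D β) (x : Y × ℝ) : (AZ D β).σ none x.1 (EY N D β s.1 x.1) =
    i1 _ _ ((1 / 2 : ℝ) • (sig D.B D.Z (cy β) 2 (fun y => sc2 _ _ 2 1 (s.1 y.1)) x +
      KT N D β (fun y => sc2 _ _ 2 1 (s.1 y.1)) x)) +
    i2 _ _ (sc2 _ _ 1 (1 / 2) (lin D.B D.Z (cy β) (fun y => sc2 _ _ 2 1 (s.1 y.1)) x -
      KE N D β (fun y => sc2 _ _ 2 1 (s.1 y.1)) x)) := by
  refine Eq.trans ?_ (sz_id h.ok h.adm (sm_fst s.2.1) (tg_fst h.toHz s)
    (h.pC_hz (scY h.toHz 2 1 s) x))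
  rw [EY, map_add, ← (cyO_AZ h.toHz hd).app_fst s.2.1, ← h.hs_fst s x, ← cyo_AZ h.toHz]
  rfl

variable {K : HZ D β 0 →L[ℝ] HZ D β 0} (hK : IsK N D β K)
include hK

/-- the operator on Sobolev spaces of the cross-section -/
abbrev _root_.Crest.Agent.X212.Cyf70.OY (K : HZ D β 0 →L[ℝ] HZ D β 0) : HY D β 1 →L[ℝ] HY D β 0 :=
  Crt72.Op (D.F.incl 1 0 (AZ D β).p) (LH D.F (AZ D β) 0) (kk (KZ K))

theorem OY_toH (s : SY D β) : ∃ e : SY D β, e.1 = EY N D β s.1 ∧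
    OY K (D.F.toH 1 _ s) = D.F.toH 0 _ e := by
  obtain ⟨C, g⟩ := (cyO_AZ h.toHz hd).good_sop
  refine ⟨Ell97.LS g s + (h.sd hd hK).kS s, rfl, ?_⟩
  rw [Crt72.Op_apply, LH, Ell97.H_toH g, incl_toH zero_le_one, (h.sd hd hK).kk_toH s, map_add]

theorem EY_symm (s t : SY D β) : ∫ y, ⟪EY N D β s.1 y, t.1 y⟫_ℝ ∂D.F.μ =
    ∫ y, ⟪s.1 y, EY N D β t.1 y⟫_ℝ ∂D.F.μ := by
  obtain ⟨d, C, hT⟩ := h.tk hK
  obtain ⟨σ, σ', hσ⟩ := exists_stp
  obtain ⟨e, e1, e2⟩ := h.OY_toH hd hK s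
  obtain ⟨f, f1, f2⟩ := h.OY_toH hd hK t
  have := ((cyO_AZ h.toHz hd).isSF hσ).symOp hT.kk_symm (D.F.toH 1 _ s) (D.F.toH 1 _ t)
  rwa [e2, f2, incl_toH zero_le_one, incl_toH zero_le_one, inner_toH, inner_toH, e1, f1] at this

variable (hl : LapStmt I3 Y κ lam) (hc : N.Crit D β) (irr : Irr D β)
include hl hc irr

theorem dt_zero {s : SY D β} (hs : EY N D β s.1 = 0) (y : Y) : fa (s.1 y) none = 0 := by
  have o := cyO_AZ h.toHz hd
  have m : Gs I3 β fun y => fa (s.1 y) none :=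
    ⟨sm_clm (pj _ none ∘L fa) s.2.1, fun x => (tg_fst h.toHz s).mem x none⟩
  refine congrFun (xi_zero h.toHz hl irr m ?_) y
  have H := h.EY_symm hd hK s (scY h.toHz (1 / 2) 1 (gS h.toHz 1 m))
  have e : (fun y : Y × ℝ => sc2 _ _ 2 1 ((scY h.toHz (1 / 2) 1 (gS h.toHz 1 m)).1 y.1)) =
      fun x => gY D β 1 (fun y => fa (s.1 y) none) x.1 :=
    funext fun x => (sc2_sc2 ..).trans (by norm_num; exact sc2_one _)
  simp only [hs, Pi.zero_apply, inner_zero_left, integral_zero] at H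
  refine Eq.trans ?_ ((integral_const_mul 2 _).trans ((congrArg (2 * ·) H.symm).trans (mul_zero _)))
  refine integral_congr_ae (ae_of_all _ fun y => ?_)
  have g := h.gau_fst hc m (y, 0)
  have h1 := h.σ_EY hd (scY h.toHz (1 / 2) 1 (gS h.toHz 1 m)) (y, 0)
  have h2 : f2 _ _ ((AZ D β).σ none y (s.1 y)) = fa (s.1 y) none :=
    ((bs_cyl h.ok h.adm).ok.full_σ1 _ none (y, 0) _).trans
      (congrArg (· none) ((tg_fst h.toHz s).p1 (y, 0)))
  rw [e, KE, ← g.1, KT, _root_.smul_apply, show (pj _ none ∘L fa) _ = 0 from g.2] at h1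
  beta_reduce
  rw [o.inner_σ (s.2.2.2 y), h1, inner2, h2, f2_ii, s2_ii, sub_self, map_zero, inner_zero_right,
    smul_zero, add_zero, add_zero, real_inner_smul_right, real_inner_comm]
  ring

theorem ker_span (hn : N.Nondeg D β) {s : SY D β} (hs : EY N D β s.1 = 0) (hη : Gs I3 β η)
    (h0 : sig D.B D.Z (cy β) 2 (fun x => jY β x.1 + gY D β 1 η x.1) = 0) :
    ∃ c : ℝ, ∀ y, sc2 _ _ 2 1 (s.1 y) = c • (jY β y + gY D β 1 η y) := by
  obtain ⟨u, hu⟩ : ∃ u, u = scY h.toHz 2 1 s := ⟨_, rfl⟩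
  have e : ∀ y, sc2 _ _ 2 1 (s.1 y) = u.1 y := fun y => by rw [hu]; rfl
  have u0 : ∀ y, fa (u.1 y) none = 0 := fun y => by simp [← e, h.dt_zero hd hK hl hc irr hs y]
  have tu := tg_fst h.toHz u
  obtain ⟨γ, -, C, -, H⟩ := h.slice u
  have k := fun x => h.σ_EY hd s x
  simp only [hs, e, Pi.zero_apply, map_zero] at k ⊢
  have k1 : ∀ x, sig D.B D.Z (cy β) 2 (fun y => u.1 y.1) x = 0 := fun x => by
    have h1 := ((pj _ none ∘L fa).hasFDerivAt.comp_hasDerivAt 0 (H x).1).unique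
      ((hasDerivAt_const (0 : ℝ) 0).congr_of_eventuallyEq (Eventually.of_forall fun ε =>
        h.iv (ε • u).1 (ε • u).2.1 (tg_fst h.toHz (ε • u)) (fun y => by simp [u0]) x))
    have h2 := congrArg (f2 _ _) (k x)
    rw [KT, _root_.smul_apply, h1] at h2
    simpa using h2.symm
  have k2 : ∀ x, HD (fun ε : ℝ => se D.B D.G (N.q1 (n := 0) D.nk) (cy β)
      (ε • fun y => u.1 y.1) x) 0 := fun x => by
    have h2 := congrArg (fun z => sc2 _ _ 1 2 (s2 _ _ z)) (k x)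
    simp only [map_add, s2_i1, s2_i2, zero_add, sc2_sc2, map_zero] at h2
    rw [mul_one, show (2 : ℝ) * (1 / 2) = 1 by norm_num, sc2_one] at h2
    rw [h2]
    refine hd_se h.ok.B h.ok.G h.adm.adm _ (sm_fst u.2.1) tu ?_
    simp only [te_q1 h.toHz]
    exact (kE D β x).hasFDerivAt.comp_hasDerivAt 0 (H x).1
  obtain ⟨ξ, g, c, h3⟩ := nondeg h.toHz hn u u0 k2
  have e1 : ∀ y, u.1 y + -c • (jY β y + gY D β 1 η y) = gY D β 1 (ξ + -c • η) y := fun y => by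
    rw [gY_lin h.toHz g hη, h3]; module
  have e2 := xi_zero h.toHz hl irr (g.lin hη (-c)) (integral_eq_zero_of_ae (ae_of_all _ fun y => by
    have := sig_lin (F := D.Z) (B := D.B) (l := 2) (v := fun x => jY β x.1 + gY D β 1 η x.1) (-c)
      (sm_fst u.2.1) (sm_fst (jS h.toHz + gS h.toHz 1 hη).2.1) (y, 0)
    rw [k1, h0, Pi.zero_apply, smul_zero, add_zero, show ((fun x : Y × ℝ => u.1 x.1) + -c • fun x =>
      jY β x.1 + gY D β 1 η x.1) = fun x => gY D β 1 (ξ + -c • η) x.1 from funext fun x => e1 x.1] at this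
    beta_reduce
    rw [this, inner_zero_left, Pi.zero_apply]))
  refine ⟨c, fun y => ?_⟩
  have := e1 y
  rw [e2, neg_smul, ← sub_eq_add_neg] at this
  exact sub_eq_zero.1 (this.trans (dg_zero _))

/-- **the kernel is spanned by the direction of the circle** -/
theorem ker_le (hn : N.Nondeg D β) (hη : Gs I3 β η)
    (h0 : sig D.B D.Z (cy β) 2 (fun x => jY β x.1 + gY D β 1 η x.1) = 0) {v : HY D β 1}
    (hv : OY K v = 0) : ∃ c : ℝ,
      v = c • D.F.toH 1 _ (scY h.toHz (1 / 2) 1 (jS h.toHz + gS h.toHz 1 hη)) := by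
  obtain ⟨s, rfl⟩ := (h.sd hd hK).ker_smooth hv
  obtain ⟨e, e1, e2⟩ := h.OY_toH hd hK s
  obtain rfl : e = 0 := Ell97.toH_inj D.F 0 _ (e2.symm.trans (hv.trans (map_zero _).symm))
  obtain ⟨c, H⟩ := h.ker_span hd hK hl hc irr hn e1.symm hη h0
  refine ⟨c, (congrArg _ (Subtype.ext (funext fun y => ?_))).trans (map_smul _ _ _)⟩
  have := congrArg (sc2 _ _ (1 / 2) 1) (H y)
  rw [sc2_sc2, show (1 / 2 : ℝ) * 2 = 1 by norm_num, mul_one, sc2_one, map_smul] at this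
  exact this

end Kp

end Crest.Agent.X212.Cyf70
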