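import Crest.Agent.X212.Cyf70.Nw

/-!
# Row 212, CYLF (helper70): invertibility and index of non-local cylinder operators with weights
-/

set_option autoImplicit false
set_option linter.unusedSectionVars false
open Function Filter Topology Module Set MeasureTheory
open scoped RealInnerProductSpace BoundedContinuousFunction ContDiff

noncomputable section
namespace Crest.Agent.X212.Cyf70
open Neck67 (Sm Bd ex up dn cS)
open Dec35 Rf65
open Fred93 (Fr)
open Crt72 (IsPj SF Op)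

variable {X₁ X₀ Z : Type*} [NormedAddCommGroup X₁] [NormedSpace ℝ X₁] [CompleteSpace X₁]
  [NormedAddCommGroup X₀] [InnerProductSpace ℝ X₀] [CompleteSpace X₀] [NormedAddCommGroup Z]
  [NormedSpace ℝ Z] [CompleteSpace Z]
  {i L : X₁ →L[ℝ] X₀} {J : Z →L[ℝ] Lam X₁} {T : Z →L[ℝ] Lam X₀}
  {K K' K₁ K₂ K₃ : Lam X₀ →L[ℝ] Lam X₀} {a a₁ a₂ j k P : X₀ →L[ℝ] X₀} {M c d C δ τ r : ℝ}
  {σ σ' : ℝ →ᵇ ℝ}

/-! ### the gap of the slice operator -/

variable (i L) in
/-- `L + k` vanishes on the range of `P` and is bounded below off it -/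
structure Gap (k P : X₀ →L[ℝ] X₀) (c : ℝ) : Prop where
  sym : ∀ x y, ⟪P x, y⟫ = ⟪x, P y⟫
  idem : ∀ x, P (P x) = P x
  low : ∀ v, ‖i v - P (i v)‖ ≤ c * ‖L v + k (i v)‖
  ort : ∀ v x, ⟪L v + k (i v), P x⟫ = 0
  pos : 0 ≤ c

theorem exists_gap {A : Submodule ℝ (X₀ →L[ℝ] X₀)} {s : (X₀ →L[ℝ] X₀) → (X₀ →L[ℝ] X₀) → ℤ}
    (H : SF i L A s) (hk : k ∈ A) (hP : IsPj i (Op i L k).ker P) : ∃ c, Gap i L k P c := by
  have ort : ∀ v x, ⟪Op i L k v, P x⟫ = 0 := fun v x => by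
    obtain ⟨w, hw, e⟩ := hP.mem x
    rw [e, H.symOp hk, show Op i L k w = 0 from hw, inner_zero_right]
  have hb := H.bij_of_inj (a := k + P) fun u hu => by
    rw [Crt72.Op_add] at hu
    have h1 : Op i L k u + P (i u) = 0 := hu
    have h2 : P (i u) = 0 := by
      have := congrArg (fun y => ⟪y, P (i u)⟫) h1
      simpa [inner_add_left, ort] using this
    rw [h2, add_zero] at h1
    exact H.inj ((hP.fix u h1).symm.trans (h2.trans (map_zero i).symm))
  let e := ContinuousLinearEquiv.ofBijective _ (LinearMap.ker_eq_bot.2 hb.1)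
    (LinearMap.range_eq_top.2 hb.2)
  refine ⟨‖i ∘L (e.symm : X₀ →L[ℝ] X₁)‖, hP.symm, fun x => ?_, fun v => ?_, ort, norm_nonneg _⟩
  · obtain ⟨w, hw, e⟩ := hP.mem x
    rw [e, hP.fix w hw]
  · obtain ⟨w, hw, e1⟩ := hP.mem (i v)
    have h1 : e (v - w) = L v + k (i v) := by
      change Op i L (k + P) (v - w) = Op i L k v
      rw [Crt72.Op_add]
      change Op i L k (v - w) + P (i (v - w)) = _
      rw [map_sub, map_sub, map_sub, show Op i L k w = 0 from hw, hP.fix w hw, e1]; simp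
    have := (i ∘L (e.symm : X₀ →L[ℝ] X₁)).le_opNorm (e (v - w))
    rwa [ContinuousLinearMap.comp_apply, ContinuousLinearEquiv.coe_coe, e.symm_apply_apply, h1,
      map_sub, ← e1] at this

theorem Gap.add (h : Gap i L k P c) (ha : a ∈ SymA X₀) (hP : ∀ x, a (P x) = 0)
    (hc : c * ‖a‖ ≤ 1 / 2) : Gap i L (k + a) P (2 * c) := by
  refine ⟨h.sym, h.idem, fun v => ?_, fun v x => ?_, by linarith [h.pos]⟩
  · have h1 : L v + k (i v) = L v + (k + a) (i v) - a (i v - P (i v)) := by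
      rw [map_sub, hP, _root_.add_apply]; abel
    have h2 := h.low v
    rw [h1] at h2
    have h3 := mul_le_mul_of_nonneg_left ((norm_sub_le (L v + (k + a) (i v)) _).trans
      (add_le_add_right (a.le_opNorm (i v - P (i v))) _)) h.pos
    nlinarith [norm_nonneg (i v - P (i v))]
  · rw [_root_.add_apply, ← add_assoc, inner_add_left, h.ort, ha, hP]; simp

theorem Gap.inj (h : Gap i L k P c) (hi : Injective i) (h0 : δ ≠ 0) (hδ : c * |δ| < 1) {u : X₁}
    (hu : L u + k (i u) = δ • i u) : u = 0 := by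
  have h1 := h.ort u (i u)
  rw [hu, real_inner_smul_left, ← h.idem, ← h.sym, mul_eq_zero, inner_self_eq_zero] at h1
  have h2 := h.low u
  rw [h1.resolve_left h0, sub_zero, hu, norm_smul, Real.norm_eq_abs] at h2
  refine hi ((norm_le_zero_iff.1 ?_).trans (map_zero i).symm)
  nlinarith [norm_nonneg (i u)]

/-! ### the non-local operator -/

theorem NK.cp_add (h : NK K k P M) (ha : a ∈ SymA X₀) : NK (K + cp a) (k + a) P M := by
  have e : ∀ x, (K + cp a) x - cp (k + a) x = K x - cp k x := fun x => by simp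
  exact ⟨fun x y => by
      simp only [_root_.add_apply, inner_add_left, inner_add_right, h.sym, inner_ma 1 ha],
    fun r x => by simp only [_root_.add_apply, map_add, h.ti, tr_cp],
    (SymA X₀).add_mem h.ks ha, fun x D hx => e x ▸ h.est x D hx,
    fun x y D D' hx hy => e _ ▸ h.quad x y D D' hx hy⟩

theorem NK.path (h : NK K k P M) {s : ℝ} (hs : |s| ≤ 1) : NK (cp k + s • (K - cp k)) k P M := by
  have e : ∀ x, (cp k + s • (K - cp k)) x - cp k x = s • (K x - cp k x) := fun x => by simp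
  refine ⟨fun x y => ?_, fun r x => ?_, h.ks, fun x D hx => ?_, fun x y D D' hx hy => ?_⟩
  · simp only [_root_.add_apply, _root_.sub_apply, _root_.smul_apply, inner_add_left,
      inner_add_right, inner_sub_left, inner_sub_right, real_inner_smul_left, real_inner_smul_right,
      h.sym, inner_ma 1 h.ks]
  · simp only [_root_.add_apply, _root_.sub_apply, _root_.smul_apply, map_add, map_sub,
      map_smul, h.ti, tr_cp]
  · rw [e, norm_smul]
    exact (mul_le_of_le_one_left (norm_nonneg _) hs).trans (h.est x D hx)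
  · rw [e, real_inner_smul_left, abs_mul]
    exact (mul_le_of_le_one_left (abs_nonneg _) hs).trans (h.quad x y D D' hx hy)

theorem nk_cp (hk : k ∈ SymA X₀) : NK (cp k) k P 0 :=
  ⟨inner_ma 1 hk, fun r x => tr_cp r k x, hk, fun x D _ => by simp, fun x y D D' _ _ => by simp⟩

variable (i L J) in
/-- the symmetric part of `Dz` -/
abbrev Sz (K : Lam X₀ →L[ℝ] Lam X₀) : Z →L[ℝ] Lam X₀ := cp L ∘L J + K ∘L cp i ∘L J

/-- the constant of `Dec35.Cy` -/
def cY (c M : ℝ) (P : X₀ →L[ℝ] X₀) : ℝ := 1 + c * (1 + M) + M * (1 + ‖P‖)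

namespace CylD
variable (h : CylD τ i L J T) (hK : NK K k P M) (hM : 0 ≤ M) (hG : Gap i L k P c)
include h hK

theorem nk_op : CylOp (cp i ∘L J) T (Sz i L J K) :=
  ⟨(h.cylOp h.sym).skew, fun u v => by
    have : ⟪cp L (J u), cp i (J v)⟫ = ⟪cp i (J u), cp L (J v)⟫ := (h.cylOp h.sym).symm u v
    simp [inner_add_left, inner_add_right, this, hK.sym], fun u => by
    have : ⟪T u, cp L (J u)⟫ = 0 := (h.cylOp h.sym).orth u
    simp [inner_add_right, this, h.orth hK.sym hK.ti]⟩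

include hM hG

omit h hK in
theorem one_le_cY : 1 ≤ cY c M P := by
  have := hG.pos
  exact le_add_of_le_of_nonneg (le_add_of_nonneg_right (by positivity)) (by positivity)

theorem nk_low (u : Z) :
    ‖cp i (J u) - cp P (cp i (J u))‖ ≤ cY c M P * (‖Sz i L J K u‖ + ‖T u‖) := by
  have h1 : ‖cp i (J u) - cp P (cp i (J u))‖ ≤ c * ‖cp L (J u) + cp k (cp i (J u))‖ :=
    R.norm_le (by rr) (by rr) (ae_of_all _ fun t => by simpa using hG.low _)
  have h2 := hK.est _ _ (h.lip u)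
  have h3 := norm_sub_le (Sz i L J K u) (K (cp i (J u)) - cp k (cp i (J u)))
  rw [show Sz i L J K u - (K (cp i (J u)) - cp k (cp i (J u))) = cp L (J u) + cp k (cp i (J u)) by
    simp only [_root_.add_apply, ContinuousLinearMap.comp_apply]; abel] at h3
  have h4 := mul_le_mul_of_nonneg_left (h3.trans (add_le_add_right h2 _)) hG.pos
  have h5 : 0 ≤ (1 + M * (1 + ‖P‖)) * (‖Sz i L J K u‖ + ‖T u‖) := by positivity
  have h6 := mul_nonneg hG.pos (norm_nonneg (T u))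
  have h7 := mul_nonneg (mul_nonneg hG.pos hM) (norm_nonneg (Sz i L J K u))
  unfold cY
  nlinarith

theorem nk_quad (u w : Z) : |⟪Sz i L J K u, cp P (cp i (J w))⟫| ≤
    cY c M P * (‖cp i (J u) - cp P (cp i (J u))‖ + ‖T u‖) * ‖T w‖ := by
  have h1 : ⟪cp L (J u) + cp k (cp i (J u)), cp P (cp i (J w))⟫ = 0 := by
    rw [R.inner (by rr) (by rr)]
    simpa using integral_eq_zero_of_ae (ae_of_all _ fun t => hG.ort (J u t) (i (J w t)))
  have h2 := hK.quad _ _ _ _ (h.lip u) (h.lip w)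
  have h3 := (abs_real_inner_le_norm (cp i (J u) - cp P (cp i (J u))) _).trans
    (mul_le_mul_of_nonneg_left (hK.est _ _ ((h.lip w).cp P)) (norm_nonneg _))
  have e : ⟪Sz i L J K u, cp P (cp i (J w))⟫ = ⟪cp i (J u) - cp P (cp i (J u)),
      K (cp P (cp i (J w))) - cp k (cp P (cp i (J w)))⟫ + ⟪K (cp P (cp i (J u))) -
      cp k (cp P (cp i (J u))), cp P (cp i (J w))⟫ := by
    rw [inner_sub_right, ← hK.sym, ← inner_ma 1 hK.ks, ← inner_sub_left, ← inner_add_left,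
      ← add_zero ⟪_ - _ + _, _⟫, ← h1, ← inner_add_left]
    congr 1; simp only [map_sub, _root_.add_apply, ContinuousLinearMap.comp_apply]; abel
  rw [e]
  refine ((abs_add_le _ _).trans (add_le_add h3 h2)).trans ?_
  have := hG.pos
  have h4 : 0 ≤ ((1 + c * (1 + M)) * (‖cp i (J u) - cp P (cp i (J u))‖ + ‖T u‖) +
    M * ‖cp i (J u) - cp P (cp i (J u))‖ + M * ‖P‖ * ‖T u‖) * ‖T w‖ := by positivity
  unfold cY
  nlinarith

omit h in
/-- **the hypotheses of the peaked lower bound** -/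
theorem nk_cy (h : CylD 1 i L J T) :
    Cy (muL X₀) (mZ J) (cp i ∘L J) T (Sz i L J K) (cp P) (cY c M P) :=
  cy_of h (h.nk_op hK) P (one_le_cY hM hG) (h.nk_low hK hM hG) (h.nk_quad hK hM hG)

theorem nk_wt {Q : Lam X₀ →L[ℝ] Lam X₀} (hC : 2 * cY c M P ≤ C) (hR : ‖Q‖ ≤ C * |δ|)
    (hR' : ∀ x, |⟪Q x, x⟫| ≤ C * δ ^ 2 * ‖x‖ ^ 2) (hδ : |δ| * (200 * C ^ 5) ≤ 1) (u : Z) :
    |δ| * ‖cp i (J u)‖ ≤ 4 * ‖Dz i L J T (K + Q - δ • 1) u‖ := by
  have c1 := one_le_cY hM hG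
  have sP := inner_ma (X := X₀) 1 hG.sym
  have pP : ∀ x, cp P (cp P x) = cp P x := fun x =>
    R.ext' (by rr) (by rr) fun t => by simp [hG.idem]
  refine ((h.nk_op hK).low_wt (P := cp P) (C := C) (by linarith) (fun x => ?_) (fun u => ?_)
    (fun u => (h.nk_low hK hM hG u).trans (mul_le_mul_of_nonneg_right (by linarith)
      (by positivity))) (fun u => (h.nk_quad hK hM hG u u).trans ?_) hR hR' hδ u).trans_eq ?_
  · rw [← sP, map_sub, pP, sub_self, inner_zero_left]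
  · have := h.skew P u u
    rw [← sP (cp i (J u))] at this
    change ⟪T u, cp P (cp i (J u))⟫ = 0
    linarith [real_inner_comm (T u) (cp P (cp i (J u)))]
  · change _ ≤ C * (‖cp i (J u) - cp P (cp i (J u))‖ ^ 2 + _)
    generalize ‖cp i (J u) - cp P (cp i (J u))‖ = x
    generalize ‖T u‖ = y
    have h1 : (x + y) * y ≤ 2 * (x ^ 2 + y ^ 2) := by nlinarith [sq_nonneg (x - y)]
    have h2 := mul_le_mul_of_nonneg_left h1 (zero_le_one.trans c1)
    have h3 := mul_le_mul_of_nonneg_right hC (show 0 ≤ x ^ 2 + y ^ 2 by positivity)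
    linarith
  · congr 2; simp [Dz_apply]; abel

/-- **invertibility with a small weight** -/
theorem nk_bij {Q : Lam X₀ →L[ℝ] Lam X₀} (hC : 2 * cY c M P ≤ C) (hR : ‖Q‖ ≤ C * |δ|)
    (hR' : ∀ x, |⟪Q x, x⟫| ≤ C * δ ^ 2 * ‖x‖ ^ 2) (hδ : |δ| * (200 * C ^ 5) ≤ 1) (h0 : δ ≠ 0) :
    Bijective (Dz i L J T (K + Q - δ • 1)) := by
  have p := abs_pos.2 h0
  refine h.bij (K' := K + Q.adjoint - δ • 1) (fun x y => ?_) (C := 4 / |δ|) (fun u => ?_)
    fun v hv => h.injI ?_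
  · simp [inner_add_left, inner_add_right, inner_sub_left, inner_sub_right, hK.sym,
      real_inner_smul_left, real_inner_smul_right, ContinuousLinearMap.adjoint_inner_right]
  · rw [div_mul_eq_mul_div, le_div_iff₀' p]; exact h.nk_wt hK hM hG hC hR hR' hδ u
  · have := h.neg.nk_wt hK hM hG hC (Q := Q.adjoint) (by rwa [LinearIsometryEquiv.norm_map]) (fun x => by
      rw [ContinuousLinearMap.adjoint_inner_left, real_inner_comm]; exact hR' x) hδ v
    rw [hv, norm_zero, mul_zero] at this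
    simpa using nonpos_of_mul_nonpos_right this p

end CylD

/-! ### compact errors -/

theorem Stp.smf (h : Stp σ σ' r) : Sm σ :=
  Neck67.Sm.of_deriv_cpt h.sm σ.norm_coe_le_norm (by
    rw [show deriv σ = σ' from funext fun t => (h.der t).deriv]; exact h.hcs')

theorem bc_coe {b : ℝ →ᵇ ℝ} (h : Sm b) : bc b = b := BoundedContinuousFunction.ext (bc_apply h)

variable (i J) in
/-- the parts of the kernel of `K` across a compact time interval are compact -/
def Sep (K : Lam X₀ →L[ℝ] Lam X₀) : Prop :=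
  ∀ b c : ℝ → ℝ, Sm b → Sm c → ∀ p : ℝ, ((∀ t, p ≤ t → b t = 0) ∧ ∀ t ≤ -p, c t = 0) ∨
    ((∀ t ≤ -p, b t = 0) ∧ ∀ t, p ≤ t → c t = 0) →
    Cq (((muL X₀).m b * K * (muL X₀).m c) ∘L cp i ∘L J) 0

theorem Sep.add (h : Sep i J K) (h' : Sep i J K') : Sep i J (K + K') := fun b c hb hc p H =>
  ((h b c hb hc p H).add (h' b c hb hc p H)).congr (fun u => by simp) fun u => by simp

theorem Sep.smul (h : Sep i J K) (s : ℝ) : Sep i J (s • K) := fun b c hb hc p H =>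
  ((h b c hb hc p H).smul s).congr (fun u => by simp) fun u => by simp

theorem Sep.sub (h : Sep i J K) (h' : Sep i J K') : Sep i J (K - K') := fun b c hb hc p H =>
  ((h b c hb hc p H).sub (h' b c hb hc p H)).congr (fun u => by simp) fun u => by simp

theorem hcs_of {b : ℝ → ℝ} {p : ℝ} (h1 : ∀ t, p ≤ t → b t = 0) (h2 : ∀ t ≤ -p, b t = 0) :
    HasCompactSupport b :=
  HasCompactSupport.intro (isCompact_Icc (a := -p) (b := p)) fun t ht => by
    rw [mem_Icc, not_and_or, not_le, not_le] at ht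
    exact ht.elim (fun h => h2 t h.le) fun h => h1 t h.le

theorem CylD.cq_m (h : CylD τ i L J T) {b : ℝ → ℝ} (hb : Sm b) (hc : HasCompactSupport b) :
    Cq ((muL X₀).m b ∘L cp i ∘L J) 0 := by
  have e : (bc b : ℝ → ℝ) = b := funext (bc_apply hb)
  exact h.cq_mt (by rw [e]; exact hb.cd) (by rw [e]; exact hc)

theorem CylD.sep_ma (h : CylD τ i L J T) (e : ℝ →ᵇ ℝ) (a : X₀ →L[ℝ] X₀) : Sep i J (ma e a) :=
  fun b c hb hc p H => ((h.cq_m (hb.mul hc) (H.elim
    (fun H => hcs_of (p := p) (fun t ht => by simp [H.1 t ht]) fun t ht => by simp [H.2 t ht])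
    fun H => hcs_of (p := p) (fun t ht => by simp [H.2 t ht]) fun t ht => by simp [H.1 t ht])).left
    (ma e a)).congr (fun u => by
      rw [(muL X₀).mul hb hc]; simp [muL_m, ma_ma, mul_comm, mul_left_comm]) fun u => by simp

theorem CylD.sep_kw (h : CylD τ i L J T) (hK : (muL X₀).KW K d C) (hd : 0 < d) : Sep i J K := by
  intro b c hb hc p H
  obtain ⟨β, h1⟩ := hb.bd 0
  obtain ⟨γ, h2⟩ := hc.bd 0
  have cS0 : 0 < cS 0 := lt_of_lt_of_le one_pos (Neck67.one_le_cS 0)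
  have lim : Tendsto (fun a : ℝ => C * (β * (2 * γ)) * Real.exp (-(d / cS 0 * a)) * ‖cp i ∘L J‖)
      atTop (𝓝 0) := by
    simpa using ((Real.tendsto_exp_neg_atTop_nhds_zero.comp
      (tendsto_id.const_mul_atTop (div_pos hd cS0))).const_mul (C * (β * (2 * γ)))).mul_const
      ‖cp i ∘L J‖
  refine Cq.of_approx fun ε hε => ?_
  obtain ⟨a, a1, a2⟩ := ((eventually_ge_atTop 1).and (lim.eventually (ge_mem_nhds hε))).exists
  have s1 := sm_cu (|p| + a)
  refine ⟨((muL X₀).m b * K * (muL X₀).m c) ∘L (muL X₀).m (cu (|p| + a)) ∘L cp i ∘L J,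
    ((h.cq_m s1 (hcs_cu _)).left _).congr (fun _ => rfl) fun u => by simp, le_trans ?_ a2⟩
  have e : ((muL X₀).m b * K * (muL X₀).m c) ∘L cp i ∘L J - 0 -
      ((muL X₀).m b * K * (muL X₀).m c) ∘L (muL X₀).m (cu (|p| + a)) ∘L cp i ∘L J =
      ((muL X₀).m b * K * (muL X₀).m (c - c * cu (|p| + a))) ∘L cp i ∘L J := by
    rw [(muL X₀).sub hc (hc.mul s1), (muL X₀).mul hc s1]
    ext1 u; simp
  rw [e]
  refine (ContinuousLinearMap.opNorm_comp_le _ _).trans (mul_le_mul_of_nonneg_right ?_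
    (norm_nonneg _))
  have far : ∀ t, (c - c * cu (|p| + a)) t ≠ 0 → c t ≠ 0 ∧ |p| + a < |t| := fun t ht =>
    ⟨fun h0 => ht (by simp [h0]), not_le.1 fun h0 => ht (by simp [cu_one h0])⟩
  have hγ : ∀ t, |(c - c * cu (|p| + a)) t| ≤ 2 * γ := fun t => (abs_sub _ _).trans (by
    rw [Pi.mul_apply, abs_mul]
    nlinarith [h2.abs_le t, abs_cu (|p| + a) t, abs_nonneg (c t), abs_nonneg (cu (|p| + a) t)])
  have := le_abs_self p
  have := neg_abs_le p
  rcases H with ⟨H1, H2⟩ | ⟨H1, H2⟩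
  · refine sep_le hK hd.le hb (hc.sub (hc.mul s1)) (p := |p|) h1.abs_le hγ a1 (.inl ⟨fun t ht =>
      not_lt.1 fun h0 => ht (H1 t (by linarith)), fun t ht => ?_⟩)
    obtain ⟨h3, h4⟩ := far t ht
    have := not_le.1 fun h0 => h3 (H2 t h0)
    rcases lt_abs.1 h4 with h5 | h5 <;> linarith
  · refine sep_le hK hd.le hb (hc.sub (hc.mul s1)) (p := -|p| - a) h1.abs_le hγ a1 (.inr ⟨fun t ht =>
      ?_, fun t ht => not_lt.1 fun h0 => ht (H1 t (by linarith))⟩)
    obtain ⟨h3, h4⟩ := far t ht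
    have := not_le.1 fun h0 => h3 (H2 t h0)
    rcases lt_abs.1 h4 with h5 | h5 <;> linarith

theorem Sep.cpt (h : Sep i J K) {b : ℝ → ℝ} (hb : Sm b) {p : ℝ} (h1 : ∀ t, p ≤ t → b t = 0)
    (h2 : ∀ t ≤ -p, b t = 0) : Cq (((muL X₀).m b * K) ∘L cp i ∘L J) 0 := by
  have s := Neck67.sm_up le_rfl 0
  have := le_abs_self p
  have := abs_nonneg p
  refine ((h b _ hb s (|p| + 1) (.inl ⟨fun t ht => h1 t (by linarith), fun t ht =>
    Neck67.up_zero one_pos (by linarith)⟩)).add (h b _ hb (Neck67.Sm.one.sub s) (|p| + 1)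
    (.inr ⟨fun t ht => h2 t (by linarith), fun t ht => by
      simp [Neck67.up_one (p := 0) (t := t) one_pos (by linarith)]⟩))).congr (fun u => ?_)
    fun u => by simp
  rw [(muL X₀).sub Neck67.Sm.one s, (muL X₀).one]; simp

theorem CylD.lim_sep (h : CylD τ i L J T) (hσ : Stp σ σ' r) {s : Z →L[ℝ] Z}
    (hs : ∀ u, J (s u) = mt X₁ σ (J u)) (hb : Bijective (Dz i L J T K)) (hK : Sep i J K) :
    Lim s (mt X₀ σ) (Dz i L J T 0) (Dz i L J T K) := by
  have s1 := hσ.smf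
  have s2 := Neck67.Sm.one.sub s1
  have e : (muL X₀).m σ = mt X₀ σ := by rw [muL_m, bc_coe s1]
  have z : ∀ t, r ≤ t → (1 - σ : ℝ → ℝ) t = 0 := fun t ht => by simp [hσ.hi t ht]
  refine h.lim hσ hs hb ?_ ?_
  · have := (hK _ _ s2 s1 r (.inl ⟨z, hσ.lo⟩)).sub (hK _ _ s1 s2 r (.inr ⟨hσ.lo, z⟩))
    rw [(muL X₀).sub Neck67.Sm.one s1, (muL X₀).one, e] at this
    exact (this.add (Cq.refl (mt X₀ σ ∘L K ∘L cp i ∘L J))).congr (fun u => by simp) fun u => by simp
  · have := hK.cpt (s1.sub (s1.mul s1)) (p := r) (fun t ht => by simp [hσ.hi t ht])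
      fun t ht => by simp [hσ.lo t ht]
    rw [(muL X₀).sub s1 (s1.mul s1), (muL X₀).mul s1 s1, e] at this
    exact this.congr (fun u => by simp [ma_sub, ma_ma]) fun _ => rfl

/-- operators that agree on the right end -/
theorem Sep.right (h : Sep i J K) {p : ℝ} (H : ∀ b c, Sm b → Sm c → (∀ t ≤ p, b t = 0) →
    (∀ t ≤ p, c t = 0) → (muL X₀).m b * K * (muL X₀).m c = 0) {b : ℝ → ℝ} (hb : Sm b) {q : ℝ}
    (h0 : ∀ t ≤ q, b t = 0) : Cq (((muL X₀).m b * K) ∘L cp i ∘L J) 0 := by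
  have s := Neck67.sm_up le_rfl p
  have s' := Neck67.Sm.one.sub s
  have z : ∀ t ≤ p, up p 1 t = 0 := fun t ht => Neck67.up_zero one_pos ht
  have z' : ∀ t, |p| + |q| + 1 ≤ t → (1 - up p 1 : ℝ → ℝ) t = 0 := fun t ht => by
    simp [Neck67.up_one (p := p) (t := t) one_pos (by linarith [le_abs_self p, abs_nonneg q])]
  have z0 : ∀ t ≤ -(|p| + |q| + 1), b t = 0 := fun t ht =>
    h0 t (by linarith [neg_abs_le q, abs_nonneg p])
  have h1 := h.cpt (hb.mul s') (fun t ht => by rw [Pi.mul_apply, z' t ht, mul_zero])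
    fun t ht => by rw [Pi.mul_apply, z0 t ht, zero_mul]
  have h2 := h _ _ (hb.mul s) s' _ (.inr ⟨fun t ht => by rw [Pi.mul_apply, z0 t ht, zero_mul], z'⟩)
  have h3 := H _ _ (hb.mul s) s (fun t ht => by rw [Pi.mul_apply, z t ht, mul_zero]) z
  rw [(muL X₀).mul hb s', (muL X₀).sub Neck67.Sm.one s, (muL X₀).one] at h1
  rw [(muL X₀).sub Neck67.Sm.one s, (muL X₀).one, mul_sub, h3, (muL X₀).mul hb s] at h2
  exact (h1.add h2).congr (fun u => by simp) fun u => by simp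

/-- operators that agree on the left end -/
theorem Sep.left (h : Sep i J K) {p : ℝ} (H : ∀ b c, Sm b → Sm c → (∀ t, p ≤ t → b t = 0) →
    (∀ t, p ≤ t → c t = 0) → (muL X₀).m b * K * (muL X₀).m c = 0) {b : ℝ → ℝ} (hb : Sm b) {q : ℝ}
    (h0 : ∀ t, q ≤ t → b t = 0) : Cq (((muL X₀).m b * K) ∘L cp i ∘L J) 0 := by
  have s := Neck67.sm_dn le_rfl p
  have s' := Neck67.Sm.one.sub s
  have z : ∀ t, p ≤ t → dn p 1 t = 0 := fun t ht => Neck67.dn_zero one_pos ht
  have z' : ∀ t ≤ -(|p| + |q| + 1), (1 - dn p 1 : ℝ → ℝ) t = 0 := fun t ht => by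
    simp [Neck67.dn_one (q := p) (t := t) one_pos (by linarith [neg_abs_le p, abs_nonneg q])]
  have z0 : ∀ t, |p| + |q| + 1 ≤ t → b t = 0 := fun t ht =>
    h0 t (by linarith [le_abs_self q, abs_nonneg p])
  have h1 := h.cpt (hb.mul s') (fun t ht => by rw [Pi.mul_apply, z0 t ht, zero_mul])
    fun t ht => by rw [Pi.mul_apply, z' t ht, mul_zero]
  have h2 := h _ _ (hb.mul s) s' _ (.inl ⟨fun t ht => by rw [Pi.mul_apply, z0 t ht, zero_mul], z'⟩)
  have h3 := H _ _ (hb.mul s) s (fun t ht => by rw [Pi.mul_apply, z t ht, mul_zero]) z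
  rw [(muL X₀).mul hb s', (muL X₀).sub Neck67.Sm.one s, (muL X₀).one] at h1
  rw [(muL X₀).sub Neck67.Sm.one s, (muL X₀).one, mul_sub, h3, (muL X₀).mul hb s] at h2
  exact (h1.add h2).congr (fun u => by simp) fun u => by simp

/-! ### invertible limits and their spectral class -/

variable (i L J T σ) in
/-- `Dz K` is an invertible limit which can be replaced by the slice operator `L + a` -/
structure Cls (K : Lam X₀ →L[ℝ] Lam X₀) (a : X₀ →L[ℝ] X₀) : Prop where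
  sym : a ∈ SymA X₀
  bij : Bijective (Op i L a)
  inv : Bijective (Dz i L J T K)
  sep : Sep i J K
  ind : cind (mt X₀ σ) (Dz i L J T K) (Dz i L J T (cp a)) = 0

namespace CylD
variable (h : CylD τ i L J T) (hσ : Stp σ σ' r)
include h

theorem cls_cp (ha : a ∈ SymA X₀) (hb : Bijective (Op i L a)) : Cls i L J T σ (cp a) a :=
  ⟨ha, hb, h.bij_cp ha hb, h.sep_ma 1 a, cind_self (h.bij_cp ha hb)⟩

include hσ

theorem cind_cls (h1 : Cls i L J T σ K₁ a₁) (h2 : Cls i L J T σ K₂ a₂) :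
    cind (mt X₀ σ) (Dz i L J T K₁) (Dz i L J T K₂) = sf i L J T σ a₁ a₂ := by
  obtain ⟨s, hs⟩ := h.exists_mul hσ.der
  have hs' := fun u => (hs u).1
  have l1 := h.lim_sep hσ hs' h1.inv h1.sep
  have l2 := h.lim_sep hσ hs' h2.inv h2.sep
  have m1 := h.lim_cp hσ hs' h1.sym h1.bij
  have m2 := h.lim_cp hσ hs' h2.sym h2.bij
  rw [← cind_add l1 m1 l2, ← cind_add m1 m2 l2, cind_neg l2 m2, h1.ind, h2.ind, sf]; ring

/-- **the index of an operator with two ends** -/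
theorem fr_ends (h1 : Cls i L J T σ K₁ a₁) (h2 : Cls i L J T σ K₂ a₂) (h3 : Sep i J K₃) {p : ℝ}
    (H1 : ∀ b c, Sm b → Sm c → (∀ t, -p ≤ t → b t = 0) → (∀ t, -p ≤ t → c t = 0) →
      (muL X₀).m b * K₃ * (muL X₀).m c = (muL X₀).m b * K₁ * (muL X₀).m c)
    (H2 : ∀ b c, Sm b → Sm c → (∀ t ≤ p, b t = 0) → (∀ t ≤ p, c t = 0) →
      (muL X₀).m b * K₃ * (muL X₀).m c = (muL X₀).m b * K₂ * (muL X₀).m c) :
    Fr (Dz i L J T K₃) (sf i L J T σ a₁ a₂) := by
  obtain ⟨s, hs⟩ := h.exists_mul hσ.der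
  have hs' := fun u => (hs u).1
  have s1 := hσ.smf
  have e : (muL X₀).m σ = mt X₀ σ := by rw [muL_m, bc_coe s1]
  rw [← h.cind_cls hσ h1 h2]
  have c1 := (h3.sub h1.sep).left (fun b c hb hc e1 e2 => by
    rw [mul_sub, sub_mul, H1 b c hb hc e1 e2, sub_self]) (Neck67.Sm.one.sub s1) (q := r)
    fun t ht => by simp [hσ.hi t ht]
  have c2 := (h3.sub h2.sep).right (fun b c hb hc e1 e2 => by
    rw [mul_sub, sub_mul, H2 b c hb hc e1 e2, sub_self]) s1 hσ.lo
  rw [(muL X₀).sub Neck67.Sm.one s1, (muL X₀).one, e] at c1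
  rw [e] at c2
  exact fr_of_asy (h.lim_sep hσ hs' h1.inv h1.sep) (h.lim_sep hσ hs' h2.inv h2.sep)
    ((c1.add (Cq.refl (Dz i L J T K₁ - mt X₀ σ ∘L Dz i L J T K₁))).congr
      (fun u => by simp [Dz_apply]; abel) fun u => by simp)
    ((c2.add (Cq.refl (mt X₀ σ ∘L Dz i L J T K₂))).congr (fun u => by simp [Dz_apply]; abel)
      fun u => by simp)

end CylD

/-- **INV**: a small exponential weight makes the translation invariant operator invertible -/
theorem CylD.inv (h : CylD 1 i L J T) (hi : IsCompactOperator i) (hL : Fr L 0) (hσ : Stp σ σ' r)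
    (hK : NK K k P M) (hM : 0 ≤ M) (kw : (muL X₀).KW K d C) (hd : 0 < d)
    (hP : IsPj i (Op i L k).ker P) (hj : j ∈ SymA X₀) (hjP : ∀ x, j (P x) = P x) :
    ∀ᶠ δ in 𝓝[≠] (0 : ℝ), ∀ K', Cj (muL X₀) (fun t => δ * t) K K' →
      Cls i L J T σ (K' - δ • cp j) (k - δ • j) := by
  have H := h.isSF hi hL hσ
  obtain ⟨c, hG⟩ := exists_gap H hK.ks hP
  obtain ⟨s, hs⟩ := h.exists_mul hσ.der
  have cS0 : 0 < cS 0 := lt_of_lt_of_le one_pos (Neck67.one_le_cS 0)
  have c0 := kw.cR_nonneg hd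
  obtain ⟨E, hE⟩ : ∃ E, E = 2 * cY (2 * c) M P + 2 * cR d C := ⟨_, rfl⟩
  have sm : ∀ (x : ℝ) {y : ℝ}, 0 < y → ∀ᶠ δ in 𝓝[≠] (0 : ℝ), |δ| * x < y := fun x y hy =>
    nhdsWithin_le_nhds ((by fun_prop : Continuous fun δ : ℝ => |δ| * x).continuousAt.eventually_lt
      continuousAt_const (by simpa using hy))
  filter_upwards [self_mem_nhdsWithin, sm (200 * E ^ 5) one_pos, sm (c * ‖1 - j‖) one_half_pos,
    sm (2 * c) one_pos, sm 1 (show 0 < d / cS 0 / 4 by positivity), sm 1 (half_pos hd)]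
    with δ h0 h1 h2 h3 h4 h5 K' hc
  rw [mul_one] at h4 h5
  have hψ : ContDiff ℝ ∞ fun t : ℝ => δ * t := contDiff_const.mul contDiff_id
  have bψ : Bd 0 (deriv fun t : ℝ => δ * t) |δ| := fun t => by simp
  have ha : δ • (1 - j) ∈ SymA X₀ :=
    (SymA X₀).smul_mem δ ((SymA X₀).sub_mem (fun _ _ => rfl) hj)
  have hG' := hG.add ha (fun x => by simp [hjP]) (by
    rw [norm_smul, Real.norm_eq_abs]; linarith)
  have c1 := CylD.one_le_cY hM hG'
  have hs' : k - δ • j ∈ SymA X₀ := (SymA X₀).sub_mem hK.ks ((SymA X₀).smul_mem δ hj)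
  have s1 := h.sep_kw (hc.kw kw hψ (bψ.mono h5.le)) (half_pos hd)
  let A : ℝ → Lam X₀ →L[ℝ] Lam X₀ := fun s => K' - δ • cp j + s • (cp k - K')
  have hA : ∀ z ∈ Icc (0 : ℝ) 1, Bijective (Dz i L J T (A z)) := fun z hz => by
    have hz' : |1 - z| ≤ 1 := abs_le.2 ⟨by linarith [hz.2], by linarith [hz.1]⟩
    have := h.nk_bij ((hK.path hz').cp_add ha) hM hG' (C := E) (Q := (1 - z) • (K' - K))
      (by linarith) (by
        exact ((ContinuousLinearMap.opNorm_smul_le _ _).trans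
          (mul_le_of_le_one_left (ContinuousLinearMap.opNorm_nonneg _) hz')).trans
          ((hc.norm_sub kw hd hψ bψ h4.le).trans (by nlinarith [abs_nonneg δ]))) (fun x => by
        rw [_root_.smul_apply, real_inner_smul_left, abs_mul]
        refine (mul_le_of_le_one_left (abs_nonneg _) hz').trans
          ((hc.inner_sub kw hd hK.sym hψ bψ h4.le x).trans ?_)
        rw [sq_abs]
        exact mul_le_mul_of_nonneg_right (mul_le_mul_of_nonneg_right (by linarith) (sq_nonneg _))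
          (sq_nonneg _)) h1.le h0
    have e1 : cp (1 : X₀ →L[ℝ] X₀) = 1 := ContinuousLinearMap.ext cp_id
    rwa [show cp k + (1 - z) • (K - cp k) + cp (δ • (1 - j)) + (1 - z) • (K' - K) - δ • 1 = A z by
      rw [show cp (δ • (1 - j)) = δ • (1 - cp j) by simp only [map_smul, map_sub, e1]]
      simp only [A]; module] at this
  have sA : ∀ z, Sep i J (A z) := fun z =>
    (s1.sub ((h.sep_ma 1 j).smul δ)).add (((h.sep_ma 1 k).sub s1).smul z)
  have e0 : A 0 = K' - δ • cp j := by simp [A]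
  refine ⟨hs', H.bij_of_inj fun u hu => hG'.inj h.inj h0 (by linarith) ?_,
    e0 ▸ hA 0 ⟨le_rfl, zero_le_one⟩, e0 ▸ sA 0, ?_⟩
  · rw [← sub_eq_zero, ← hu]; simp [Crt72.Op_apply, smul_sub]; abel
  · have := cind_path (A := fun z => Dz i L J T (A z))
      (Continuous.continuousOn (by unfold Dz; fun_prop)) fun z hz =>
        h.lim_sep hσ (fun u => (hs u).1) (hA z hz) (sA z)
    rwa [e0, show A 1 = cp (k - δ • j) by simp [A]] at this

/-- **the index with a weight** `ψ = δ₁ t` near `-∞`, `ψ = δ₂ t` near `+∞`, `e = ψ'` -/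
theorem CylD.fr_wt (h : CylD τ i L J T) (hσ : Stp σ σ' r) (kw : (muL X₀).KW K d C) (hd : 0 < d)
    {δ₁ δ₂ p : ℝ} {ψ : ℝ → ℝ} {e : ℝ →ᵇ ℝ} (hψ : ContDiff ℝ ∞ ψ) (bψ : Bd 0 (deriv ψ) (d / 2))
    (l1 : ∀ t ≤ -p, ψ t = δ₁ * t ∧ e t = δ₁) (l2 : ∀ t, p ≤ t → ψ t = δ₂ * t ∧ e t = δ₂)
    (c1 : Cj (muL X₀) (fun t => δ₁ * t) K K₁) (c2 : Cj (muL X₀) (fun t => δ₂ * t) K K₂)
    (h1 : Cls i L J T σ (K₁ - δ₁ • cp j) a₁) (h2 : Cls i L J T σ (K₂ - δ₂ • cp j) a₂)
    (hc : Cj (muL X₀) ψ K K') : Fr (Dz i L J T (K' - ma e j)) (sf i L J T σ a₁ a₂) := by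
  have key : ∀ {b : ℝ → ℝ} {x : ℝ}, Sm b → (∀ t, b t ≠ 0 → e t = x) →
      (muL X₀).m b * ma e j = (muL X₀).m b * (x • cp j) := fun {b x} hb H =>
    ContinuousLinearMap.ext fun f => show mt X₀ (bc b) (ma e j f) = mt X₀ (bc b) (x • cp j f) from
      R.ext' (by rr) (by rr) fun t => by
        by_cases h0 : b t = 0
        · simp [bc_apply hb, h0]
        · simp [H t h0]
  refine h.fr_ends hσ h1 h2 ((h.sep_kw (hc.kw kw hψ bψ) (half_pos hd)).sub (h.sep_ma e j)) (p := p)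
    (fun b c hb hc' e1 e2 => ?_) fun b c hb hc' e1 e2 => ?_
  · have f : ∀ t, b t ≠ 0 ∨ c t ≠ 0 → t ≤ -p := fun t ht => le_of_not_ge fun h0 =>
      ht.elim (fun h => h (e1 t h0)) fun h => h (e2 t h0)
    rw [mul_sub, sub_mul, mul_sub, sub_mul, hc.eq_on c1 hb hc' fun t ht => (l1 t (f t ht)).1,
      key hb fun t ht => (l1 t (f t (.inl ht))).2]
  · have f : ∀ t, b t ≠ 0 ∨ c t ≠ 0 → p ≤ t := fun t ht => le_of_not_ge fun h0 =>
      ht.elim (fun h => h (e1 t h0)) fun h => h (e2 t h0)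
    rw [mul_sub, sub_mul, mul_sub, sub_mul, hc.eq_on c2 hb hc' fun t ht => (l2 t (f t ht)).1,
      key hb fun t ht => (l2 t (f t (.inl ht))).2]

/-- the spectral flow across a degenerate point -/
theorem sf_cross {A : Submodule ℝ (X₀ →L[ℝ] X₀)} {s : (X₀ →L[ℝ] X₀) → (X₀ →L[ℝ] X₀) → ℤ}
    (H : SF i L A s) (hk : k ∈ A) (hj : j ∈ A) {N₁ N₂ : Submodule ℝ X₁}
    (hN : N₁ ⊔ N₂ = (Op i L k).ker) (ho : ∀ p ∈ N₁, ∀ q ∈ N₂, ⟪i p, i q⟫ = 0)
    (h1 : ∀ v ∈ N₁, v ≠ 0 → 0 < ⟪j (i v), i v⟫) (h2 : ∀ v ∈ N₂, v ≠ 0 → ⟪j (i v), i v⟫ < 0) :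
    ∀ᶠ ε in 𝓝[>] (0 : ℝ), Bijective (Op i L (k + ε • j)) ∧ Bijective (Op i L (k - ε • j)) ∧
      s (k + ε • j) (k - ε • j) = (finrank ℝ N₂ : ℤ) - finrank ℝ N₁ := by
  have := (H.frOp k).1.finite_ker
  obtain ⟨P, hP⟩ := Crt72.exists_isPj i (Op i L k).ker
  have pA := H.pj k hk _ le_rfl P hP
  filter_upwards [H.cross hk hj hP hN ho h1 h2, H.cross hk (A.neg_mem hj) hP
    ((sup_comm _ _).trans hN) (fun p hp q hq => by rw [real_inner_comm]; exact ho q hq p hp)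
    (fun v hv h0 => by simpa using h2 v hv h0) fun v hv h0 => by simpa using h1 v hv h0]
    with ε ⟨a1, a2, a3⟩ ⟨b1, _, b3⟩
  rw [smul_neg, ← sub_eq_add_neg] at b1 b3
  have := H.add _ (A.sub_mem hk (A.smul_mem ε pA)) _ (A.add_mem hk (A.smul_mem ε hj)) _
    (A.sub_mem hk (A.smul_mem ε hj)) a2 a1 b1
  exact ⟨a1, b1, by omega⟩

end Crest.Agent.X212.Cyf70
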