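import Crest.Agent.R275.FredC_685
import Mathlib.Analysis.Normed.Operator.Fredholm.Basic
import Mathlib.Analysis.InnerProductSpace.LaxMilgram
import Mathlib.Analysis.InnerProductSpace.Adjoint
import Mathlib.Analysis.InnerProductSpace.Projection.FiniteDimensional

/-!
# Row 212, CYLF (helper70): abstract Fredholm criteria

* the three notions `FinIdx`, `Fred` (parametrix), `IsFredholm` (Mathlib) agree on Banach spaces;
* Peetre: an estimate `‖u‖ ≤ C (‖T u‖ + ‖K u‖)`, `K` compact, gives finite kernel, closed range;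
* duality: estimates for `D` and a formal adjoint `D'` plus regularity of the weak kernel;
* transfer of the Fredholm property and of the index along a scale.
-/

set_option autoImplicit false

namespace Crest.Agent.X212.Cyf70

open Crest.Agent.R275.Fred685 Module
open scoped RealInnerProductSpace

section Banach

variable {E F : Type*} [NormedAddCommGroup E] [NormedSpace ℝ E] [NormedAddCommGroup F]
  [NormedSpace ℝ F]

/-- An operator with values in a finite dimensional subspace is compact. -/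
theorem cpt_of_range (A : E →L[ℝ] F) (N : Submodule ℝ F) [FiniteDimensional ℝ N]
    (h : ∀ x, A x ∈ N) : IsCompactOperator A := by
  have : A = N.subtypeL.comp (A.codRestrict N h) := by ext x; rfl
  rw [this]
  exact isCompactOperator_comp_finiteDimensional _ _

variable [CompleteSpace E] [CompleteSpace F]

/-- Finite kernel and cokernel give a generalised inverse. -/
theorem exists_ginv {T : E →L[ℝ] F} (h : FinIdx (T : E →ₗ[ℝ] F)) :
    ∃ (S : F →L[ℝ] E) (W : Submodule ℝ F), FiniteDimensional ℝ W ∧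
      (∀ x, x - S (T x) ∈ T.ker) ∧ (∀ y, y - T (S y) ∈ W) ∧ IsCompl T.range W := by
  obtain ⟨hk, hc⟩ := h
  obtain ⟨P, hP⟩ := Submodule.ClosedComplemented.of_finiteDimensional T.ker
  obtain ⟨W, hW⟩ := Submodule.exists_isCompl T.range
  have hWf : FiniteDimensional ℝ W :=
    LinearEquiv.finiteDimensional (Submodule.quotientEquivOfIsCompl _ W hW)
  have : CompleteSpace W := FiniteDimensional.complete ℝ W
  have : CompleteSpace T.ker := FiniteDimensional.complete ℝ _
  let Φ : E × W →L[ℝ] F × T.ker :=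
    ((T.comp (.fst ℝ E W)) + W.subtypeL.comp (.snd ℝ E W)).prod (P.comp (.fst ℝ E W))
  have hΦ : ∀ x w, Φ (x, w) = (T x + w, P x) := fun x w => rfl
  have hinj : Φ.ker = ⊥ := by
    rw [Submodule.eq_bot_iff]
    rintro ⟨x, w⟩ hx
    have h1 : (T x + w, P x) = 0 := hx
    obtain ⟨h2, h3⟩ := Prod.mk_eq_zero.1 h1
    have h4 : (w : F) ∈ T.range ⊓ W :=
      ⟨⟨-x, by simpa using (eq_neg_of_add_eq_zero_right h2).symm⟩, w.2⟩
    rw [hW.inf_eq_bot, Submodule.mem_bot] at h4
    have h5 : x ∈ T.ker := by simpa [h4] using h2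
    have h6 : x = 0 := by
      have := hP ⟨x, h5⟩
      rw [h3] at this
      exact (congrArg Subtype.val this).symm
    exact Prod.ext h6 (Subtype.ext h4)
  have hsur : Φ.range = ⊤ := by
    rw [Submodule.eq_top_iff']
    rintro ⟨y, n⟩
    have h1 : y ∈ T.range ⊔ W := by rw [hW.sup_eq_top]; trivial
    obtain ⟨_, ⟨x, rfl⟩, w, hw, rfl⟩ := Submodule.mem_sup.1 h1
    refine ⟨(x - P x + n, ⟨w, hw⟩), ?_⟩
    have h2 : T (P x) = 0 := (P x).2
    have h3 : T n = 0 := n.2
    show Φ _ = _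
    rw [hΦ]
    simp [h2, h3, hP]
  let e := ContinuousLinearEquiv.ofBijective Φ hinj hsur
  have he : ∀ z, e z = Φ z := fun z => rfl
  let S : F →L[ℝ] E := (ContinuousLinearMap.fst ℝ E W).comp
    ((e.symm : F × T.ker →L[ℝ] E × W).comp (.inl ℝ F T.ker))
  have hS : ∀ y, S y = (e.symm (y, 0)).1 := fun y => rfl
  refine ⟨S, W, hWf, fun x => ?_, fun y => ?_, hW⟩
  · have h1 : e (x - P x, 0) = (T x, 0) := by
      have h2 : T (P x) = 0 := (P x).2
      rw [he, hΦ]
      simp [h2, hP]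
    rw [hS, ← h1, e.symm_apply_apply]
    simp
  · have h1 := e.apply_symm_apply (y, 0)
    rw [he, ← Prod.mk.eta (p := e.symm (y, 0)), hΦ] at h1
    have h2 : T (e.symm (y, 0)).1 + (e.symm (y, 0)).2 = y := congrArg Prod.fst h1
    rw [hS, sub_eq_of_eq_add' h2.symm]
    exact (e.symm (y, 0)).2.2

theorem fred_of_finIdx {T : E →L[ℝ] F} (h : FinIdx (T : E →ₗ[ℝ] F)) : Fred T := by
  obtain ⟨S, W, hW, h1, h2, -⟩ := exists_ginv h
  have := h.1
  exact ⟨S, cpt_of_range _ T.ker h1, cpt_of_range _ W h2⟩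

open scoped LinearMap.FiniteRangeSetoid in
theorem isFredholm_of_finIdx {T : E →L[ℝ] F} (h : FinIdx (T : E →ₗ[ℝ] F)) : T.IsFredholm := by
  obtain ⟨S, W, hW, h1, h2, -⟩ := exists_ginv h
  have hk := h.1
  refine ContinuousLinearMap.IsFredholm.of_isQuasiInverse (v := S) ⟨?_, ?_⟩
  · rw [LinearMap.IsLeftQuasiInverse, Setoid.comm,
      LinearMap.FiniteRangeSetoid.equiv_iff_hasFiniteRange]
    refine Submodule.FG.of_le (Submodule.fg_iff_finiteDimensional _ |>.2 hk) ?_
    rintro _ ⟨x, rfl⟩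
    exact h1 x
  · rw [LinearMap.IsRightQuasiInverse, Setoid.comm,
      LinearMap.FiniteRangeSetoid.equiv_iff_hasFiniteRange]
    refine Submodule.FG.of_le (Submodule.fg_iff_finiteDimensional _ |>.2 hW) ?_
    rintro _ ⟨x, rfl⟩
    exact h2 x

omit [CompleteSpace E] [CompleteSpace F] in
theorem finIdx_of_isFredholm {T : E →L[ℝ] F} (h : T.IsFredholm) : FinIdx (T : E →ₗ[ℝ] F) :=
  ⟨h.finite_ker, h.finite_coker⟩

theorem fred_iff_isFredholm {T : E →L[ℝ] F} : Fred T ↔ T.IsFredholm :=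
  ⟨fun h => isFredholm_of_finIdx h.finIdx, fun h => fred_of_finIdx (finIdx_of_isFredholm h)⟩

theorem isClosed_range_of_fred {T : E →L[ℝ] F} (h : Fred T) : IsClosed (T.range : Set F) :=
  (fred_iff_isFredholm.1 h).isClosed_range

/-- Transfer along a scale: `T'` is the restriction of `T` to more regular spaces. -/
theorem transfer {E' F' : Type*} [NormedAddCommGroup E'] [NormedSpace ℝ E'] [CompleteSpace E']
    [NormedAddCommGroup F'] [NormedSpace ℝ F'] [CompleteSpace F']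
    {T : E →L[ℝ] F} {T' : E' →L[ℝ] F'} {i : E' →L[ℝ] E} {j : F' →L[ℝ] F}
    (hi : Function.Injective i) (hj : Function.Injective j) (hd : DenseRange j)
    (hc : ∀ u, j (T' u) = T (i u)) (reg : ∀ u f, T u = j f → ∃ u', i u' = u) (h : Fred T) :
    Fred T' ∧ ind T' = ind T ∧ finrank ℝ T'.ker = finrank ℝ T.ker := by
  obtain ⟨hk, hq⟩ := h.finIdx
  have hcl := isClosed_range_of_fred h
  let a : T'.ker →ₗ[ℝ] T.ker := (i : E' →ₗ[ℝ] E).restrict (p := T'.ker) (q := T.ker) (by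
    intro x hx
    have : T' x = 0 := hx
    show T (i x) = 0
    rw [← hc, this, map_zero])
  have ha : Function.Bijective a := by
    refine ⟨fun x y hxy => Subtype.ext (hi (congrArg Subtype.val hxy)), fun y => ?_⟩
    obtain ⟨u, hu⟩ := reg y 0 (by rw [map_zero]; exact y.2)
    refine ⟨⟨u, hj ?_⟩, Subtype.ext hu⟩
    show j (T' u) = j 0
    rw [hc, hu, map_zero]; exact y.2
  let b : (F' ⧸ T'.range) →ₗ[ℝ] (F ⧸ T.range) := T'.range.mapQ T.range (j : F' →ₗ[ℝ] F) (by
    rintro _ ⟨x, rfl⟩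
    exact ⟨i x, (hc x).symm⟩)
  have hb : Function.Bijective b := by
    constructor
    · rw [← LinearMap.ker_eq_bot, Submodule.eq_bot_iff]
      intro x hx
      obtain ⟨f, rfl⟩ := T'.range.mkQ_surjective x
      have h1 : j f ∈ T.range := (Submodule.Quotient.mk_eq_zero _).1 hx
      obtain ⟨u, hu⟩ := h1
      obtain ⟨u', rfl⟩ := reg u f hu
      exact (Submodule.Quotient.mk_eq_zero _).2 ⟨u', hj ((hc u').trans hu)⟩
    · have : IsClosed (T.range : Set F) := hcl
      have h1 : IsClosed (b.range : Set (F ⧸ T.range)) := b.range.closed_of_finiteDimensional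
      have h2 : Continuous (T.range.mkQ) := continuous_quot_mk
      intro y
      obtain ⟨f, rfl⟩ := T.range.mkQ_surjective y
      have h3 : Set.range j ⊆ T.range.mkQ ⁻¹' b.range := by
        rintro _ ⟨g, rfl⟩
        exact ⟨T'.range.mkQ g, rfl⟩
      exact (h1.preimage h2).closure_subset_iff.2 h3 (hd f)
  have e1 := LinearEquiv.ofBijective a ha
  have e2 := LinearEquiv.ofBijective b hb
  have hF : FinIdx (T' : E' →ₗ[ℝ] F') := ⟨e1.symm.finiteDimensional, e2.symm.finiteDimensional⟩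
  refine ⟨fred_of_finIdx hF, ?_, e1.finrank_eq⟩
  unfold ind idx
  rw [e1.finrank_eq, e2.finrank_eq]

end Banach

section Hilbert

variable {E F G : Type*} [NormedAddCommGroup E] [InnerProductSpace ℝ E] [CompleteSpace E]
  [NormedAddCommGroup F] [InnerProductSpace ℝ F] [CompleteSpace F]
  [NormedAddCommGroup G] [InnerProductSpace ℝ G] [CompleteSpace G]

/-- A coercive operator on a Hilbert space is invertible. -/
theorem exists_equiv_of_coercive (A : E →L[ℝ] E) {c : ℝ} (hc : 0 < c)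
    (h : ∀ u, c * ‖u‖ * ‖u‖ ≤ ⟪A u, u⟫) : ∃ e : E ≃L[ℝ] E, (e : E →L[ℝ] E) = A := by
  have hB : IsCoercive ((innerSL ℝ).comp A : E →L[ℝ] E →L[ℝ] ℝ) := ⟨c, hc, h⟩
  refine ⟨hB.continuousLinearEquivOfBilin, ?_⟩
  ext v
  refine (hB.unique_continuousLinearEquivOfBilin (v := v) (f := A v) fun w => rfl).symm

/-- Peetre's lemma. -/
theorem peetre {T : E →L[ℝ] F} {K : E →L[ℝ] G} (hK : IsCompactOperator K) {C : ℝ}
    (h : ∀ u, ‖u‖ ≤ C * (‖T u‖ + ‖K u‖)) :
    FiniteDimensional ℝ T.ker ∧ IsClosed (T.range : Set F) := by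
  have hq : ∀ u, ⟪(T.adjoint.comp T + K.adjoint.comp K) u, u⟫ = ‖T u‖ ^ 2 + ‖K u‖ ^ 2 := by
    intro u
    simp [inner_add_left, ContinuousLinearMap.adjoint_inner_left]
  obtain ⟨e, he⟩ := exists_equiv_of_coercive (T.adjoint.comp T + K.adjoint.comp K)
    (c := 1 / (2 * C ^ 2 + 1)) (by positivity) (fun u => by
      rw [hq, mul_assoc, one_div, inv_mul_le_iff₀ (by positivity)]
      have h1 := mul_self_le_mul_self (norm_nonneg u) (h u)
      nlinarith [sq_nonneg (C * (‖T u‖ - ‖K u‖)), sq_nonneg ‖T u‖, sq_nonneg ‖K u‖])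
  have he' : ∀ u, e u = T.adjoint (T u) + K.adjoint (K u) := fun u =>
    congrArg (fun A : E →L[ℝ] E => A u) he
  have hK1 : IsCompactOperator ((e.symm : E →L[ℝ] E).comp (K.adjoint.comp K)) :=
    (hK.clm_comp K.adjoint).clm_comp (e.symm : E →L[ℝ] E)
  have hfin : FiniteDimensional ℝ T.ker := by
    have := finiteDimensional_ker_one_sub hK1
    refine Submodule.finiteDimensional_of_le
      (S₂ := (1 - (e.symm : E →L[ℝ] E).comp (K.adjoint.comp K) : E →L[ℝ] E).ker) fun u hu => ?_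
    have h1 : T u = 0 := hu
    show u - e.symm (K.adjoint (K u)) = 0
    rw [sub_eq_zero, ContinuousLinearEquiv.eq_symm_apply, he', h1, map_zero, zero_add]
  refine ⟨hfin, ?_⟩
  have : CompleteSpace T.ker := FiniteDimensional.complete ℝ _
  let P : E →L[ℝ] E := T.ker.starProjection
  have hP : IsCompactOperator P := cpt_of_range P T.ker fun x => T.ker.starProjection_apply_mem x
  have hTP : ∀ u, T (P u) = 0 := fun u => T.ker.starProjection_apply_mem u
  let K' : E →L[ℝ] E := (e.symm : E →L[ℝ] E).comp (K.adjoint.comp K - P)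
  have hK' : IsCompactOperator K' := ((hK.clm_comp K.adjoint).sub hP).clm_comp (e.symm : E →L[ℝ] E)
  have hA : ∀ u, e ((1 - K' : E →L[ℝ] E) u) = T.adjoint (T u) + P u := by
    intro u
    show e (u - e.symm (K.adjoint (K u) - P u)) = _
    rw [map_sub, e.apply_symm_apply, he']
    abel
  have hinj : Function.Injective (1 - K' : E →L[ℝ] E) := by
    refine (injective_iff_map_eq_zero _).2 fun u hu => ?_
    have h1 := hA u
    rw [hu, map_zero] at h1
    have h2 : ⟪T.adjoint (T u) + P u, u⟫ = 0 := by rw [← h1, inner_zero_left]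
    have h3 : ⟪P u, u⟫ = ‖P u‖ ^ 2 := by
      have h4 := T.ker.starProjection_inner_eq_zero u (P u) (T.ker.starProjection_apply_mem u)
      rw [inner_sub_left, real_inner_self_eq_norm_sq, real_inner_comm] at h4
      linarith
    rw [inner_add_left, ContinuousLinearMap.adjoint_inner_left, real_inner_self_eq_norm_sq,
      h3] at h2
    have h5 : T u = 0 := by
      rw [← norm_eq_zero]; nlinarith [sq_nonneg ‖T u‖, sq_nonneg ‖P u‖]
    have h6 : P u = 0 := by
      rw [← norm_eq_zero]; nlinarith [sq_nonneg ‖T u‖, sq_nonneg ‖P u‖]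
    rw [← h6]
    exact (T.ker.starProjection_eq_self_iff.2 h5).symm
  have hbij := bijective_of_injective_one_sub hK' hinj
  let f := (ContinuousLinearEquiv.ofBijective (1 - K' : E →L[ℝ] E)
    (LinearMap.ker_eq_bot.2 hbij.1) (LinearMap.range_eq_top.2 hbij.2)).trans e
  have hf : ∀ u, f u = T.adjoint (T u) + P u := hA
  have hkey : ∀ u, T (f.symm (T.adjoint (T u))) = T u := by
    intro u
    have h1 : f (u - P u) = T.adjoint (T u) := by
      have h2 : P (P u) = P u := T.ker.starProjection_eq_self_iff.2 (hTP u)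
      rw [hf, map_sub T, hTP, map_sub P, h2]
      simp
    rw [← h1, f.symm_apply_apply, map_sub, hTP, sub_zero]
  have : (T.range : Set F) = {y | T (f.symm (T.adjoint y)) = y} := by
    ext y
    exact ⟨by rintro ⟨u, rfl⟩; exact hkey u, fun hy => ⟨_, hy⟩⟩
  rw [this]
  exact isClosed_eq (by fun_prop) continuous_id

/-- Closed range, finite kernel and finite orthogonal complement of the range. -/
theorem fred_of_closed {T : E →L[ℝ] F} (hk : FiniteDimensional ℝ T.ker)
    (hc : IsClosed (T.range : Set F)) (ho : FiniteDimensional ℝ T.rangeᗮ) :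
    Fred T ∧ ind T = (finrank ℝ T.ker : ℤ) - finrank ℝ T.rangeᗮ := by
  have : CompleteSpace T.range := hc.completeSpace_coe
  have e := Submodule.quotientEquivOfIsCompl _ _ (Submodule.isCompl_orthogonal T.range)
  refine ⟨fred_of_finIdx ⟨hk, e.symm.finiteDimensional⟩, ?_⟩
  unfold ind idx
  rw [e.finrank_eq]

omit [CompleteSpace E] [CompleteSpace F] in
/-- Duality: `D : E₁ → F₀` and its formal adjoint `D' : F₁ → E₀`.  The orthogonal complement of
the range of `D` is the kernel of `D'` as soon as weak solutions are regular. -/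
theorem orth_equiv {E₁ F₁ : Type*} [NormedAddCommGroup E₁] [NormedSpace ℝ E₁]
    [NormedAddCommGroup F₁] [NormedSpace ℝ F₁] {i : E₁ →L[ℝ] E} {j : F₁ →L[ℝ] F}
    {D : E₁ →L[ℝ] F} {D' : F₁ →L[ℝ] E} (hi : DenseRange i) (hj : Function.Injective j)
    (adj : ∀ u v, ⟪D u, j v⟫ = ⟪i u, D' v⟫)
    (reg : ∀ f : F, (∀ u, ⟪D u, f⟫ = 0) → ∃ v, j v = f) :
    Nonempty (D'.ker ≃ₗ[ℝ] D.rangeᗮ) ∧ ∀ f, f ∈ D.rangeᗮ ↔ ∃ v, D' v = 0 ∧ j v = f := by
  have h1 : ∀ v, D' v = 0 → j v ∈ D.rangeᗮ := by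
    rintro v hv _ ⟨u, rfl⟩
    show ⟪D u, j v⟫ = 0
    rw [adj, hv, inner_zero_right]
  have h2 : ∀ f ∈ D.rangeᗮ, ∃ v, D' v = 0 ∧ j v = f := by
    intro f hf
    have h3 : ∀ u, ⟪D u, f⟫ = 0 := fun u => hf _ ⟨u, rfl⟩
    obtain ⟨v, rfl⟩ := reg f h3
    refine ⟨v, ?_, rfl⟩
    have h4 : ∀ x, ⟪x, D' v⟫ = 0 := by
      intro x
      refine hi.induction_on x (isClosed_eq (by fun_prop) continuous_const) fun u => ?_
      rw [← adj, h3]
    exact inner_self_eq_zero.1 (h4 _)
  refine ⟨⟨LinearEquiv.ofBijective ((j : F₁ →ₗ[ℝ] F).restrict (p := D'.ker) (q := D.rangeᗮ) h1)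
    ⟨fun x y hxy => Subtype.ext (hj (congrArg Subtype.val hxy)), fun f => ?_⟩⟩,
    fun f => ⟨h2 f, by rintro ⟨v, hv, rfl⟩; exact h1 v hv⟩⟩
  obtain ⟨v, hv, hvf⟩ := h2 f f.2
  exact ⟨⟨v, hv⟩, Subtype.ext hvf⟩

/-- Fredholm criterion from the two estimates and weak regularity. -/
theorem fred_of_dual {E₁ F₁ G' : Type*} [NormedAddCommGroup E₁] [InnerProductSpace ℝ E₁]
    [CompleteSpace E₁] [NormedAddCommGroup F₁] [InnerProductSpace ℝ F₁] [CompleteSpace F₁]
    [NormedAddCommGroup G'] [InnerProductSpace ℝ G'] [CompleteSpace G']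
    {i : E₁ →L[ℝ] E} {j : F₁ →L[ℝ] F} {D : E₁ →L[ℝ] F} {D' : F₁ →L[ℝ] E}
    (hi : DenseRange i) (hj : Function.Injective j) (adj : ∀ u v, ⟪D u, j v⟫ = ⟪i u, D' v⟫)
    (reg : ∀ f : F, (∀ u, ⟪D u, f⟫ = 0) → ∃ v, j v = f)
    {K : E₁ →L[ℝ] G} (hK : IsCompactOperator K) {C : ℝ} (h : ∀ u, ‖u‖ ≤ C * (‖D u‖ + ‖K u‖))
    {K' : F₁ →L[ℝ] G'} (hK' : IsCompactOperator K') {C' : ℝ}
    (h' : ∀ v, ‖v‖ ≤ C' * (‖D' v‖ + ‖K' v‖)) :
    Fred D ∧ ind D = (finrank ℝ D.ker : ℤ) - finrank ℝ D'.ker := by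
  obtain ⟨h1, h2⟩ := peetre hK h
  obtain ⟨h3, -⟩ := peetre hK' h'
  obtain ⟨⟨e⟩, -⟩ := orth_equiv hi hj adj reg
  rw [e.finrank_eq]
  exact fred_of_closed h1 h2 e.finiteDimensional

omit [CompleteSpace E] in
/-- Bijectivity from the two lower bounds and weak regularity. -/
theorem equiv_of_dual {E₁ F₁ : Type*} [NormedAddCommGroup E₁] [NormedSpace ℝ E₁]
    [CompleteSpace E₁] [NormedAddCommGroup F₁] [NormedSpace ℝ F₁]
    {i : E₁ →L[ℝ] E} {j : F₁ →L[ℝ] F} {D : E₁ →L[ℝ] F} {D' : F₁ →L[ℝ] E}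
    (hi : DenseRange i) (hj : Function.Injective j) (adj : ∀ u v, ⟪D u, j v⟫ = ⟪i u, D' v⟫)
    (reg : ∀ f : F, (∀ u, ⟪D u, f⟫ = 0) → ∃ v, j v = f) {C : ℝ} (hC : 0 ≤ C)
    (h : ∀ u, ‖u‖ ≤ C * ‖D u‖) (h' : Function.Injective D') :
    ∃ e : E₁ ≃L[ℝ] F, (e : E₁ →L[ℝ] F) = D ∧ ‖(e.symm : F →L[ℝ] E₁)‖ ≤ C := by
  have ha : AntilipschitzWith ⟨C, hC⟩ D := D.antilipschitz_of_bound (K := ⟨C, hC⟩) h
  have hc : IsClosed (D.range : Set F) := ha.isClosed_range D.uniformContinuous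
  have : CompleteSpace D.range := hc.completeSpace_coe
  have ho : D.rangeᗮ = ⊥ := by
    rw [Submodule.eq_bot_iff]
    intro f hf
    obtain ⟨v, hv, rfl⟩ := ((orth_equiv hi hj adj reg).2 f).1 hf
    rw [h' (hv.trans (map_zero D').symm), map_zero]
  refine ⟨ContinuousLinearEquiv.ofBijective D (LinearMap.ker_eq_bot.2 ha.injective)
    (Submodule.orthogonal_eq_bot_iff.1 ho), rfl, ?_⟩
  refine ContinuousLinearMap.opNorm_le_bound _ hC fun y => (h _).trans_eq ?_
  congr 2
  exact ContinuousLinearEquiv.apply_symm_apply (ContinuousLinearEquiv.ofBijective D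
    (LinearMap.ker_eq_bot.2 ha.injective) (Submodule.orthogonal_eq_bot_iff.1 ho)) y

end Hilbert

end Crest.Agent.X212.Cyf70
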