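import Crest.Agent.X212.Ell97.Hil
import Crest.Agent.X212.Cyf70.Abs

/-!
# Row 212, CYLF (helper70): perturbation of a pair of scales by (non-local) operators of order zero,
invertibility from lower bounds, the cylinder identity and the weighted lower bound
-/

set_option autoImplicit false
set_option linter.unusedSectionVars false
open Function Filter Topology Module
open scoped RealInnerProductSpace

noncomputable section
namespace Crest.Agent.X212.Cyf70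
open Crest.Agent.X212.Ell97

variable {X Y : ℕ → Type*} [∀ k, NormedAddCommGroup (X k)] [∀ k, InnerProductSpace ℝ (X k)]
  [∀ k, NormedAddCommGroup (Y k)] [∀ k, InnerProductSpace ℝ (Y k)]

/-- weak solutions of the inhomogeneous adjoint equation are regular -/
theorem weak_reg (P : Pair X Y) {y : Y 0} {g : X 0} (h : ∀ u, ⟪P.L 0 u, y⟫ = ⟪P.i 0 u, g⟫) :
    ∃ v, P.j 0 v = y ∧ P.Ls 0 v = g := by
  obtain ⟨a, ha⟩ := P.surjX 0 g
  obtain ⟨v, hv⟩ := P.surjY 0 (y - P.j 0 (P.L 1 a) + P.L 0 (P.i 1 a))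
  have h1 : P.L 0 (P.Ls 1 v - P.i 1 a) = y - P.j 0 (P.L 1 a) - P.j 0 (P.j 1 v) := by
    rw [map_sub, eq_sub_of_add_eq' hv]; abel
  have h2 : ⟪P.L 0 (P.Ls 1 v - P.i 1 a), P.L 0 (P.Ls 1 v - P.i 1 a)⟫ =
      -⟪P.i 0 (P.Ls 1 v - P.i 1 a), P.i 0 (P.Ls 1 v - P.i 1 a)⟫ := by
    nth_rewrite 2 [h1]
    rw [inner_sub_right, inner_sub_right, h, P.adj, P.adj, ← inner_sub_right, ← inner_sub_right,
      ← inner_neg_right, ← ha, ← P.Lsj, map_sub (P.i 0) (P.Ls 1 v)]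
    congr 1; abel
  have h3 := real_inner_self_nonneg (x := P.L 0 (P.Ls 1 v - P.i 1 a))
  have h4 := real_inner_self_nonneg (x := P.i 0 (P.Ls 1 v - P.i 1 a))
  have h5 : P.L 0 (P.Ls 1 v - P.i 1 a) = 0 := real_inner_self_nonpos.1 (by linarith)
  have h6 : P.i 0 (P.Ls 1 v - P.i 1 a) = 0 := real_inner_self_nonpos.1 (by linarith)
  refine ⟨P.j 1 v + P.L 1 a, ?_, ?_⟩
  · rw [h5] at h1
    rw [map_add, ← sub_eq_zero, ← neg_eq_zero, h1]; abel
  · rw [map_sub, sub_eq_zero] at h6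
    rw [map_add, ← P.Lsj, h6, ha]

/-- an operator of order zero with its adjoint, on all levels -/
structure Zer (P : Half X Y) where
  K : ∀ k, X k →L[ℝ] Y k
  Ks : ∀ k, Y k →L[ℝ] X k
  Ki : ∀ k u, P.j k (K (k + 1) u) = K k (P.i k u)
  Ksj : ∀ k v, P.i k (Ks (k + 1) v) = Ks k (P.j k v)
  adj : ∀ u v, ⟪K 0 u, v⟫ = ⟪u, Ks 0 v⟫

/-- the same for the exchanged pair -/
def Zer.swap {P : Pair X Y} (Z : Zer P.toHalf) : Zer P.swap.toHalf where
  K := Z.Ks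
  Ks := Z.K
  Ki := Z.Ksj
  Ksj := Z.Ki
  adj u v := by rw [real_inner_comm, ← Z.adj, real_inner_comm]

variable [∀ k, CompleteSpace (X k)] [∀ k, CompleteSpace (Y k)]

/-- the abstract Gårding inequality -/
theorem gard (P : Pair X Y) (k : ℕ) :
    ∃ C, 0 ≤ C ∧ ∀ u : X (k + 1), ‖u‖ ≤ C * (‖P.L k u‖ + ‖dn0 P.i (k + 1) u‖) := by
  let T := (P.L k).prod (dn0 P.i (k + 1))
  have hi : Injective T := fun u v h => dn0_inj P.i_inj (k + 1) (congrArg Prod.snd h)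
  have hc : IsClosed (Set.range T) := by
    have : Set.range T = ⋂ v : Y 1, {z | ⟪P.Ls 0 v, z.2⟫ = ⟪P.j 0 v, dn0 P.j k z.1⟫} := by
      ext z
      simp only [Set.mem_iInter, Set.mem_ofPred_eq]
      constructor
      · rintro ⟨u, rfl⟩ v
        change ⟪P.Ls 0 v, dn0 P.i (k + 1) u⟫ = ⟪P.j 0 v, dn0 P.j k (P.L k u)⟫
        rw [← P.L_dn1, real_inner_comm _ (P.j 0 v), P.adj, i_dn1, real_inner_comm]
      · intro h
        obtain ⟨u, h1, h2⟩ := weak_reg P.swap h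
        obtain ⟨u', h3, h4⟩ := P.reg_all k h2
        exact ⟨u', Prod.ext h4 (by rw [← h1, ← h3]; exact (i_dn1 k u').symm)⟩
    rw [this]
    exact isClosed_iInter fun v => isClosed_eq (by fun_prop) (by fun_prop)
  obtain ⟨K, hK⟩ := T.antilipschitz_of_injective_of_isClosed_range hi hc
  refine ⟨K, K.2, fun u => (hK.le_mul_norm (map_zero T) u).trans ?_⟩
  exact mul_le_mul_of_nonneg_left (max_le (le_add_of_nonneg_right (norm_nonneg _))
    (le_add_of_nonneg_left (norm_nonneg _))) K.2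

theorem surj_add (P : Pair X Y) (Z : Zer P.toHalf) (k : ℕ) (f : X k) :
    ∃ u, P.i k (P.i (k + 1) u) + (P.Ls k + (Z.Ks k).comp (P.j k))
      ((P.L (k + 1) + (Z.K (k + 1)).comp (P.i (k + 1))) u) = f := by
  have step : ∀ (k : ℕ) (u : X (k + 1)) (w : Y (k + 1)), P.L k u + Z.K k (P.i k u) = P.j k w →
      ∃ u', P.i (k + 1) u' = u ∧ P.L (k + 1) u' + Z.K (k + 1) (P.i (k + 1) u') = w := by
    intro k u w h
    obtain ⟨u', h1, h2⟩ := P.reg (u := u) (w := w - Z.K (k + 1) u)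
      (by rw [map_sub, Z.Ki, ← h, add_sub_cancel_right])
    exact ⟨u', h1, by rw [h1, h2, sub_add_cancel]⟩
  induction k with
  | zero =>
    let T := P.L 0 + (Z.K 0).comp (P.i 0)
    obtain ⟨C, hC, hg⟩ := gard P 0
    have hq : ∀ u v, ⟪(T.adjoint.comp T + (P.i 0).adjoint.comp (P.i 0)) u, v⟫ =
        ⟪T u, T v⟫ + ⟪P.i 0 u, P.i 0 v⟫ := by
      intro u v
      simp [inner_add_left, ContinuousLinearMap.adjoint_inner_left]
    set c := C * (1 + ‖Z.K 0‖) with hc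
    have hb : ∀ u, ‖u‖ ≤ c * (‖T u‖ + ‖P.i 0 u‖) := fun u => by
      have h1 : ‖P.L 0 u‖ ≤ ‖T u‖ + ‖Z.K 0‖ * ‖P.i 0 u‖ := by
        have : P.L 0 u = T u - Z.K 0 (P.i 0 u) := by simp [T]
        rw [this]
        exact (norm_sub_le _ _).trans (add_le_add_right ((Z.K 0).le_opNorm _) _)
      have h2 : ‖u‖ ≤ C * (‖P.L 0 u‖ + ‖P.i 0 u‖) := hg u
      refine h2.trans ?_
      rw [hc, mul_assoc]
      refine mul_le_mul_of_nonneg_left ?_ hC
      nlinarith [norm_nonneg (T u), norm_nonneg (Z.K 0), norm_nonneg (P.i 0 u)]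
    obtain ⟨e, he⟩ := exists_equiv_of_coercive (T.adjoint.comp T + (P.i 0).adjoint.comp (P.i 0))
      (c := 1 / (2 * c ^ 2 + 1)) (by positivity) (fun u => by
        rw [hq, real_inner_self_eq_norm_sq, real_inner_self_eq_norm_sq, mul_assoc, one_div,
          inv_mul_le_iff₀ (by positivity)]
        have h1 := mul_self_le_mul_self (norm_nonneg u) (hb u)
        nlinarith [sq_nonneg (c * (‖T u‖ - ‖P.i 0 u‖)), sq_nonneg ‖T u‖, sq_nonneg ‖P.i 0 u‖])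
    set u := e.symm ((P.i 0).adjoint f) with hu
    have h1 : ∀ v, ⟪T u, T v⟫ + ⟪P.i 0 u, P.i 0 v⟫ = ⟪f, P.i 0 v⟫ := fun v => by
      rw [← hq, ← he, ContinuousLinearEquiv.coe_coe, hu, e.apply_symm_apply,
        ContinuousLinearMap.adjoint_inner_left]
    obtain ⟨w, hw1, hw2⟩ := weak_reg P (y := T u) (g := f - P.i 0 u - Z.Ks 0 (T u)) fun v => by
      have h2 : T v = P.L 0 v + Z.K 0 (P.i 0 v) := rfl
      have h3 := h1 v
      rw [h2, inner_add_right, real_inner_comm (P.L 0 v), real_inner_comm (Z.K 0 _), Z.adj,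
        real_inner_comm (P.i 0 v), real_inner_comm (P.i 0 v) f] at h3
      rw [inner_sub_right, inner_sub_right]
      linarith
    obtain ⟨u', h2, h3⟩ := step 0 u w hw1.symm
    refine ⟨u', ?_⟩
    change P.i 0 (P.i 1 u') + (P.Ls 0 (P.L 1 u' + Z.K 1 (P.i 1 u')) +
      Z.Ks 0 (P.j 0 (P.L 1 u' + Z.K 1 (P.i 1 u')))) = f
    rw [h3, h2, hw2, hw1]; abel
  | succ k ih =>
    obtain ⟨u, hu⟩ := ih (P.i k f)
    set w := P.L (k + 1) u + Z.K (k + 1) (P.i (k + 1) u) with hw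
    have hu' : P.i k (P.i (k + 1) u) + (P.Ls k w + Z.Ks k (P.j k w)) = P.i k f := hu
    obtain ⟨w', h1, h2⟩ := P.swap.reg (u := w) (w := f - P.i (k + 1) u - Z.Ks (k + 1) w) (by
      change P.Ls k w = P.i k (f - P.i (k + 1) u - Z.Ks (k + 1) w)
      rw [map_sub, map_sub, Z.Ksj, ← hu']; abel)
    have h1' : P.j (k + 1) w' = w := h1
    have h2' : P.Ls (k + 1) w' = f - P.i (k + 1) u - Z.Ks (k + 1) w := h2
    obtain ⟨u', h3, h4⟩ := step (k + 1) u w' h1'.symm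
    refine ⟨u', ?_⟩
    change P.i _ (P.i _ u') + (P.Ls _ (P.L _ u' + Z.K _ (P.i _ u')) +
      Z.Ks _ (P.j _ (P.L _ u' + Z.K _ (P.i _ u')))) = f
    rw [h4, h3, h2', h1']; abel

/-- **Perturbation by an operator of order zero.** -/
def addZ (P : Pair X Y) (Z : Zer P.toHalf) : Pair X Y where
  i := P.i
  j := P.j
  L k := P.L k + (Z.K k).comp (P.i k)
  Ls k := P.Ls k + (Z.Ks k).comp (P.j k)
  i_inj := P.i_inj
  j_inj := P.j_inj
  Li k u := by simp [P.Li, Z.Ki]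
  Lsj k v := by simp [P.Lsj, Z.Ksj]
  adj u v := by simp [inner_add_left, inner_add_right, P.adj, Z.adj]
  surjX := surj_add P Z
  surjY := surj_add P.swap Z.swap

theorem addZ_L (P : Pair X Y) (Z : Zer P.toHalf) (k : ℕ) (u : X (k + 1)) :
    (addZ P Z).L k u = P.L k u + Z.K k (P.i k u) := rfl

theorem addZ_Ls (P : Pair X Y) (Z : Zer P.toHalf) (k : ℕ) (v : Y (k + 1)) :
    (addZ P Z).Ls k v = P.Ls k v + Z.Ks k (P.j k v) := rfl

/-- a lower bound in `L²` gives the lower bound on every level -/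
theorem low_all (P : Pair X Y) {C : ℝ} (h : ∀ u, ‖P.i 0 u‖ ≤ C * ‖P.L 0 u‖) (k : ℕ) :
    ∃ C', 0 ≤ C' ∧ ∀ u : X (k + 1), ‖u‖ ≤ C' * ‖P.L k u‖ := by
  obtain ⟨C₁, h1, h2⟩ := gard P k
  refine ⟨C₁ * (1 + |C| * ‖dn0 P.j k‖), by positivity, fun u => (h2 u).trans ?_⟩
  rw [mul_assoc]
  refine mul_le_mul_of_nonneg_left ?_ h1
  have h3 := h (dn1 P.i k u)
  rw [i_dn1, P.L_dn1] at h3
  have h4 := (dn0 P.j k).le_opNorm (P.L k u)
  have h5 : C * ‖dn0 P.j k (P.L k u)‖ ≤ |C| * (‖dn0 P.j k‖ * ‖P.L k u‖) :=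
    mul_le_mul (le_abs_self C) h4 (norm_nonneg _) (abs_nonneg C)
  linarith

/-- **Invertibility** on every level from a lower bound and injectivity of the adjoint. -/
theorem bij_of_low (P : Pair X Y) {C : ℝ} (h : ∀ u, ‖P.i 0 u‖ ≤ C * ‖P.L 0 u‖)
    (h' : ∀ v, P.Ls 0 v = 0 → v = 0) (k : ℕ) : Bijective (P.L k) := by
  obtain ⟨C₀, -, h0⟩ := low_all P h 0
  obtain ⟨C₁, -, h1⟩ := low_all P h k
  have hc : IsClosed ((P.L 0).range : Set (Y 0)) := Fred93.isClosed_range_of_bound h0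
  refine ⟨(injective_iff_map_eq_zero _).2 fun u hu => ?_, fun y => ?_⟩
  · have := h1 u
    rw [hu, norm_zero, mul_zero] at this
    exact norm_le_zero_iff.1 this
  · exact (P.mem_range_iff hc k y).2 fun v hv => by rw [h' v hv, map_zero, inner_zero_right]

theorem equiv_of_low (P : Pair X Y) {C : ℝ} (h : ∀ u, ‖P.i 0 u‖ ≤ C * ‖P.L 0 u‖)
    (h' : ∀ v, P.Ls 0 v = 0 → v = 0) (k : ℕ) :
    ∃ e : X (k + 1) ≃L[ℝ] Y k, (e : X (k + 1) →L[ℝ] Y k) = P.L k :=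
  ⟨ContinuousLinearEquiv.ofBijective (P.L k) (LinearMap.ker_eq_bot.2 (bij_of_low P h h' k).1)
    (LinearMap.range_eq_top.2 (bij_of_low P h h' k).2), rfl⟩

/-- an `L²` estimate modulo a compact term gives the estimate of `Ell97.Pair.fr_of_est` -/
theorem est_of_low (P : Pair X Y) {Z : Type*} [NormedAddCommGroup Z] [NormedSpace ℝ Z]
    {K : X 1 →L[ℝ] Z} {C ε : ℝ} (h : ∀ u, ‖P.i 0 u‖ ≤ C * (‖P.L 0 u‖ + ‖K u‖) + ε * ‖u‖)
    {G : ℝ} (hG : 0 ≤ G) (hg : ∀ u : X 1, ‖u‖ ≤ G * (‖P.L 0 u‖ + ‖P.i 0 u‖))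
    (hε : G * ε ≤ 1 / 2) : Fred93.Est (P.L 0) K (2 * G * (1 + |C|)) := fun u => by
  have h1 := mul_le_mul_of_nonneg_left (h u) hG
  have h2 := hg u
  have h3 := mul_le_mul_of_nonneg_right hε (norm_nonneg u)
  have h4 : G * (C * (‖P.L 0 u‖ + ‖K u‖)) ≤ G * (|C| * (‖P.L 0 u‖ + ‖K u‖)) :=
    mul_le_mul_of_nonneg_left (mul_le_mul_of_nonneg_right (le_abs_self C) (by positivity)) hG
  have h5 := mul_nonneg hG (norm_nonneg (K u))
  nlinarith

section cyl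
variable {A B D : Type*} [NormedAddCommGroup A] [InnerProductSpace ℝ A] [NormedAddCommGroup B]
  [NormedSpace ℝ B] [NormedAddCommGroup D] [NormedSpace ℝ D]

/-- `∂_t` (skew) and `S` (symmetric) commute on the level `D → B → A`. -/
structure CylOp (i : B →L[ℝ] A) (T S : B →L[ℝ] A) : Prop where
  skew : ∀ u v, ⟪T u, i v⟫ = -⟪i u, T v⟫
  symm : ∀ u v, ⟪S u, i v⟫ = ⟪i u, S v⟫
  orth : ∀ u, ⟪T u, S u⟫ = 0

theorem CylOp.of_comm {i T S : B →L[ℝ] A} {i' T' S' : D →L[ℝ] B} (hd : DenseRange i')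
    (skew : ∀ u v, ⟪T u, i v⟫ = -⟪i u, T v⟫) (symm : ∀ u v, ⟪S u, i v⟫ = ⟪i u, S v⟫)
    (hT : ∀ u, i (T' u) = T (i' u)) (hS : ∀ u, i (S' u) = S (i' u))
    (comm : ∀ u, T (S' u) = S (T' u)) : CylOp i T S := by
  refine ⟨skew, symm, fun u => ?_⟩
  refine hd.induction_on u (isClosed_eq (by fun_prop) continuous_const) fun u => ?_
  have h1 : ⟪T (i' u), S (i' u)⟫ = -⟪T (i' u), S (i' u)⟫ := by
    conv_lhs => rw [← hT, ← symm, ← comm, skew, hS, real_inner_comm]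
  linarith

namespace CylOp
variable {i T S : B →L[ℝ] A} (h : CylOp i T S)
include h

theorem neg : CylOp i (-T) S :=
  ⟨fun u v => by simp [h.skew], h.symm, fun u => by simp [h.orth]⟩

theorem inner_self (u : B) : ⟪T u, i u⟫ = 0 := by
  have := h.skew u u
  rw [real_inner_comm (T u)] at this
  linarith

theorem shift (c : ℝ) : CylOp i T (S + c • i) :=
  ⟨h.skew, fun u v => by simp [inner_add_left, inner_add_right, inner_smul_left, inner_smul_right,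
    h.symm], fun u => by simp [inner_add_right, inner_smul_right, h.orth, h.inner_self]⟩

theorem norm_sq (u : B) : ‖T u + S u‖ ^ 2 = ‖T u‖ ^ 2 + ‖S u‖ ^ 2 := by
  rw [norm_add_sq_real, h.orth]; ring

theorem left_le (u : B) : ‖T u‖ ≤ ‖T u + S u‖ :=
  le_of_sq_le_sq (by rw [h.norm_sq]; nlinarith [sq_nonneg ‖S u‖]) (norm_nonneg _)

theorem right_le (u : B) : ‖S u‖ ≤ ‖T u + S u‖ :=
  le_of_sq_le_sq (by rw [h.norm_sq]; nlinarith [sq_nonneg ‖T u‖]) (norm_nonneg _)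

/-- nondegenerate limit: lower bound -/
theorem low {C : ℝ} (hC : 0 ≤ C) (hl : ∀ u, ‖i u‖ ≤ C * (‖S u‖ + ‖T u‖)) (u : B) :
    ‖i u‖ ≤ 2 * C * ‖T u + S u‖ := by
  have h1 := mul_le_mul_of_nonneg_left (add_le_add (h.right_le u) (h.left_le u)) hC
  linarith [hl u]

set_option maxHeartbeats 800000 in
/-- degenerate limit with a small weight: `P` is the projection onto the kernel slice by slice,
`R = e^{δ t} S e^{-δ t} - S`. -/
theorem low_wt {P : A →L[ℝ] A} {C : ℝ} (hC : 1 ≤ C) (hP : ∀ x, ⟪x - P x, P x⟫ = 0)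
    (hT : ∀ u, ⟪T u, P (i u)⟫ = 0) (hl : ∀ u, ‖i u - P (i u)‖ ≤ C * (‖S u‖ + ‖T u‖))
    (hq : ∀ u, |⟪S u, P (i u)⟫| ≤ C * (‖i u - P (i u)‖ ^ 2 + ‖T u‖ ^ 2))
    {R : A →L[ℝ] A} {δ : ℝ} (hR : ‖R‖ ≤ C * |δ|) (hR' : ∀ x, |⟪R x, x⟫| ≤ C * δ ^ 2 * ‖x‖ ^ 2)
    (hδ : |δ| * (200 * C ^ 5) ≤ 1) (u : B) :
    |δ| * ‖i u‖ ≤ 4 * ‖T u + S u - δ • i u + R (i u)‖ := by
  have hT := hT u
  have hl := hl u
  have hq := hq u
  generalize i u = x at *
  obtain ⟨f, hf⟩ : ∃ f, f = T u + S u - δ • x + R x := ⟨_, rfl⟩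
  obtain ⟨d, hd⟩ : ∃ d, d = |δ| := ⟨_, rfl⟩
  rw [← hf]
  rw [← hd] at hR hδ ⊢
  have hd0 : 0 ≤ d := hd ▸ abs_nonneg δ
  have hdd : δ ^ 2 = d ^ 2 := by rw [hd, sq_abs]
  have hpy : ‖x‖ ^ 2 = ‖x - P x‖ ^ 2 + ‖P x‖ ^ 2 := by
    have := norm_add_sq_real (x - P x) (P x)
    rw [hP, sub_add_cancel] at this
    linarith
  have hPx : ‖P x‖ ≤ ‖x‖ := le_of_sq_le_sq (by nlinarith [sq_nonneg ‖x - P x‖]) (norm_nonneg _)
  have hRx : ∀ y, ‖R y‖ ≤ C * d * ‖y‖ := fun y =>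
    (R.le_opNorm y).trans (mul_le_mul_of_nonneg_right hR (norm_nonneg y))
  by_contra hcon
  push Not at hcon
  have hx0 : 0 < ‖x‖ := by
    rcases (norm_nonneg x).eq_or_lt with h0 | h0
    · rw [← h0, mul_zero] at hcon; linarith [norm_nonneg f]
    · exact h0
  have hd1 : 0 < d := by
    rcases hd0.eq_or_lt with h0 | h0
    · rw [← h0, zero_mul] at hcon; linarith [norm_nonneg f]
    · exact h0
  obtain ⟨m, hm⟩ : ∃ m, m = d * ‖x‖ := ⟨_, rfl⟩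
  rw [← hm] at hcon
  have hm0 : 0 < m := hm ▸ mul_pos hd1 hx0
  have h1 : ‖T u + S u‖ ≤ 3 * C * m := by
    have e : T u + S u = f + δ • x - R x := by rw [hf]; abel
    have h2 := (norm_sub_le (f + δ • x) (R x)).trans (add_le_add_left (norm_add_le _ _) _)
    rw [← e, norm_smul, Real.norm_eq_abs, ← hd, ← hm] at h2
    have h3 := hRx x
    rw [mul_assoc, ← hm] at h3
    have h4 : m ≤ C * m := le_mul_of_one_le_left hm0.le hC
    linarith
  have h2 : ‖T u‖ ≤ 3 * C * m := (h.left_le u).trans h1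
  have h3 : ‖x - P x‖ ≤ 6 * C ^ 2 * m := by
    have := mul_le_mul_of_nonneg_left (add_le_add ((h.right_le u).trans h1) h2) (by linarith : 0 ≤ C)
    linarith
  have h4 : ⟪f, P x⟫ = ⟪S u, P x⟫ - δ * ‖P x‖ ^ 2 + (⟪R (x - P x), P x⟫ + ⟪R (P x), P x⟫) := by
    have e : ⟪x, P x⟫ = ‖P x‖ ^ 2 := by
      have := hP x
      rw [inner_sub_left, real_inner_self_eq_norm_sq] at this
      linarith
    rw [hf, inner_add_left, inner_sub_left, inner_add_left, hT, real_inner_smul_left, e,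
      ← inner_add_left, ← map_add, sub_add_cancel, zero_add]
  have h5 : |⟪f, P x⟫| ≤ m / 4 * ‖x‖ :=
    (abs_real_inner_le_norm _ _).trans (mul_le_mul (by linarith) hPx (norm_nonneg _) (by positivity))
  have hC2 : C ^ 2 ≤ C ^ 4 := pow_le_pow_right₀ hC (by norm_num)
  have h6 : |⟪S u, P x⟫| ≤ 45 * C ^ 5 * m ^ 2 := by
    have a1 := pow_le_pow_left₀ (norm_nonneg _) h3 2
    have a2 := pow_le_pow_left₀ (norm_nonneg _) h2 2
    have a3 : ‖x - P x‖ ^ 2 + ‖T u‖ ^ 2 ≤ 45 * C ^ 4 * m ^ 2 := by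
      linarith [mul_le_mul_of_nonneg_right hC2 (sq_nonneg m)]
    have a4 := mul_le_mul_of_nonneg_left a3 (by linarith : 0 ≤ C)
    refine hq.trans (a4.trans (le_of_eq (by ring)))
  have hC3 : C ^ 3 ≤ C ^ 5 := pow_le_pow_right₀ hC (by norm_num)
  have hC1 : C ≤ C ^ 5 := le_self_pow₀ hC (by norm_num)
  have hC4 : C ^ 4 ≤ C ^ 5 := pow_le_pow_right₀ hC (by norm_num)
  have h7 : |⟪R (x - P x), P x⟫| ≤ 6 * C ^ 5 * m ^ 2 := by
    have a1 := mul_le_mul ((hRx _).trans (mul_le_mul_of_nonneg_left h3 (by positivity))) hPx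
      (norm_nonneg _) (by positivity)
    have a2 : C * d * (6 * C ^ 2 * m) * ‖x‖ = 6 * C ^ 3 * m ^ 2 := by rw [hm]; ring
    have a3 := abs_real_inner_le_norm (R (x - P x)) (P x)
    linarith [mul_le_mul_of_nonneg_right hC3 (sq_nonneg m)]
  have h8 : |⟪R (P x), P x⟫| ≤ C ^ 5 * m ^ 2 := by
    have a1 := pow_le_pow_left₀ (norm_nonneg _) hPx 2
    have a2 : C * δ ^ 2 * ‖P x‖ ^ 2 ≤ C * δ ^ 2 * ‖x‖ ^ 2 :=
      mul_le_mul_of_nonneg_left a1 (by positivity)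
    have a3 : C * δ ^ 2 * ‖x‖ ^ 2 = C * m ^ 2 := by rw [hm, hdd]; ring
    linarith [hR' (P x), mul_le_mul_of_nonneg_right hC1 (sq_nonneg m)]
  have h9 : d * ‖P x‖ ^ 2 ≤ m / 4 * ‖x‖ + 52 * C ^ 5 * m ^ 2 := by
    have e : δ * ‖P x‖ ^ 2 = ⟪S u, P x⟫ + ⟪R (x - P x), P x⟫ + ⟪R (P x), P x⟫ - ⟪f, P x⟫ := by
      linarith
    have e' : d * ‖P x‖ ^ 2 = |δ * ‖P x‖ ^ 2| := by
      rw [abs_mul, abs_of_nonneg (sq_nonneg ‖P x‖), hd]
    rw [e', e]
    have := abs_le.1 h5; have := abs_le.1 h6; have := abs_le.1 h7; have := abs_le.1 h8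
    rw [abs_le]; constructor <;> linarith
  have hd2 : d ≤ 1 := by
    linarith [mul_le_mul_of_nonneg_left (one_le_pow₀ (n := 5) hC) hd0]
  have h10 : d * ‖x - P x‖ ^ 2 ≤ 36 * C ^ 5 * m ^ 2 := by
    have a1 := pow_le_pow_left₀ (norm_nonneg _) h3 2
    have a2 : d * ‖x - P x‖ ^ 2 ≤ ‖x - P x‖ ^ 2 := mul_le_of_le_one_left (sq_nonneg _) hd2
    linarith [mul_le_mul_of_nonneg_right hC4 (sq_nonneg m)]
  have h11 : m * ‖x‖ = d * ‖x - P x‖ ^ 2 + d * ‖P x‖ ^ 2 := by rw [← mul_add, ← hpy, hm]; ring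
  have h12 : 88 * C ^ 5 * m ^ 2 ≤ m * ‖x‖ / 2 := by
    have a1 : 88 * C ^ 5 * m ^ 2 = (d * (200 * C ^ 5)) * (m * ‖x‖) * (88 / 200) := by rw [hm]; ring
    have a2 : (d * (200 * C ^ 5)) * (m * ‖x‖) ≤ m * ‖x‖ := mul_le_of_le_one_left (by positivity) hδ
    linarith [mul_pos hm0 hx0]
  linarith [mul_pos hm0 hx0]

end CylOp
end cyl

end Crest.Agent.X212.Cyf70
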