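import Crest.Agent.X212.Cyf70.Pert

/-!
# Row 212, CYLF (helper70): calculus modulo compact operators

* `left_patch`, `isFredholm_patch`, `fr_of_left`: Fredholm operators by patching (ends);
* `Cen`, `gl`, `cind`: the index of the operator interpolating between two invertible limits;
  additivity and homotopy invariance (spectral flow) without excision.
-/

set_option autoImplicit false
set_option linter.unusedSectionVars false
open Function Filter Topology Module Set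
open scoped RealInnerProductSpace

noncomputable section
namespace Crest.Agent.X212.Cyf70
open Crest.Agent.X212.Ell97
open Crest.Agent.X212.Fred93 (Fr ind Est)

section Cq
variable {E F G : Type*} [NormedAddCommGroup E] [NormedSpace ℝ E] [NormedAddCommGroup F]
  [NormedSpace ℝ F] [NormedAddCommGroup G] [NormedSpace ℝ G]

/-- equality modulo compact operators -/
def Cq (A B : E →L[ℝ] F) : Prop := IsCompactOperator (A - B : E →L[ℝ] F)

namespace Cq
variable {A B C D : E →L[ℝ] F}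

theorem of_eq (h : A = B) : Cq A B := by
  rw [Cq, h, sub_self]; exact isCompactOperator_zero

theorem refl (A : E →L[ℝ] F) : Cq A A := of_eq rfl

theorem of_cpt {K : E →L[ℝ] F} (hK : IsCompactOperator K) (h : ∀ x, A x = B x + K x) : Cq A B := by
  have : A - B = K := by ext x; simp [h]
  rw [Cq, this]; exact hK

theorem zero (hK : IsCompactOperator A) : Cq A 0 := of_cpt hK fun x => by simp

theorem cpt (h : Cq A 0) : IsCompactOperator A := by rwa [Cq, sub_zero] at h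

theorem symm (h : Cq A B) : Cq B A :=
  of_cpt (K := -(A - B)) (IsCompactOperator.neg h) fun x => by simp

theorem trans (h : Cq A B) (h' : Cq B C) : Cq A C :=
  of_cpt (K := (A - B) + (B - C)) (IsCompactOperator.add h h') fun x => by simp

instance : Trans (Cq (E := E) (F := F)) Cq Cq := ⟨trans⟩

theorem add (h : Cq A B) (h' : Cq C D) : Cq (A + C) (B + D) :=
  of_cpt (K := (A - B) + (C - D)) (IsCompactOperator.add h h') fun x => by
    simp only [_root_.add_apply, _root_.sub_apply]; abel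

theorem smul (c : ℝ) (h : Cq A B) : Cq (c • A) (c • B) :=
  of_cpt (K := c • (A - B)) (IsCompactOperator.smul h c) fun x => by simp [smul_sub]

theorem neg (h : Cq A B) : Cq (-A) (-B) := by simpa using h.smul (-1)

theorem sub (h : Cq A B) (h' : Cq C D) : Cq (A - C) (B - D) := by
  simpa only [sub_eq_add_neg] using h.add h'.neg

theorem left (h : Cq A B) (P : F →L[ℝ] G) : Cq (P ∘L A) (P ∘L B) :=
  of_cpt (K := P ∘L (A - B)) (IsCompactOperator.clm_comp h P) fun x => by simp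

theorem right (h : Cq A B) (P : G →L[ℝ] E) : Cq (A ∘L P) (B ∘L P) :=
  of_cpt (K := (A - B) ∘L P) (IsCompactOperator.comp_clm h P) fun x => by simp

theorem sum {α : Type*} (s : Finset α) {A B : α → E →L[ℝ] F} (h : ∀ a ∈ s, Cq (A a) (B a)) :
    Cq (∑ a ∈ s, A a) (∑ a ∈ s, B a) := by
  classical
  induction s using Finset.induction_on with
  | empty => exact refl _
  | insert a s ha ih =>
    rw [Finset.sum_insert ha, Finset.sum_insert ha]
    exact (h a (Finset.mem_insert_self _ _)).add (ih fun b hb => h b (Finset.mem_insert_of_mem hb))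

theorem congr (h : Cq A B) (h1 : ∀ x, C x = A x) (h2 : ∀ x, D x = B x) : Cq C D := by
  rwa [ContinuousLinearMap.ext h1, ContinuousLinearMap.ext h2]

/-- norm limits -/
theorem of_approx [CompleteSpace F] (h : ∀ ε > 0, ∃ C, Cq C 0 ∧ ‖A - B - C‖ ≤ ε) : Cq A B := by
  have hc : IsClosed {T : E →L[ℝ] F | IsCompactOperator T} := isClosed_setOfPred_isCompactOperator
  refine hc.closure_subset (Metric.mem_closure_iff.2 fun ε hε => ?_)
  obtain ⟨C, h1, h2⟩ := h (ε / 2) (by positivity)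
  exact ⟨C, h1.cpt, by rw [dist_eq_norm]; linarith⟩

theorem fr [CompleteSpace E] [CompleteSpace F] {n : ℤ} (h : Cq A B) (hB : Fr B n) : Fr A n :=
  hB.of_sub_compact h

end Cq

theorem est_of_left {T : E →L[ℝ] F} {Q : F →L[ℝ] E} :
    Est T (Q ∘L T - ContinuousLinearMap.id ℝ E) (‖Q‖ + 1) := fun x => by
  have h1 : x = Q (T x) - (Q ∘L T - ContinuousLinearMap.id ℝ E) x := by simp
  have h2 := (congrArg norm h1).trans_le (norm_sub_le _ _)
  nlinarith [Q.le_opNorm (T x), norm_nonneg (T x), norm_nonneg Q,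
    norm_nonneg ((Q ∘L T - ContinuousLinearMap.id ℝ E) x)]

variable {α : Type*} [Fintype α] {E' F' : α → Type*} [∀ a, NormedAddCommGroup (E' a)]
  [∀ a, NormedSpace ℝ (E' a)] [∀ a, NormedAddCommGroup (F' a)] [∀ a, NormedSpace ℝ (F' a)]

/-- patching of local left parametrices -/
theorem left_patch {T : E →L[ℝ] F} {T' : ∀ a, E' a →L[ℝ] F' a} {Q : ∀ a, F' a →L[ℝ] E' a}
    {r : ∀ a, E →L[ℝ] E' a} {e : ∀ a, E' a →L[ℝ] E} {r' : ∀ a, F →L[ℝ] F' a}
    (h1 : ∀ a, Cq (r' a ∘L T) (T' a ∘L r a))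
    (h2 : ∀ a, Cq (e a ∘L Q a ∘L T' a ∘L r a) (e a ∘L r a))
    (h3 : Cq (∑ a, e a ∘L r a) (ContinuousLinearMap.id ℝ E)) :
    Cq ((∑ a, e a ∘L Q a ∘L r' a) ∘L T) (ContinuousLinearMap.id ℝ E) := by
  refine Cq.trans ?_ h3
  rw [ContinuousLinearMap.finsetSum_comp]
  exact Cq.sum _ fun a _ => (((h1 a).left (Q a)).left (e a)).trans (h2 a)

/-- patching of local right parametrices -/
theorem right_patch {T : E →L[ℝ] F} {T' : ∀ a, E' a →L[ℝ] F' a} {Q : ∀ a, F' a →L[ℝ] E' a}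
    {e : ∀ a, E' a →L[ℝ] E} {r' : ∀ a, F →L[ℝ] F' a} {e' : ∀ a, F' a →L[ℝ] F}
    (h1 : ∀ a, Cq (T ∘L e a) (e' a ∘L T' a))
    (h2 : ∀ a, Cq (e' a ∘L T' a ∘L Q a ∘L r' a) (e' a ∘L r' a))
    (h3 : Cq (∑ a, e' a ∘L r' a) (ContinuousLinearMap.id ℝ F)) :
    Cq (T ∘L ∑ a, e a ∘L Q a ∘L r' a) (ContinuousLinearMap.id ℝ F) := by
  refine Cq.trans ?_ h3
  rw [ContinuousLinearMap.comp_finsetSum]
  exact Cq.sum _ fun a _ => ((h1 a).right (Q a ∘L r' a)).trans (h2 a)

theorem isFredholm_of_cq [CompleteSpace E] [CompleteSpace F] {T : E →L[ℝ] F} {Q Q' : F →L[ℝ] E}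
    (h1 : Cq (Q ∘L T) (ContinuousLinearMap.id ℝ E))
    (h2 : Cq (T ∘L Q') (ContinuousLinearMap.id ℝ F)) : T.IsFredholm :=
  Fred93.isFredholm_of_parametrix Q Q' h1 h2

end Cq

section pair
variable {X Y : ℕ → Type*} [∀ k, NormedAddCommGroup (X k)] [∀ k, InnerProductSpace ℝ (X k)]
  [∀ k, NormedAddCommGroup (Y k)] [∀ k, InnerProductSpace ℝ (Y k)]
  [∀ k, CompleteSpace (X k)] [∀ k, CompleteSpace (Y k)]

theorem dense_i (P : Pair X Y) : DenseRange (P.i 0) := by
  have : (P.i 0).rangeᗮ = ⊥ := by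
    rw [Submodule.eq_bot_iff]
    intro x hx
    obtain ⟨v, h1, h2⟩ := weak_reg P (y := 0) (g := x) fun u => by
      rw [inner_zero_right]; exact (hx _ ⟨u, rfl⟩).symm
    rw [← h2, P.j_inj 0 (h1.trans (map_zero _).symm), map_zero]
  exact Submodule.dense_iff_topologicalClosure_eq_top.2
    ((Submodule.topologicalClosure_eq_top_iff).2 this)

/-- the interior parametrix: `Q L = 1 - R i` -/
theorem exists_loc (P : Pair X Y) : ∃ (Q : Y 0 →L[ℝ] X 1) (R : X 0 →L[ℝ] X 1),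
    ∀ u, Q (P.L 0 u) + R (P.i 0 u) = u := by
  obtain ⟨c, -, hb⟩ := gard P 0
  have hq : ∀ u, ⟪((P.L 0).adjoint.comp (P.L 0) + (P.i 0).adjoint.comp (P.i 0)) u, u⟫ =
      ‖P.L 0 u‖ ^ 2 + ‖P.i 0 u‖ ^ 2 := fun u => by
    simp [inner_add_left, ContinuousLinearMap.adjoint_inner_left]
  obtain ⟨e, he⟩ := exists_equiv_of_coercive
    ((P.L 0).adjoint.comp (P.L 0) + (P.i 0).adjoint.comp (P.i 0))
    (c := 1 / (2 * c ^ 2 + 1)) (by positivity) (fun u => by
      rw [hq, mul_assoc, one_div, inv_mul_le_iff₀ (by positivity)]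
      have h0 : ‖u‖ ≤ c * (‖P.L 0 u‖ + ‖P.i 0 u‖) := hb u
      have h1 := mul_self_le_mul_self (norm_nonneg u) h0
      nlinarith [sq_nonneg (c * (‖P.L 0 u‖ - ‖P.i 0 u‖)), sq_nonneg ‖P.L 0 u‖,
        sq_nonneg ‖P.i 0 u‖])
  refine ⟨(e.symm : X 1 →L[ℝ] X 1) ∘L (P.L 0).adjoint, (e.symm : X 1 →L[ℝ] X 1) ∘L (P.i 0).adjoint,
    fun u => ?_⟩
  have : e u = (P.L 0).adjoint (P.L 0 u) + (P.i 0).adjoint (P.i 0 u) :=
    congrArg (fun A : X 1 →L[ℝ] X 1 => A u) he
  simp only [ContinuousLinearMap.comp_apply, ContinuousLinearEquiv.coe_coe]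
  rw [← map_add, ← this, e.symm_apply_apply]

/-- the interior piece of `left_patch` -/
theorem exists_loc' (P : Pair X Y) : ∃ Q : Y 0 →L[ℝ] X 1, ∀ r e : X 1 →L[ℝ] X 1,
    IsCompactOperator (P.i 0 ∘L r) → Cq (e ∘L Q ∘L P.L 0 ∘L r) (e ∘L r) := by
  obtain ⟨Q, R, h⟩ := exists_loc P
  refine ⟨Q, fun r e hr => Cq.symm (Cq.of_cpt (K := e ∘L R ∘L P.i 0 ∘L r)
    ((hr.clm_comp R).clm_comp e) fun x => ?_)⟩
  simp only [ContinuousLinearMap.comp_apply]
  rw [← map_add, h]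

/-- **Fredholm on every level** from left parametrices in `L²` for the operator and its adjoint. -/
theorem fr_of_left (P : Pair X Y) {Q : Y 0 →L[ℝ] X 1} {Q' : X 0 →L[ℝ] Y 1}
    (h : Cq (Q ∘L P.L 0) (ContinuousLinearMap.id ℝ _))
    (h' : Cq (Q' ∘L P.Ls 0) (ContinuousLinearMap.id ℝ _)) (k : ℕ) :
    Fr (P.L k) ((finrank ℝ (P.L 0).ker : ℤ) - finrank ℝ (P.Ls 0).ker) :=
  P.fr_of_est h h' est_of_left est_of_left k

/-- the index can be computed on level zero -/
theorem fr_level (P : Pair X Y) {n : ℤ} (h : Fr (P.L 0) n) (k : ℕ) : Fr (P.L k) n := by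
  have h1 := h.1.finite_ker
  have h2 : FiniteDimensional ℝ (Y 0 ⧸ (P.L 0).range) := h.1.finite_coker
  have hc := h.1.isClosed_range
  have : CompleteSpace (P.L 0).range := hc.completeSpace_coe
  have e := Submodule.quotientEquivOfIsCompl _ _ (Submodule.isCompl_orthogonal (P.L 0).range)
  obtain ⟨⟨e'⟩, -⟩ := orth_equiv (dense_i P) (P.j_inj 0) P.adj fun f hf =>
    (P.weak_ker hf).imp fun _ h => h.1
  have h3 : FiniteDimensional ℝ (P.Ls 0).ker := (e.trans e'.symm).finiteDimensional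
  refine ⟨P.isFredholm hc k, ?_⟩
  rw [← h.2]
  exact (P.index_eq hc k).trans (P.index_eq hc 0).symm

end pair

section cind
variable {E F : Type*} [NormedAddCommGroup E] [NormedSpace ℝ E] [NormedAddCommGroup F]
  [NormedSpace ℝ F] (s : E →L[ℝ] E) (σ : F →L[ℝ] F)

/-- the operator that looks like `A` where `σ = 0` and like `B` where `σ = 1` -/
def gl (A B : E →L[ℝ] F) : E →L[ℝ] F := A + σ ∘L (B - A)

/-- its index -/
def cind (A B : E →L[ℝ] F) : ℤ := ind (gl σ A B)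

/-- `T` is invertible, commutes with the step function modulo compact operators, and differs from
`T₀` by an operator of lower order. -/
structure Lim (T₀ T : E →L[ℝ] F) : Prop where
  bij : Bijective T
  com : Cq (σ ∘L T) (T ∘L s)
  low : Cq ((σ - σ ∘L σ) ∘L (T - T₀)) 0

variable {s σ} {T₀ A B C : E →L[ℝ] F}

theorem gl_apply (x : E) : gl σ A B x = A x + σ (B x - A x) := rfl

theorem gl_self : gl σ A A = A := by simp [gl]

theorem Lim.diff (hA : Lim s σ T₀ A) (hB : Lim s σ T₀ B) :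
    Cq ((σ - σ ∘L σ) ∘L A) ((σ - σ ∘L σ) ∘L B) :=
  Cq.of_cpt (K := (σ - σ ∘L σ) ∘L (A - T₀) - (σ - σ ∘L σ) ∘L (B - T₀))
    (hA.low.cpt.sub hB.low.cpt) fun x => by
    simp only [ContinuousLinearMap.comp_apply, _root_.sub_apply, map_sub]; abel

variable [CompleteSpace E] [CompleteSpace F]

theorem Lim.exists_inv (hB : Lim s σ T₀ B) : ∃ Q : F →L[ℝ] E, (∀ x, Q (B x) = x) ∧
    (∀ y, B (Q y) = y) ∧ Fr Q 0 ∧ Cq (Q ∘L σ) (s ∘L Q) := by
  let e := ContinuousLinearEquiv.ofBijective B (LinearMap.ker_eq_bot.2 hB.bij.1)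
    (LinearMap.range_eq_top.2 hB.bij.2)
  have h1 : ∀ x, e.symm (B x) = x := e.symm_apply_apply
  have h2 : ∀ x, B (e.symm x) = x := e.apply_symm_apply
  refine ⟨e.symm, h1, h2, Fr.equiv e.symm, ?_⟩
  exact ((hB.com.left (e.symm : F →L[ℝ] E)).right (e.symm : F →L[ℝ] E)).congr
    (fun x => by simp [h2]) fun x => by simp [h1]

theorem gl_comp (hA : Lim s σ T₀ A) (hB : Lim s σ T₀ B) (C : E →L[ℝ] F) {Q : F →L[ℝ] E}
    (h1 : ∀ x, Q (B x) = x) (h2 : ∀ y, B (Q y) = y) (hQ : Cq (Q ∘L σ) (s ∘L Q)) :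
    Cq (gl σ A B ∘L Q ∘L gl σ B C) (gl σ A C) := by
  have a1 : Cq (A ∘L Q ∘L σ) (σ ∘L A ∘L Q) := (hQ.left A).trans (hA.com.symm.right Q)
  have a2 : Cq ((A - σ ∘L A) ∘L Q ∘L σ ∘L (C - B)) ((σ - σ ∘L σ) ∘L A ∘L Q ∘L (C - B)) :=
    ((a1.sub (a1.left σ)).right (C - B)).congr (fun x => by simp) fun x => by simp
  have a3 : Cq ((σ - σ ∘L σ) ∘L A ∘L Q ∘L (C - B)) ((σ - σ ∘L σ) ∘L (C - B)) :=
    ((hA.diff hB).right (Q ∘L (C - B))).congr (fun x => rfl) fun x => by simp [h2]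
  refine ((a2.trans a3).add (Cq.refl (gl σ A C - (σ - σ ∘L σ) ∘L (C - B)))).congr
    (fun x => ?_) fun x => by simp
  simp only [gl_apply, ContinuousLinearMap.comp_apply, _root_.add_apply,
    _root_.sub_apply, map_add, map_sub, h1, h2]
  abel

theorem gl_fredholm (hA : Lim s σ T₀ A) (hB : Lim s σ T₀ B) : (gl σ A B).IsFredholm := by
  obtain ⟨QA, a1, a2, -, a3⟩ := hA.exists_inv
  obtain ⟨QB, b1, b2, -, b3⟩ := hB.exists_inv
  have h1 := gl_comp hA hB A b1 b2 b3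
  have h2 := gl_comp hB hA B a1 a2 a3
  rw [gl_self] at h1 h2
  exact isFredholm_of_cq (Q := QB ∘L gl σ B A ∘L QA) (Q' := QB ∘L gl σ B A ∘L QA)
    ((h2.left QB).congr (fun x => rfl) fun x => (b1 x).symm)
    ((h1.right QA).congr (fun x => rfl) fun x => (a2 x).symm)

theorem fr_gl (hA : Lim s σ T₀ A) (hB : Lim s σ T₀ B) : Fr (gl σ A B) (cind σ A B) :=
  Fr.of (gl_fredholm hA hB)

/-- **additivity** -/
theorem cind_add (hA : Lim s σ T₀ A) (hB : Lim s σ T₀ B) (hC : Lim s σ T₀ C) :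
    cind σ A B + cind σ B C = cind σ A C := by
  obtain ⟨Q, b1, b2, b0, b3⟩ := hB.exists_inv
  have h := (gl_comp hA hB C b1 b2 b3).symm.fr ((fr_gl hA hB).comp (b0.comp (fr_gl hB hC)))
  rw [(fr_gl hA hC).unique h, zero_add]

theorem cind_self (hA : Bijective A) : cind σ A A = 0 := by
  rw [cind, gl_self]; exact (Fr.of_bijective hA).2

theorem cind_neg (hA : Lim s σ T₀ A) (hB : Lim s σ T₀ B) : cind σ B A = -cind σ A B := by
  have := cind_add hA hB hA
  rw [cind_self hA.bij] at this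
  omega

/-- **homotopy invariance** -/
theorem cind_conn {Z : Type*} [TopologicalSpace Z] {O : Set Z} (hO : IsPreconnected O)
    {A B : Z → E →L[ℝ] F} (cA : ContinuousOn A O) (cB : ContinuousOn B O)
    (hA : ∀ z ∈ O, Lim s σ T₀ (A z)) (hB : ∀ z ∈ O, Lim s σ T₀ (B z)) {x y : Z} (hx : x ∈ O)
    (hy : y ∈ O) : cind σ (A x) (B x) = cind σ (A y) (B y) :=
  (Fr.of_preconnected hO (L := fun z => gl σ (A z) (B z))
    (cA.add (continuousOn_const.clm_comp (cB.sub cA))) (fun z hz => gl_fredholm (hA z hz) (hB z hz))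
    hx hy (fr_gl (hA x hx) (hB x hx))).2.symm

theorem cind_path {A : ℝ → E →L[ℝ] F} (cA : ContinuousOn A (Icc 0 1))
    (hA : ∀ z ∈ Icc (0 : ℝ) 1, Lim s σ T₀ (A z)) : cind σ (A 0) (A 1) = 0 := by
  have h0 : (0 : ℝ) ∈ Icc (0 : ℝ) 1 := ⟨le_rfl, zero_le_one⟩
  rw [← cind_conn isPreconnected_Icc (A := fun _ => A 0) continuousOn_const cA (fun _ _ => hA 0 h0)
    hA h0 ⟨zero_le_one, le_rfl⟩]
  exact cind_self (hA 0 h0).bij

/-- any operator asymptotic to `A` and `B` -/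
theorem fr_of_asy (hA : Lim s σ T₀ A) (hB : Lim s σ T₀ B) {T : E →L[ℝ] F}
    (h1 : Cq (T - σ ∘L T) (A - σ ∘L A)) (h2 : Cq (σ ∘L T) (σ ∘L B)) : Fr T (cind σ A B) :=
  ((h1.add h2).congr (fun x => by simp) fun x => by
    simp only [gl_apply, ContinuousLinearMap.comp_apply, _root_.add_apply,
      _root_.sub_apply, map_sub]; abel).fr (fr_gl hA hB)

end cind

end Crest.Agent.X212.Cyf70
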