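import Crest.Agent.X212.Cyf70.Kp
import Crest.Agent.X212.Op78.Sym

/-!
# Row 212, CYLF (helper70): calculus of `Tw`, the perturbation and the Hessian, the symmetric form
-/

set_option autoImplicit false
set_option linter.unusedSectionVars false
set_option linter.unusedSimpArgs false
noncomputable section
open scoped Manifold ContDiff Topology InnerProductSpace
open MeasureTheory Set Function Filter Real

namespace Crest.Agent.X212.Cyf70
open An Map77 Sob92 Nd18 Dec35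
open Wz78 (Cp)
open Op78 (sful lin0 dE mm cl)

section gen
variable {E : Type} [NormedAddCommGroup E] [NormedSpace ℝ E] [FiniteDimensional ℝ E]
  [MeasurableSpace E] [BorelSpace E]
  {HM : Type} [TopologicalSpace HM] {I : ModelWithCorners ℝ E HM}
  {M : Type} [TopologicalSpace M] [ChartedSpace HM M] [IsManifold I ∞ M]
  [MeasurableSpace M] {ι κ : Type} [Fintype ι] [Fintype κ] [DecidableEq κ]
  {d : Bd M ι κ} {F : Fr I M ι} {Γ : ι → ι → ι → M → ℝ} {W : ι → M → En κ} {Φ : M → Eu κ}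
  {x : M} {w : M → Cf ι κ}

/-- scaling of the second component -/
def sc2 (X Z : Type) [NormedAddCommGroup X] [NormedSpace ℝ X] [NormedAddCommGroup Z]
    [NormedSpace ℝ Z] (a b : ℝ) : P2 X Z →L[ℝ] P2 X Z :=
  sm2 (a • ContinuousLinearMap.id ℝ X) (b • ContinuousLinearMap.id ℝ Z)

section
variable {X Z : Type} [NormedAddCommGroup X] [NormedSpace ℝ X] [NormedAddCommGroup Z]
  [NormedSpace ℝ Z] (a b : ℝ) (v : P2 X Z)

@[simp] theorem f2_sc2 : f2 _ _ (sc2 X Z a b v) = a • f2 _ _ v := f2_sm2 _ _ _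
@[simp] theorem s2_sc2 : s2 _ _ (sc2 X Z a b v) = b • s2 _ _ v := s2_sm2 _ _ _

theorem sc2_sc2 (a' b' : ℝ) : sc2 X Z a b (sc2 X Z a' b' v) = sc2 X Z (a * a') (b * b') v :=
  ext2 (by simp [smul_smul]) (by simp [smul_smul])

theorem sc2_one : sc2 X Z 1 1 v = v := ext2 (by simp) (by simp)

theorem sm2_sc2 (A : X →L[ℝ] X) (B : Z →L[ℝ] Z) : sm2 A B (sc2 X Z a b v) = sc2 X Z a b (sm2 A B v) :=
  ext2 (by simp) (by simp)

theorem i_sum {J : Type*} (p : X) (q : Z) (s : Finset J) (c : J → ℝ) (f : J → X) (g : J → Z) :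
    i1 _ _ (p + ∑ j ∈ s, c j • f j) + i2 _ _ (q + ∑ j ∈ s, c j • g j) =
      i1 _ _ p + i2 _ _ q + ∑ j ∈ s, c j • (i1 _ _ (f j) + i2 _ _ (g j)) := by
  simp only [map_add, map_sum, map_smul, smul_add, Finset.sum_add_distrib]; abel

end

theorem inner_sc2 {X Z : Type} [NormedAddCommGroup X] [InnerProductSpace ℝ X] [NormedAddCommGroup Z]
    [InnerProductSpace ℝ Z] (a b : ℝ) (v w : P2 X Z) :
    ⟪sc2 X Z a b v, w⟫_ℝ = ⟪v, sc2 X Z a b w⟫_ℝ := by
  simp only [inner2, f2_sc2, s2_sc2, real_inner_smul_left, real_inner_smul_right]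

theorem p2_ten (h : d.OK) (a : ι) (α : Fm ι (HS κ)) :
    d.p2 x (wd2 _ (d.Px x) a (d.p1 x α)) =
      (2 : ℝ) • d.p2 x (WithLp.toLp 2 fun s => d.P s.1 a x • α s.2) := by
  refine ext_inner_right ℝ fun v => ?_
  have s := h.sd_p2 x v
  have e := h.p1_fix x (α := WithLp.toLp 2 fun c => d.p2 x v (a, c)) (fun c => h.g_p2 x v _)
    fun c => s.pr' a c
  rw [h.prj2.symm, inner_wd2 (h.vol x).pr s, real_inner_smul_left, h.prj2.symm]
  congr 1
  refine (inner_fm (d.p1 x α) (WithLp.toLp 2 fun c => d.p2 x v (a, c))).symm.trans ?_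
  rw [h.prj1.symm, e, inner_fm, inner_fm, Fintype.sum_prod_type, Finset.sum_comm]
  refine Finset.sum_congr rfl fun c _ => ?_
  simp only [real_inner_smul_left]
  rw [← s.pr a c]
  simp only [inner_sum, real_inner_smul_right, h.Ps a]

/-- from the gradient to the perturbation -/
def kG (d : Bd M ι κ) (a : ι) (x : M) : Cf ι κ →L[ℝ] Ef ι κ :=
  -(sm2 (ContinuousLinearMap.id ℝ _) ((4 : ℝ) • ContinuousLinearMap.id ℝ _) ∘L
    d.pE x ∘L d.σ a x ∘L d.pC x)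

theorem f2_kG (h : d.OK) (a : ι) (v : Cf ι κ) :
    f2 _ _ (kG d a x v) = -d.ρ a x (d.sp x (fp v)) := by
  simp [kG, Bd.σ, σE, h.mp]

theorem s2_kG (a : ι) (v : Cf ι κ) :
    s2 _ _ (kG d a x v) = -((4 : ℝ) • d.p2 x (wd2 _ (d.Px x) a (d.p1 x (fa v)))) := by
  simp [kG, Bd.σ, σE]

theorem kE_alg (h : d.OK) (a : ι) (α : Fm ι (HS κ)) (φ : Eu κ) :
    kG d a x (d.pC x (i1 _ _ α + i2 _ _ φ)) = i1 _ _ (-d.ρ a x (d.sp x φ)) +
      i2 _ _ ((-8 : ℝ) • d.p2 x (WithLp.toLp 2 fun s => d.P s.1 a x • α s.2)) := by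
  refine ext2 ?_ ?_
  · rw [f2_kG h]
    simp only [s2_ps, map_add, s2_i1, s2_i2, f2_i1, f2_i2, map_zero, zero_add, add_zero, h.sp.idem]
  · rw [s2_kG]
    simp only [f2_ps, map_add, f2_i1, f2_i2, s2_i1, s2_i2, map_zero, add_zero, zero_add,
      h.prj1.idem]
    rw [p2_ten h, smul_smul, ← neg_smul]; norm_num

/-- **the symmetric form with a term of order zero** -/
theorem sful_id (C : Cp d F Γ W) (hw : Sm I w) (pw : ∀ y, d.pC y (w y) = w y) (a : ι)
    {v : Cf ι κ} (hv : d.pC x v = v) :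
    (sful d F W Φ).app F w x + (sful d F W Φ).σ a x (sc2 _ _ 2 1 v) =
      i1 _ _ ((1 / 2 : ℝ) • (((d.d0 F (base W fun y => (2 : ℝ) • Φ y)).adj F).app F (fun y =>
        i1 _ _ (fa (sc2 _ _ 2 1 (w y))) + i2 _ _ ((2 : ℝ) • fp (sc2 _ _ 2 1 (w y)))) x +
          ((4 : ℝ) • (pj _ a ∘L fa)) v)) +
      i2 _ _ (sc2 _ _ 1 (1 / 2)
        ((d.lin F (base W Φ)).app F (fun y => sc2 _ _ 2 1 (w y)) x - kG d a x v)) := by
  have hs : Sm I fun y => sc2 _ _ 2 1 (w y) := (sc2 _ _ 2 1).contMDiff.comp hw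
  have s : ∀ a, Sm I fun z => fa (w z) a := fun a => (pj _ a ∘L fa).contMDiff.comp hw
  have eσ : (sful d F W Φ).σ a x = (d.full F (base W 0)).σ a x := rfl
  have p1 := Wz78.p1_of hv
  have p2 := Wz78.sp_of hv
  have el : (d.lin F (base W Φ)).app F (fun y => sc2 _ _ 2 1 (w y)) x =
      d.pE x (lin0 d F W Φ (fun y => sc2 _ _ 2 1 (w y)) x) :=
    op_cut _ C.sm_pC hs (fun y => (sm2_sc2 2 1 _ _ _).trans (congrArg _ (pw y))) x
  have e : (fun y => i1 _ _ (fa (sc2 _ _ 2 1 (w y))) + i2 _ _ ((2 : ℝ) • fp (sc2 _ _ 2 1 (w y)))) =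
      (2 : ℝ) • w := funext fun y => ext2 (by simp) (by simp)
  have e3 : ∀ A : Op M ι (Cf ι κ) (HS κ), A.app F ((2 : ℝ) • w) x = (2 : ℝ) • A.app F w x := fun A => by
    simp only [Op.app, Pre.op, F.D_smul hw, Pi.smul_apply, map_smul, ← Finset.smul_sum, ← smul_add]
  rw [eσ, el, e, e3]
  refine ext2 ?_ (ext2 ?_ ?_)
  · have e1 := C.full_row (hw x) pw fun y => (2 : ℝ) • Φ y
    have e2 : f2 _ _ ((d.full F (base W fun y => (2 : ℝ) • Φ y)).app F w x) =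
        ((d.d0 F (base W fun y => (2 : ℝ) • Φ y)).adj F).app F w x := by
      rw [Op.app, Bd.full, op_pair]; simp [Op.app]
    rw [map_add, Op78.app_sful, map_add, C.full_row (hw x) pw 0, f2_ps, Op78.f2_zs C.ok (pw x),
      C.ok.full_σ1, ← e2, e1]
    simp only [← rkL_apply, map_add, map_smul, Pi.zero_apply, map_zero, f2_sc2, p1, f2_i1, f2_i2,
      PiLp.smul_apply, _root_.smul_apply, ContinuousLinearMap.comp_apply, pj_apply]
    module
  · rw [map_add, map_add, Op78.sful_dir C hw pw, C.ok.full_σ2]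
    simp only [map_add, s2_i1, s2_i2, zero_add, f2_sc2, s2_sc2, map_sub, f2_kG C.ok, f2_ps, one_smul,
      Op78.f2_lin0 hs, sub_neg_eq_add, cl, PiLp.smul_apply, map_smul, _root_.smul_apply,
      Finset.smul_sum, map_zero, smul_zero, add_zero]
  · rw [map_add, map_add, Op78.sful_crv C hw pw, Bd.OK.full_σ3]
    simp only [map_add, s2_i1, s2_i2, zero_add, s2_sc2, s2_ps, f2_sc2, map_smul, map_sub, s2_kG,
      sub_neg_eq_add, map_zero, smul_zero, add_zero]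
    rw [smul_neg, sub_neg_eq_add, smul_smul]
    refine congrArg₂ (· + ·) ?_ (by norm_num)
    rw [← map_smul]
    refine congrArg _ (fm_ext fun t => ?_)
    simp only [PiLp.smul_apply, Op78.s2_lin0 C.P hs, dE, f2_sc2, s2_sc2, one_smul,
      Wz78.nab_csmul _ _ (s _ x), smul_comm _ (2 : ℝ), ← Finset.smul_sum]
    module

/-- derivative at `0` -/
abbrev HD {V : Type} [NormedAddCommGroup V] [InnerProductSpace ℝ V] (f : ℝ → V) (z : V) : Prop :=
  HasDerivAt f z 0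

theorem fix_of_der {V : Type} [NormedAddCommGroup V] [InnerProductSpace ℝ V] (p : V →L[ℝ] V)
    {f : ℝ → V} {z : V} (H : HD f z) (hp : ∀ ε, p (f ε) = f ε) : p z = z :=
  (p.hasFDerivAt.comp_hasDerivAt 0 H).unique (H.congr_of_eventuallyEq (Eventually.of_forall hp))

end gen

variable {E3 : Type} [NormedAddCommGroup E3] [NormedSpace ℝ E3] [FiniteDimensional ℝ E3]
  [MeasurableSpace E3] [BorelSpace E3]
  {H3 : Type} [TopologicalSpace H3] {I3 : ModelWithCorners ℝ E3 H3} [I3.Boundaryless]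
  {Y : Type} [TopologicalSpace Y] [ChartedSpace H3 Y] [IsManifold I3 ∞ Y] [T2Space Y]
  [MeasurableSpace Y] [BorelSpace Y] [SecondCountableTopology Y] [CompactSpace Y]
  {κ : Type} [Fintype κ] {lam : Type} [Fintype lam]
  {V W : Type} [NormedAddCommGroup V] [InnerProductSpace ℝ V] [FiniteDimensional ℝ V]
  [NormedAddCommGroup W] [InnerProductSpace ℝ W] [FiniteDimensional ℝ W]
  {N : ND Y lam} {D : YD I3 Y κ lam} {β : YC Y κ lam} {u v : Cz β}

theorem vr_zero : Vr D β 0 := ⟨Fl.zero, Tg.zero⟩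

theorem vr_add (hu : Vr D β u) (hv : Vr D β v) : Vr D β (u + v) := ⟨hu.fl.add hv.fl, hu.tg.add hv.tg⟩

theorem vr_sub (hu : Vr D β u) (hv : Vr D β v) : Vr D β (u - v) := ⟨hu.fl.sub hv.fl, hu.tg.sub hv.tg⟩

theorem vr_smul {f : Y × ℝ → ℝ} (hf : D.Z.Cb f) (hu : Vr D β u) : Vr D β fun x => f x • u x :=
  ⟨hu.fl.smul hf, hu.tg.smul f⟩

theorem vr_csmul (c : ℝ) (hu : Vr D β u) : Vr D β (c • u) := vr_smul (Cb_const c) hu

theorem tg_sc2 (a b : ℝ) (hu : Tg D.B (cy β) u) : Tg D.B (cy β) fun x => sc2 _ _ a b (u x) :=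
  fun x => (sm2_sc2 a b _ _ _).trans (congrArg _ (hu x))

theorem vr_sc2 (a b : ℝ) (hu : Vr D β u) : Vr D β fun x => sc2 _ _ a b (u x) :=
  ⟨hu.fl.clm _, tg_sc2 a b hu.tg⟩

theorem vr_vb (hD : D.OK) (hu : Vr D β u) : Vb D β u := ⟨hu.fl.cb (tame_Z hD).choose_spec, hu.tg⟩

namespace Tw
variable {f g : Cz β → Y × ℝ → V}

theorem smul (h : Tw D β f) (c : ℝ) (hu : Vr D β u) : d0 f (c • u) = c • d0 f u := funext fun x => by
  have h1 : HasDerivAt (fun ε : ℝ => f (ε • u) x) (d0 f u x) (0 * c) := by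
    rw [zero_mul]; exact h.der u hu x
  simpa [d0, Function.comp_def, smul_smul] using
    (h1.scomp (0 : ℝ) ((hasDerivAt_id' (0 : ℝ)).mul_const c)).deriv

theorem sub (h : Tw D β f) (hu : Vr D β u) (hv : Vr D β v) : d0 f (u - v) = d0 f u - d0 f v := by
  rw [eq_sub_iff_add_eq, ← h.add _ _ (vr_sub hu hv) hv, sub_add_cancel]

theorem app (h : Tw D β f) {L : Y × ℝ → V →L[ℝ] W} (hL : D.Z.Cb L) :
    Tw D β (fun u x => L x (f u x)) ∧
      ∀ u, Vr D β u → d0 (fun u x => L x (f u x)) u = fun x => L x (d0 f u x) := by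
  have e : ∀ u, Vr D β u → ∀ x, HasDerivAt (fun ε : ℝ => L x (f (ε • u) x)) (L x (d0 f u x)) 0 :=
    fun u hu x => (L x).hasFDerivAt.comp_hasDerivAt 0 (h.der u hu x)
  have e' : ∀ u, Vr D β u → d0 (fun u x => L x (f u x)) u = fun x => L x (d0 f u x) :=
    fun u hu => funext fun x => (e u hu x).deriv
  refine ⟨⟨fun u hu x => by rw [e' u hu]; exact e u hu x, fun u v hu hv => ?_, fun u hu => ⟨?_, ?_⟩,
    ?_⟩, e'⟩
  · rw [e' _ (vr_add hu hv), e' u hu, e' v hv, h.add u v hu hv]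
    exact funext fun x => map_add _ _ _
  · rw [e' u hu]; exact (h.fl u hu).1.app hL
  · exact (congrArg (Fl _) (funext fun x => map_sub (L x) (f u x) (f 0 x))).mp
      ((h.fl u hu).2.app hL)
  obtain ⟨d, hd, H⟩ := h.bd
  obtain ⟨A, hA⟩ := hL
  refine ⟨d, hd, fun k hk Dd => ?_⟩
  obtain ⟨C, hC, r, hr, H⟩ := H k hk Dd
  have c : 0 ≤ cK (Option κ) k * |A k| := mul_nonneg (cK_nonneg _) (abs_nonneg _)
  refine ⟨cK (Option κ) k * |A k| * C, mul_nonneg c hC, r, hr, fun ψ hψ u hu => ?_⟩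
  rw [e' u hu, mul_assoc _ C, mul_assoc _ C]
  refine ⟨(nw_app hψ hA.1 (hA.2 k) (h.fl u hu).1).trans (mul_le_mul_of_nonneg_left (H ψ hψ u hu).1 c),
    fun h1 => le_trans (le_of_eq ?_) ((nw_app hψ hA.1 (hA.2 k)
      ((h.fl u hu).2.sub (h.fl u hu).1)).trans (mul_le_mul_of_nonneg_left ((H ψ hψ u hu).2 h1) c))⟩
  exact congrArg _ (funext fun x => by simp only [Pi.sub_apply, map_sub])

theorem add' (hD : D.OK) (h : Tw D β f) (h' : Tw D β g) :
    Tw D β (f + g) ∧ ∀ u, Vr D β u → d0 (f + g) u = d0 f u + d0 g u := by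
  obtain ⟨_, hF⟩ := tame_Z hD
  have e : ∀ u, Vr D β u → ∀ x, HasDerivAt (fun ε : ℝ => (f + g) (ε • u) x) (d0 f u x + d0 g u x) 0 :=
    fun u hu x => (h.der u hu x).add (h'.der u hu x)
  have e' : ∀ u, Vr D β u → d0 (f + g) u = d0 f u + d0 g u :=
    fun u hu => funext fun x => (e u hu x).deriv
  refine ⟨⟨fun u hu x => by rw [e' u hu]; exact e u hu x, fun u v hu hv => ?_, fun u hu => ⟨?_, ?_⟩,
    ?_⟩, e'⟩
  · rw [e' _ (vr_add hu hv), e' u hu, e' v hv, h.add u v hu hv, h'.add u v hu hv]; abel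
  · rw [e' u hu]; exact (h.fl u hu).1.add (h'.fl u hu).1
  · rw [Pi.add_apply, Pi.add_apply, add_sub_add_comm]; exact (h.fl u hu).2.add (h'.fl u hu).2
  obtain ⟨d, hd, H⟩ := h.bd
  obtain ⟨d', hd', H'⟩ := h'.bd
  refine ⟨min d d', lt_min hd hd', fun k hk Dd => ?_⟩
  obtain ⟨C, hC, r, hr, H⟩ := H k hk Dd
  obtain ⟨C', hC', r', hr', H'⟩ := H' k hk Dd
  refine ⟨C + C', add_nonneg hC hC', min r r', lt_min hr hr', fun ψ hψ u hu => ?_⟩
  have h1 := H ψ (hψ.mono (min_le_left _ _)) u hu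
  have h2 := H' ψ (hψ.mono (min_le_right _ _)) u hu
  rw [e' u hu, add_mul, add_mul]
  refine ⟨(nw_add hF hψ (h.fl u hu).1 (h'.fl u hu).1 k).trans (add_le_add h1.1 h2.1), fun h3 => ?_⟩
  rw [Pi.add_apply, Pi.add_apply, add_sub_add_comm, add_sub_add_comm]
  exact (nw_add hF hψ ((h.fl u hu).2.sub (h.fl u hu).1) ((h'.fl u hu).2.sub (h'.fl u hu).1) k).trans
    (add_le_add (h1.2 (h3.trans (min_le_left _ _))) (h2.2 (h3.trans (min_le_right _ _))))

theorem add_sum (hD : D.OK) (h : Tw D β f) {J : Type*} {G : J → Cz β → Y × ℝ → V}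
    (hG : ∀ j, Tw D β (G j) ∧ ∀ u, Vr D β u → d0 (G j) u = 0) (c : J → ℝ) (s : Finset J) :
    Tw D β (fun u x => f u x + ∑ j ∈ s, c j • G j u x) ∧
      ∀ u, Vr D β u → d0 (fun u x => f u x + ∑ j ∈ s, c j • G j u x) u = d0 f u := by
  induction s using Finset.cons_induction with
  | empty => simpa using h
  | cons a s ha ih =>
    have h1 := (hG a).1.app (L := fun _ => c a • ContinuousLinearMap.id ℝ V) (Cb_const _)
    have h2 := ih.1.add' hD h1.1
    have e : (fun u x => f u x + ∑ j ∈ Finset.cons a s ha, c j • G j u x) =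
        (fun u x => f u x + ∑ j ∈ s, c j • G j u x) +
          fun u x => (c a • ContinuousLinearMap.id ℝ V) (G a u x) := by
      funext u x; simp [Finset.sum_cons]; abel
    rw [e]
    refine ⟨h2.1, fun u hu => ?_⟩
    rw [h2.2 u hu, ih.2 u hu, h1.2 u hu, (hG a).2 u hu]
    funext x; simp

end Tw

theorem pC_gz (h : Hz N D β) (a : Cz β) : Tg D.B (cy β) (gz N D β a) := fun x =>
  (bs_cyl h.ok h.adm).ok.prjC.idem x _

theorem cb_kE (h : Hz N D β) : D.Z.Cb (kE D β) :=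
  have b := bs_cyl h.ok h.adm
  Cb_neg (Cb_comp (Cb_const _) (Cb_comp b.cb_pE (Cb_comp
    (Bd.In.σ (F := fun _ => D.G.F) b.inK none () trivial) b.cb_pC)))

/-- the perturbation `q1` in terms of the gradient -/
theorem te_q1 (h : Hz N D β) (a : Cz β) (x : Y × ℝ) :
    te (N.q1 (n := 0) D.nk) (cy β) a x = kE D β x (gz N D β a x) := by
  have e : ∀ b, D.G.F.D b (N.dg (r := 0) D.nk).τ x = D.B.P b none x := fun b => by
    rw [show (N.dg (r := 0) D.nk).τ = fun x => id x.2 from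
      funext fun _ => by simp [ND.dg, Nk.τ, YD.nk, tf]]
    cases b with
    | none => exact (congrFun (D_none_snd D.F.toPre contDiff_id) x).trans (deriv_id _)
    | some b => exact congrFun (D_some_snd D.F.toPre contDiff_id b) x
  refine Eq.trans ?_ (kE_alg (bs_cyl h.ok h.adm).ok none _ _).symm
  simp only [te, ND.q1, Dgr80.DG.q1, e, Fintype.sum_option]
  simp only [YD.B, cP, one_smul, zero_smul, Finset.sum_const_zero, add_zero]
  rfl

/-- the linearisation of the perturbation -/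
def KE (N : ND Y lam) (D : YD I3 Y κ lam) (β : YC Y κ lam) (u : Cz β) (x : Y × ℝ) : Ev (cy β) :=
  kE D β x (hz N D β u x)

/-- the `dt`-row of the Hessian -/
def KT (N : ND Y lam) (D : YD I3 Y κ lam) (β : YC Y κ lam) (u : Cz β) (x : Y × ℝ) : (cy β).m.A :=
  ((4 : ℝ) • (pj _ none ∘L fa)) (hz N D β u x)

theorem Kp.tw_pt (h : Kp N D β) (q : YW I3 Y →₀ ℝ) :
    Tw D β (te (N.pt (n := 0) D.nk q) (cy β)) ∧
      ∀ u, Vr D β u → d0 (te (N.pt (n := 0) D.nk q) (cy β)) u = KE N D β u := by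
  have h1 := h.tw.app (cb_kE h.toHz)
  have h2 := h1.1.add_sum h.ok (fun T => ⟨(h.q2 T).1, (h.q2 T).2.1⟩) q q.support
  have e : te (N.pt (n := 0) D.nk q) (cy β) = fun u x => kE D β x (gz N D β u x) +
      ∑ T ∈ q.support, q T • te (N.q2 (n := 0) D.nk T.1) (cy β) u x := by
    funext u x
    rw [← te_q1 h.toHz]
    exact i_sum _ _ _ _ _ _
  rw [e]
  exact ⟨h2.1, fun u hu => (h2.2 u hu).trans (h1.2 u hu)⟩

theorem tg_of_der (h : Hz N D β) {x : Y × ℝ} {z : Cv (cy β)}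
    (H : HD (fun ε : ℝ => gz N D β (ε • u) x) z) : (mbd D.B (cy β).m).pC x z = z :=
  fix_of_der _ H fun _ => pC_gz h _ x

theorem Kp.vr_hz (h : Kp N D β) (hu : Vr D β u) : Vr D β (hz N D β u) :=
  ⟨(h.tw.fl u hu).1, fun x => tg_of_der h.toHz (h.tw.der u hu x)⟩

variable (D β) in
/-- the symmetric operator on the cylinder -/
def SZ : Op (Y × ℝ) (Option κ) (Cv (cy β)) (P2 (cy β).m.A (Ev (cy β))) :=
  sful (mbd D.B (cy β).m) D.Z (cy β).W (cy β).Φ

theorem SZ_eq : SZ D β = Op78.sz D β := rfl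

theorem cp_m (hD : D.OK) (A : D.Adm β) : Cp (mbd D.B (cy β).m) D.Z D.Z.Gam (cy β).W :=
  Op78.cp_bz hD A

/-- **the symmetric form of the linearised equations** -/
theorem sz_id (hD : D.OK) (A : D.Adm β) {w : Cz β} (hw : Sm (IC I3) w) (tw : Tg D.B (cy β) w)
    {x : Y × ℝ} {z : Cv (cy β)} (hz : (mbd D.B (cy β).m).pC x z = z) :
    (SZ D β).app D.Z w x + (SZ D β).σ none x (sc2 _ _ 2 1 z) =
      i1 _ _ ((1 / 2 : ℝ) • (sig D.B D.Z (cy β) 2 (fun y => sc2 _ _ 2 1 (w y)) x +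
        ((4 : ℝ) • (pj _ none ∘L fa)) z)) +
      i2 _ _ (sc2 _ _ 1 (1 / 2) (lin D.B D.Z (cy β) (fun y => sc2 _ _ 2 1 (w y)) x - kE D β x z)) :=
  sful_id (cp_m hD A) hw tw none hz

theorem wd_zero {d : ℝ} (hd : 0 ≤ d) : Wd D.Z.toPre (fun x : Y × ℝ => (0 : ℝ → ℝ) x.2) d 0 :=
  have e : ∀ a, D.Z.D a (fun x : Y × ℝ => (0 : ℝ → ℝ) x.2) = fun _ => (0 : ℝ) := fun _ =>
    dv_const (0 : ℝ)
  ⟨contMDiff_const, fun _ => le_rfl, ⟨0, fun _ => le_rfl⟩, fun a x => by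
    rw [e]; simpa using hd, fun a => by
    rw [e]; exact ⟨contMDiff_const, fun k => by simpa using CB_const k (0 : ℝ)⟩⟩

theorem nw_zero (k : ℕ) (f : Y × ℝ → V) :
    nw D.Z.toPre k (fun x : Y × ℝ => (0 : ℝ → ℝ) x.2) f = D.Z.nrm k f := by simp [nw]

/-- the weighted `L²` bound for the Hessian -/
theorem Kp.l2 (h : Kp N D β) : ∃ d > 0, ∃ C ≥ 0, ∀ ψ : ℝ → ℝ, Neck67.Sm ψ → (∀ t, |deriv ψ t| ≤ d) →
    ∀ u, Vr D β u → nw D.Z.toPre 0 (fun x => ψ x.2) (hz N D β u) ≤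
      C * nw D.Z.toPre 0 (fun x => ψ x.2) u := by
  obtain ⟨_, hF⟩ := tame_Z h.ok
  obtain ⟨d, hd, C, hC, H⟩ := h.lip
  obtain ⟨d', hd', H'⟩ := h.tw.bd
  obtain ⟨C', hC', r, hr, H'⟩ := H' 8 le_rfl 0
  refine ⟨d, hd, C, hC, fun ψ hψ hb u hu => ?_⟩
  have cb : D.Z.Cb fun x => exp (ψ x.2) := cb_snd hψ.exp
  obtain ⟨A, hA⟩ := cb
  have key : ∀ ε : ℝ, 0 < ε → ε * D.Z.nrm 9 u ≤ r → nw D.Z.toPre 0 (fun x => ψ x.2) (hz N D β u) ≤
      C * nw D.Z.toPre 0 (fun x => ψ x.2) u +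
        ε * (cK (Option κ) 0 * |A 0| * C' * D.Z.nrm 9 u ^ 2) := fun ε hε h1 => by
    have v := vr_csmul ε hu
    have f := h.tw.fl _ v
    have s : ∀ (c : ℝ) {f : Cz β}, Fl D.Z.toPre f → nw D.Z.toPre 0 (fun x => ψ x.2) (c • f) =
        |c| * nw D.Z.toPre 0 (fun x => ψ x.2) f := fun c f hf => by
      simp only [nw, Pi.smul_apply, smul_comm _ c]; exact nrm_csmul hF c (hf.smul ⟨A, hA⟩) 0
    have h2 := (H' 0 (wd_zero hd'.le) _ v).2
    rw [nw_zero, nw_zero, nrm_csmul hF ε hu.fl, abs_of_pos hε] at h2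
    have h3 := (nrm_smul hA.1 (f.2.sub f.1).sm (hA.2 0) ((f.2.sub f.1).fl 0)).trans
      (mul_le_mul_of_nonneg_left ((nrm_mono (by omega) _).trans (h2 h1))
        (mul_nonneg (cK_nonneg _) (abs_nonneg _)))
    have h4 := H ψ hψ hb _ v
    have h5 := Hm83.nrm_add hF (f.2.smul ⟨A, hA⟩) (((f.2.sub f.1).smul ⟨A, hA⟩).csmul (-1)) 0
    rw [nrm_csmul hF _ ((f.2.sub f.1).smul ⟨A, hA⟩)] at h5
    have h6 := s ε (h.tw.fl u hu).1
    rw [← h.tw.smul ε hu, abs_of_pos hε] at h6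
    rw [s ε hu.fl, abs_of_pos hε] at h4
    have e : ((fun x => exp (ψ x.2) • (gz N D β (ε • u) - gz N D β 0) x) + (-1 : ℝ) • fun x =>
        exp (ψ x.2) • (gz N D β (ε • u) - gz N D β 0 - d0 (gz N D β) (ε • u)) x) =
        fun x => exp (ψ x.2) • d0 (gz N D β) (ε • u) x := by
      funext x; simp only [Pi.add_apply, Pi.smul_apply, Pi.sub_apply]; module
    rw [e] at h5
    refine le_of_mul_le_mul_left ?_ hε
    simp only [nw, hz, abs_neg, abs_one] at h4 h6 h5 ⊢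
    nlinarith
  refine le_of_forall_pos_le_add fun η hη => ?_
  have t : ∀ c : ℝ, Tendsto (fun ε : ℝ => ε * c) (𝓝[>] 0) (𝓝 0) := fun c =>
    tendsto_nhdsWithin_of_tendsto_nhds (by simpa using (continuous_mul_const c).tendsto 0)
  obtain ⟨ε, h1, h2, h3⟩ := (((t _).eventually_le_const hr).and
    (((t _).eventually_le_const hη).and self_mem_nhdsWithin)).exists
  exact (key ε h3 h1).trans (add_le_add_right h2 _)

end Crest.Agent.X212.Cyf70
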