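import Crest.Agent.X212.Cyf70.Nl
import Crest.Agent.X212.Cyf70.Flip

/-!
# Row 212, CYLF (helper70): weights; invertibility and index for non-local cylinder operators
-/

set_option autoImplicit false
set_option linter.unusedSectionVars false
open Function Filter Topology Module Set MeasureTheory
open scoped RealInnerProductSpace BoundedContinuousFunction ContDiff

noncomputable section
namespace Crest.Agent.X212.Cyf70
open Neck67 (Sm Bd ex up dn cS)
open Dec35 Rf65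
open Fred93 (Fr)

/-! ### conjugation by unbounded weights -/

/-- `1` on `[-n, n]`, `0` off `[-n - 1, n + 1]` -/
def cu (n : ℝ) : ℝ → ℝ := up (-n - 1) 1 * dn (n + 1) 1

theorem sm_cu (n : ℝ) : Sm (cu n) := (Neck67.sm_up le_rfl _).mul (Neck67.sm_dn le_rfl _)

theorem cu_one {n t : ℝ} (h : |t| ≤ n) : cu n t = 1 := by
  have := abs_le.1 h
  simp [cu, Neck67.up_one (p := -n - 1) (t := t) one_pos (by linarith),
    Neck67.dn_one (q := n + 1) (t := t) one_pos (by linarith)]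

theorem cu_zero {n t : ℝ} (h : n + 1 ≤ |t|) : cu n t = 0 := by
  rcases le_abs.1 h with h | h
  · simp [cu, Neck67.dn_zero one_pos h]
  · simp [cu, Neck67.up_zero (p := -n - 1) (t := t) one_pos (by linarith)]

theorem abs_cu (n t : ℝ) : |cu n t| ≤ 1 := by
  have h1 := Neck67.up_mem (-n - 1) 1 t
  have h2 := Neck67.dn_mem (n + 1) 1 t
  exact (abs_of_nonneg (mul_nonneg h1.1 h2.1)).trans_le (mul_le_one₀ h1.2 h2.1 h2.2)

theorem hcs_cu (n : ℝ) : HasCompactSupport (cu n) :=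
  HasCompactSupport.intro (isCompact_closedBall (0 : ℝ) (n + 1)) fun t ht =>
    cu_zero (le_of_lt (by simpa using ht))

theorem exists_trunc {ψ : ℝ → ℝ} (hψ : ContDiff ℝ ∞ ψ) {δ : ℝ} (bψ : Bd 0 (deriv ψ) δ) (n : ℝ) :
    ∃ φ, Sm φ ∧ Bd 0 (deriv φ) δ ∧ ∀ t, |t| ≤ n → φ t = ψ t := by
  let f := cu n * deriv ψ
  have sf : ContDiff ℝ ∞ f := (sm_cu n).cd.mul (Neck67.cd_deriv hψ)
  have cf : HasCompactSupport f := (hcs_cu n).mul_right
  let φ : ℝ → ℝ := fun t => ψ 0 + ∫ s in (0 : ℝ)..t, f s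
  have hd : ∀ t, HasDerivAt φ (f t) t := fun t =>
    (sf.continuous.integral_hasStrictDerivAt 0 t).hasDerivAt.const_add _
  have e : deriv φ = f := funext fun t => (hd t).deriv
  refine ⟨φ, Neck67.Sm.of_deriv_cpt (contDiff_infty_iff_deriv.2 ⟨fun t => (hd t).differentiableAt,
    e ▸ sf⟩) (M := |ψ 0| + ∫ s, ‖f s‖) (fun t => (abs_add_le _ _).trans (add_le_add le_rfl ?_))
    (e ▸ cf), fun t => ?_, fun t ht => ?_⟩
  · exact intervalIntegral.norm_integral_le_integral_norm_uIoc.trans (setIntegral_le_integral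
      (sf.continuous.integrable_of_hasCompactSupport cf).norm (ae_of_all _ fun _ => norm_nonneg _))
  · rw [e]
    change |cu n t * deriv ψ t| ≤ δ
    rw [abs_mul]
    exact (mul_le_mul (abs_cu n t) (bψ t) (abs_nonneg _) zero_le_one).trans_eq (one_mul _)
  · have : ∫ s in (0 : ℝ)..t, f s = ∫ s in (0 : ℝ)..t, deriv ψ s :=
      intervalIntegral.integral_congr fun s hs => by
        have : |s| ≤ |t| := by simpa using abs_sub_left_of_mem_uIcc hs
        simp [f, cu_one (this.trans ht)]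
    simp only [φ, this]
    rw [intervalIntegral.integral_deriv_eq_sub (fun s _ => Neck67.cd_diff hψ s)
      ((Neck67.cd_deriv hψ).continuous.intervalIntegrable _ _), add_sub_cancel]

section mu
variable {A : Type*} [NormedAddCommGroup A] [InnerProductSpace ℝ A] (M : Mu A)
  {K K' K'' : A →L[ℝ] A} {ψ ψ' : ℝ → ℝ} {d C δ : ℝ}

theorem mu_ind {p : A → A → Prop} (hc : IsClosed {z : A × A | p z.1 z.2})
    (h : ∀ (n : ℝ) x y, p (M.m (cu n) x) (M.m (cu n) y)) (x y : A) : p x y := by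
  refine Dense.induction (P := fun z : A × A => p z.1 z.2) (M.loc.prod M.loc) ?_ hc (x, y)
  rintro ⟨x, y⟩ ⟨⟨n, hn⟩, m, hm⟩
  have e : ∀ {z : A} {l : ℕ}, l ≤ n + m → (∀ b, Sm b → (∀ t : ℝ, |t| ≤ l → b t = 0) → M.m b z = 0) →
      M.m (cu (n + m : ℕ)) z = z := fun {z l} hl hz => by
    have := hz _ (Neck67.Sm.one.sub (sm_cu (n + m : ℕ))) fun t ht => by
      rw [Pi.sub_apply, cu_one (ht.trans (by exact_mod_cast hl))]; simp
    rw [M.sub Neck67.Sm.one (sm_cu _), M.one] at this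
    exact (sub_eq_zero.1 this).symm
  have := h (n + m : ℕ) x y
  rwa [e (by omega) hn, e (by omega) hm] at this

/-- `K' = e^ψ K e^(-ψ)` -/
def Cj (ψ : ℝ → ℝ) (K K' : A →L[ℝ] A) : Prop :=
  ∀ b c, Sm b → Sm c → HasCompactSupport b → HasCompactSupport c →
    M.m b * K' * M.m c = M.m (b * ex ψ) * K * M.m (ex (-ψ) * c)

variable {M}

theorem cj_sm (hψ : Sm ψ) : Cj M ψ K (M.m (ex ψ) * K * M.m (ex (-ψ))) := fun b c hb hc _ _ => by
  rw [M.mul hb hψ.ex, M.mul hψ.neg.ex hc]; simp only [mul_assoc]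

theorem Cj.inner (h : Cj M ψ K K') {φ : ℝ → ℝ} (hφ : Sm φ) {n : ℝ}
    (e : ∀ t, |t| ≤ n + 1 → φ t = ψ t) (x y : A) : ⟪K' (M.m (cu n) x), M.m (cu n) y⟫ =
      ⟪(M.m (ex φ) * K * M.m (ex (-φ))) (M.m (cu n) x), M.m (cu n) y⟫ := by
  have e1 : ∀ {a a' : ℝ → ℝ}, (∀ t, |t| ≤ n + 1 → a t = a' t) → cu n * ex a = cu n * ex a' :=
    fun h => funext fun t => by
      rcases le_total |t| (n + 1) with ht | ht
      · simp [ex, h t ht]
      · simp [cu_zero ht]
  have h1 := h _ _ (sm_cu n) (sm_cu n) (hcs_cu n) (hcs_cu n)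
  rw [← e1 e, mul_comm (ex (-ψ)), ← e1 (a := -φ) (a' := -ψ) (fun t ht => by simp [e t ht]),
    mul_comm _ (ex (-φ)), ← cj_sm hφ _ _ (sm_cu n) (sm_cu n) (hcs_cu n) (hcs_cu n)] at h1
  rw [← M.sym (sm_cu n), ← M.sym (sm_cu n)]
  exact congrArg (fun B : A →L[ℝ] A => ⟪B x, y⟫) h1

theorem norm_le_of_inner {B : A →L[ℝ] A} {c : ℝ} (hc : 0 ≤ c) (h : ∀ x y, ⟪B x, y⟫ ≤ c * ‖x‖ * ‖y‖) :
    ‖B‖ ≤ c := B.opNorm_le_bound hc fun x => le_of_inner (h x)

theorem Cj.norm_le (h : Cj M ψ K K') (hK : M.KW K d C) (hψ : ContDiff ℝ ∞ ψ)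
    (bψ : Bd 0 (deriv ψ) d) : ‖K'‖ ≤ C := by
  refine norm_le_of_inner (le_trans (norm_nonneg K) (hK.norm_le bψ.nonneg))
    (mu_ind M (isClosed_le (by fun_prop) (by fun_prop)) fun n x y => ?_)
  obtain ⟨φ, h1, h2, h3⟩ := exists_trunc hψ bψ (n + 1)
  rw [h.inner h1 h3]
  exact (real_inner_le_norm _ _).trans (mul_le_mul_of_nonneg_right
    (ContinuousLinearMap.le_of_opNorm_le _ (hK φ h1 h2) _) (norm_nonneg _))

theorem Cj.kw (h : Cj M ψ K K') (hK : M.KW K d C) (hψ : ContDiff ℝ ∞ ψ)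
    (bψ : Bd 0 (deriv ψ) (d / 2)) : M.KW K' (d / 2) C := fun φ hφ bφ => by
  refine Cj.norm_le (ψ := φ + ψ) (fun b c hb hc cb cc => ?_) hK (hφ.cd.add hψ) ?_
  · have := h _ _ (hb.mul hφ.ex) (hφ.neg.ex.mul hc) cb.mul_right cc.mul_left
    rw [M.mul hb hφ.ex, M.mul hφ.neg.ex hc] at this
    rw [show b * ex (φ + ψ) = b * ex φ * ex ψ by ext t; simp [ex, Real.exp_add, mul_assoc],
      show ex (-(φ + ψ)) * c = ex (-ψ) * (ex (-φ) * c) by ext t; simp [ex, Real.exp_add, mul_assoc],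
      ← this]
    simp only [mul_assoc]
  · rw [show deriv (φ + ψ) = deriv φ + deriv ψ from
      funext fun t => deriv_add (hφ.diff t) (Neck67.cd_diff hψ t)]
    exact fun t => (abs_add_le _ _).trans (by linarith [bφ t, bψ t])

theorem Cj.norm_sub (h : Cj M ψ K K') (hK : M.KW K d C) (hd : 0 < d) (hψ : ContDiff ℝ ∞ ψ)
    (bψ : Bd 0 (deriv ψ) δ) (hδ : δ ≤ d / cS 0 / 4) : ‖K' - K‖ ≤ 2 * δ * cR d C := by
  refine norm_le_of_inner (by have := hK.cR_nonneg hd; have := bψ.nonneg; positivity)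
    (mu_ind M (isClosed_le (by fun_prop) (by fun_prop)) fun n x y => ?_)
  obtain ⟨φ, h1, h2, h3⟩ := exists_trunc hψ bψ (n + 1)
  rw [sub_apply, inner_sub_left, h.inner h1 h3, ← inner_sub_left]
  exact (real_inner_le_norm _ _).trans (mul_le_mul_of_nonneg_right
    (ContinuousLinearMap.le_of_opNorm_le _ (hK.norm_cj hd h1 h2 hδ) _) (norm_nonneg _))

theorem Cj.inner_sub (h : Cj M ψ K K') (hK : M.KW K d C) (hd : 0 < d)
    (Ks : ∀ u v, ⟪K u, v⟫ = ⟪u, K v⟫) (hψ : ContDiff ℝ ∞ ψ) (bψ : Bd 0 (deriv ψ) δ)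
    (hδ : δ ≤ d / cS 0 / 4) (x : A) : |⟪(K' - K) x, x⟫| ≤ 2 * cR d C * δ ^ 2 * ‖x‖ ^ 2 := by
  refine mu_ind M (p := fun x _ => |⟪(K' - K) x, x⟫| ≤ 2 * cR d C * δ ^ 2 * ‖x‖ ^ 2)
    (isClosed_le (by fun_prop) (by fun_prop)) (fun n x _ => ?_) x x
  obtain ⟨φ, h1, h2, h3⟩ := exists_trunc hψ bψ (n + 1)
  have := hK.inner_cj hd Ks h1 h2 hδ Neck67.Sm.one (ε := 0)
    (fun t => by rw [show (1 : ℝ → ℝ) = fun _ => 1 from rfl]; simp) (fun t => by simp)
    (M.m (cu n) x)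
  rw [M.one] at this
  rw [sub_apply, inner_sub_left, h.inner h1 h3, ← inner_sub_left]
  exact this.trans_eq (by ring)

/-- the conjugates only depend on the weight over the supports -/
theorem Cj.eq_on (h : Cj M ψ K K') (h' : Cj M ψ' K K'') {b c : ℝ → ℝ} (hb : Sm b) (hc : Sm c)
    (e : ∀ t, b t ≠ 0 ∨ c t ≠ 0 → ψ t = ψ' t) : M.m b * K' * M.m c = M.m b * K'' * M.m c := by
  refine ContinuousLinearMap.ext fun x => ext_inner_right ℝ fun y => ?_
  refine mu_ind M (p := fun x y => ⟪(M.m b * K' * M.m c) x, y⟫ = ⟪(M.m b * K'' * M.m c) x, y⟫)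
    (isClosed_eq (by fun_prop) (by fun_prop)) (fun n x y => ?_) x y
  have h1 := h _ _ ((sm_cu n).mul hb) (hc.mul (sm_cu n)) (hcs_cu n).mul_right (hcs_cu n).mul_left
  rw [show cu n * b * ex ψ = cu n * b * ex ψ' from funext fun t => by
      by_cases h0 : b t = 0
      · simp [h0]
      · simp [ex, e t (.inl h0)],
    show ex (-ψ) * (c * cu n) = ex (-ψ') * (c * cu n) from funext fun t => by
      by_cases h0 : c t = 0
      · simp [h0]
      · simp [ex, e t (.inr h0)],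
    ← h' _ _ ((sm_cu n).mul hb) (hc.mul (sm_cu n)) (hcs_cu n).mul_right (hcs_cu n).mul_left,
    M.mul (sm_cu n) hb, M.mul hc (sm_cu n)] at h1
  rw [← M.sym (sm_cu n), ← M.sym (sm_cu n)]
  exact congrArg (fun B : A →L[ℝ] A => ⟪B x, y⟫) h1

theorem exists_cj [CompleteSpace A] (hK : M.KW K d C) (hψ : ContDiff ℝ ∞ ψ)
    (bψ : Bd 0 (deriv ψ) d) : ∃ K', Cj M ψ K K' := by
  choose φ h1 h2 h3 using fun n : ℕ => exists_trunc hψ bψ n
  let B : ℕ → A →L[ℝ] A := fun n => M.m (ex (φ n)) * K * M.m (ex (-φ n))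
  have hb : ∀ n x y, |⟪B n x, y⟫| ≤ C * ‖x‖ * ‖y‖ := fun n x y =>
    (abs_real_inner_le_norm _ _).trans (mul_le_mul_of_nonneg_right
      (ContinuousLinearMap.le_of_opNorm_le _ (hK _ (h1 n) (h2 n)) _) (norm_nonneg _))
  have ex : ∀ x y, ∃ a, Tendsto (fun n => ⟪B n x, y⟫) (hyperfilter ℕ) (𝓝 a) := fun x y =>
    let ⟨a, _, ha⟩ := isCompact_Icc.ultrafilter_le_nhds
      ((hyperfilter ℕ).map fun n => ⟪B n x, y⟫) (le_principal_iff.2 (mem_map.2
        (univ_mem' fun n => abs_le.1 (hb n x y))))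
    ⟨a, ha⟩
  choose β hβ using ex
  let β' : A →L[ℝ] A →L[ℝ] ℝ := LinearMap.mkContinuous₂ (LinearMap.mk₂ ℝ β
    (fun x x' y => tendsto_nhds_unique (hβ _ _) (by
      simpa only [map_add, inner_add_left] using (hβ x y).add (hβ x' y)))
    (fun c x y => tendsto_nhds_unique (hβ _ _) (by
      simpa only [map_smul, real_inner_smul_left, smul_eq_mul] using (hβ x y).const_mul c))
    (fun x y y' => tendsto_nhds_unique (hβ _ _) (by
      simpa only [inner_add_right] using (hβ x y).add (hβ x y')))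
    (fun c x y => tendsto_nhds_unique (hβ _ _) (by
      simpa only [real_inner_smul_right, smul_eq_mul] using (hβ x y).const_mul c))) C
    fun x y => le_of_tendsto' (hβ x y).norm fun n => hb n x y
  refine ⟨InnerProductSpace.continuousLinearMapOfBilin (𝕜 := ℝ) β', fun b c sb sc cb cc =>
    ContinuousLinearMap.ext fun x => ext_inner_right ℝ fun y => ?_⟩
  obtain ⟨r, hr⟩ := (cb.isCompact.union cc.isCompact).isBounded.subset_closedBall 0
  have hz : ∀ {a : ℝ → ℝ} {t}, tsupport a ⊆ tsupport b ∪ tsupport c → r < |t| → a t = 0 :=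
    fun h ht => image_eq_zero_of_notMem_tsupport fun h0 => ht.not_ge (by simpa using hr (h h0))
  rw [mul_apply_eq_comp, mul_apply_eq_comp, M.sym sb,
    InnerProductSpace.continuousLinearMapOfBilin_apply]
  refine tendsto_nhds_unique (hβ _ _) (tendsto_const_nhds.congr' ?_)
  filter_upwards [Nat.hyperfilter_le_atTop (eventually_ge_atTop ⌈r⌉₊)] with n hn
  have hn' : r ≤ n := (Nat.le_ceil r).trans (by exact_mod_cast hn)
  rw [← M.sym sb]
  refine congrArg (fun B : A →L[ℝ] A => ⟪B x, y⟫) (Eq.trans ?_ (cj_sm (h1 n) b c sb sc cb cc).symm)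
  rw [show b * Neck67.ex ψ = b * Neck67.ex (φ n) from funext fun t => by
      rcases le_or_gt |t| r with ht | ht
      · simp [Neck67.ex, h3 n t (ht.trans hn')]
      · simp [hz subset_union_left ht],
    show Neck67.ex (-ψ) * c = Neck67.ex (-φ n) * c from funext fun t => by
      rcases le_or_gt |t| r with ht | ht
      · simp [Neck67.ex, h3 n t (ht.trans hn')]
      · simp [hz subset_union_right ht]]

end mu

end Crest.Agent.X212.Cyf70
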