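import Crest.Agent.X212.Cyf70.Kq
import Crest.Agent.X212.Cyf70.Nw

/-!
# Row 212, CYLF (helper70): the Hessian as an operator on Sobolev spaces of the cylinder
-/

set_option autoImplicit false
set_option linter.unusedSectionVars false
set_option linter.unusedSimpArgs false
noncomputable section
open scoped Manifold ContDiff Topology InnerProductSpace
open MeasureTheory Set Function Filter Real

namespace Crest.Agent.X212.Cyf70
open An An.Pre Map77 Sob92 Nd18 Dec35 Rf65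

section gen
variable {E : Type} [NormedAddCommGroup E] [NormedSpace ℝ E] [FiniteDimensional ℝ E]
  [MeasurableSpace E] [BorelSpace E]
  {HM : Type} [TopologicalSpace HM] {I : ModelWithCorners ℝ E HM} [I.Boundaryless]
  {M : Type} [TopologicalSpace M] [ChartedSpace HM M] [IsManifold I ∞ M] [MeasurableSpace M]
  [T2Space M] [BorelSpace M] [SecondCountableTopology M] {ι : Type} [Fintype ι]
  {V W : Type} [NormedAddCommGroup V] [InnerProductSpace ℝ V] [FiniteDimensional ℝ V]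
  [NormedAddCommGroup W] [InnerProductSpace ℝ W] [FiniteDimensional ℝ W]

/-- a bounded linear map of smooth functions in all Sobolev spaces extends -/
theorem exists_flop {F : Fr I M ι} {C : ℕ → ℝ} (hF : F.Tame C) {p : M → V →L[ℝ] V}
    {q : M → W →L[ℝ] W} {T : (M → V) → M → W} {k j : ℕ} {c : ℝ} (hc : 0 ≤ c)
    (h1 : ∀ u, Fl F.toPre u → (∀ x, p x (u x) = u x) → Fl F.toPre (T u) ∧
      (∀ x, q x (T u x) = T u x) ∧ F.nrm j (T u) ≤ c * F.nrm k u)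
    (h2 : ∀ u v, Fl F.toPre u → (∀ x, p x (u x) = u x) → Fl F.toPre v → (∀ x, p x (v x) = v x) →
      T (u + v) = T u + T v)
    (h3 : ∀ (a : ℝ) u, Fl F.toPre u → (∀ x, p x (u x) = u x) → T (a • u) = a • T u) :
    ∃ K : F.H k p →L[ℝ] F.H j q, ∀ u h, Fl F.toPre u → (∀ x, p x (u x) = u x) →
      Is F.toPre k p h u → Is F.toPre j q (K h) (T u) := by
  have := FiniteDimensional.complete ℝ V
  have := FiniteDimensional.complete ℝ W
  have ex : ∀ u, Fl F.toPre u → (∀ x, p x (u x) = u x) → ∃ g, Is F.toPre j q g (T u) :=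
    fun u hu pu => exists_Is hF.exh (h1 u hu pu).1.sm ((h1 u hu pu).1.fl j) (h1 u hu pu).2.1
  have fs : ∀ s : Sec I p, Fl F.toPre s.1 := fun s => .of_hcs s.2.1 s.2.2.1
  choose g hg using fun s : Sec I p => ex s.1 (fs s) s.2.2.2
  let L : Sec I p →ₗ[ℝ] F.H j q :=
    ⟨⟨g, fun s t => (hg _).unique (by
      rw [Submodule.coe_add, h2 _ _ (fs s) s.2.2.2 (fs t) t.2.2.2]; exact (hg s).add (hg t))⟩,
      fun a s => (hg _).unique (by
        rw [Submodule.coe_smul, h3 _ _ (fs s) s.2.2.2]; exact (hg s).smul a)⟩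
  obtain ⟨K, hK, -⟩ := exists_ext (F := F.toPre) (k := k) L hc fun s =>
    ((hg s).norm (h1 _ (fs s) s.2.2.2).1.sm).trans_le (h1 _ (fs s) s.2.2.2).2.2
  refine ⟨K, fun u h hu pu H => ?_⟩
  obtain ⟨G, hG⟩ := ex u hu pu
  suffices e : ∀ x, ‖K x - G‖ ≤ c * ‖x - h‖ by
    have := e h
    rw [sub_self, norm_zero, mul_zero, norm_le_zero_iff, sub_eq_zero] at this
    rwa [this]
  intro x
  induction x using H_ind with
  | hP => exact isClosed_le (by fun_prop) (by fun_prop)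
  | h s =>
    have ps : ∀ x, p x ((s.1 - u) x) = (s.1 - u) x := fun x => by
      rw [Pi.sub_apply, map_sub, s.2.2.2, pu]
    have e : T (s.1 - u) = T s.1 - T u := by
      rw [eq_sub_iff_add_eq, ← h2 _ _ ((fs s).sub hu) ps hu pu, sub_add_cancel]
    have k := h1 _ ((fs s).sub hu) ps
    rw [hK, ((Is.toH s).sub H).norm ((fs s).sub hu).sm]
    exact (((hg s).sub hG).norm (e ▸ k.1.sm)).trans_le (e ▸ k.2.2)

variable [CompactSpace M] {F : Fr I M ι} {p : M → V →L[ℝ] V} {k : ℕ}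

/-- translation of sections -/
def shf (r : ℝ) (u : Sec (IC I) (pc p)) : Sec (IC I) (pc p) :=
  ⟨fun z => u.1 (z.1, z.2 + r), u.2.1.comp (contMDiff_fst.prodMk (contMDiff_snd.add contMDiff_const)),
    u.2.2.1.comp_homeomorph ((Homeomorph.refl M).prodCongr (Homeomorph.addRight r)),
    fun z => u.2.2.2 (z.1, z.2 + r)⟩

theorem tr_Ψ (r : ℝ) (u : Sec (IC I) (pc p)) : tr _ r (Ψ F.toPre k p ((cylP F.toPre).toH k _ u)) =
    Ψ F.toPre k p ((cylP F.toPre).toH k _ (shf r u)) :=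
  R.ext' ((R_Ψ u).tr r) (R_Ψ _) fun _ => rfl

theorem cb_snd' {b : ℝ → ℝ} (hb : Neck67.Sm b) : (cylP F.toPre).Cb fun z => b z.2 :=
  cb_snd (D := (⟨F, 0, 0, 0, 0⟩ : YD I M ι Unit)) hb

theorem m_Ψ {b : ℝ → ℝ} (hb : Neck67.Sm b) (x : (cylP F.toPre).H k (pc p)) :
    mt _ (bc b) (Ψ F.toPre k p x) =
      Ψ F.toPre k p (smulH (cylP F.toPre) k (pc p) (fun z => b z.2) x) := by
  have e : (fun z : M × ℝ => b z.2) = fun z => bc b z.2 := funext fun z => (bc_apply hb _).symm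
  rw [e]; exact (Ψ_smul (e ▸ cb_snd' hb) x).symm

/-- slices of smooth elements -/
theorem R_Ψ' {x : (cylP F.toPre).H k (pc p)} {w : M × ℝ → V} (H : Is (cylP F.toPre) k (pc p) x w)
    (hw : Sm (IC I) w) (pw : ∀ z, p z.1 (w z) = w z) : R (Ψ F.toPre k p x) fun t =>
      F.toH k p ⟨fun y => w (y, t), sm_slice_fst hw t, .of_compactSpace _, fun y => pw (y, t)⟩ := by
  have := FiniteDimensional.complete ℝ V
  let s : ℕ → Sec (IC I) (pc p) := fun n => ⟨fun z => cu n z.2 • w z, (sm_snd (sm_cu n).cd).smul hw,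
    HasCompactSupport.intro (isCompact_univ.prod (hcs_cu n).isCompact) fun z hz => by
      rw [image_eq_zero_of_notMem_tsupport fun h => hz ⟨trivial, h⟩, zero_smul],
    fun z => by rw [map_smul, pw]⟩
  have e : ∀ n : ℕ, mt _ (bc (cu n)) (Ψ F.toPre k p x) =
      Ψ F.toPre k p ((cylP F.toPre).toH k _ (s n)) := fun n => by
    rw [m_Ψ (sm_cu n)]
    exact congrArg _ (Is.unique (F := cyl F) (H.smulH (cb_snd' (sm_cu n))) (Is.toH (s n)))
  filter_upwards [ae_all_iff.2 fun n : ℕ =>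
    ((R.rfl (Ψ F.toPre k p x)).ma (bc (cu n)) (.id ℝ _)).ae (e n ▸ R_Ψ (s n))] with t ht
  have h1 := cu_one (Nat.le_ceil |t|)
  have h2 := ht ⌈|t|⌉₊
  rw [bc_apply (sm_cu _), h1, one_smul] at h2
  exact h2.trans (congrArg _ (Subtype.ext (funext fun y => by
    change cu _ t • w (y, t) = w (y, t)
    rw [h1, one_smul])))

/-- the operator on `L²(ℝ, L²(Y))` -/
def KZ (K : (cylP F.toPre).H 0 (pc p) →L[ℝ] (cylP F.toPre).H 0 (pc p)) :
    Lam (F.H 0 p) →L[ℝ] Lam (F.H 0 p) :=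
  Ψ _ 0 _ ∘L K ∘L ((Ψe F.toPre p).symm.toContinuousLinearEquiv : _ →L[ℝ] _)

variable {K : (cylP F.toPre).H 0 (pc p) →L[ℝ] (cylP F.toPre).H 0 (pc p)}

theorem KZ_Ψ (x : (cylP F.toPre).H 0 (pc p)) : KZ K (Ψ _ 0 _ x) = Ψ _ 0 _ (K x) :=
  congrArg (fun z => Ψ _ 0 _ (K z)) ((Ψe F.toPre p).symm_apply_apply x)

theorem tk_of {d C : ℝ} (hd : 0 < d) (hC : 0 ≤ C) (h1 : ∀ x y, ⟪K x, y⟫_ℝ = ⟪x, K y⟫_ℝ)
    (h2 : ∀ r s t, ⟪K ((cylP F.toPre).toH 0 _ s), (cylP F.toPre).toH 0 _ (shf (-r) t)⟫_ℝ =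
      ⟪K ((cylP F.toPre).toH 0 _ (shf r s)), (cylP F.toPre).toH 0 _ t⟫_ℝ)
    (h3 : ∀ φ : ℝ → ℝ, Neck67.Sm φ → (∀ t, |deriv φ t| ≤ d) → ∀ s,
      ‖smulH (cylP F.toPre) 0 (pc p) (fun z => Neck67.ex φ z.2) (K (smulH (cylP F.toPre) 0 (pc p)
        (fun z => Neck67.ex (-φ) z.2) ((cylP F.toPre).toH 0 _ s)))‖ ≤ C * (cylP F.toPre).nrm 0 s.1) :
    TK (KZ K) d C := by
  have := FiniteDimensional.complete ℝ V
  refine ⟨fun x y => ?_, fun r x => ?_, fun φ hφ hb => ?_, hd⟩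
  · obtain ⟨x, rfl⟩ := Ψ_surj x
    obtain ⟨y, rfl⟩ := Ψ_surj y
    rw [KZ_Ψ, KZ_Ψ, inner_Ψ, inner_Ψ, h1]
  · refine ext_inner_right ℝ fun y => ?_
    obtain ⟨x, rfl⟩ := Ψ_surj x
    obtain ⟨y, rfl⟩ := Ψ_surj y
    induction x, y using H_ind₂ with
    | hP => exact isClosed_eq (by fun_prop) (by fun_prop)
    | h s t => rw [inner_tr, tr_Ψ, tr_Ψ, KZ_Ψ, KZ_Ψ, inner_Ψ, inner_Ψ, h2]
  · refine ContinuousLinearMap.opNorm_le_bound _ hC fun x => ?_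
    obtain ⟨x, rfl⟩ := Ψ_surj x
    induction x using H_ind with
    | hP => exact isClosed_le (by fun_prop) (by fun_prop)
    | h s =>
      rw [mul_apply_eq_comp, mul_apply_eq_comp, muL_m, muL_m, m_Ψ hφ.neg.ex, KZ_Ψ, m_Ψ hφ.ex, norm_Ψ,
        norm_Ψ, norm_toH]
      exact h3 φ hφ hb s

end gen

variable {E3 : Type} [NormedAddCommGroup E3] [NormedSpace ℝ E3] [FiniteDimensional ℝ E3]
  [MeasurableSpace E3] [BorelSpace E3]
  {H3 : Type} [TopologicalSpace H3] {I3 : ModelWithCorners ℝ E3 H3} [I3.Boundaryless]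
  {Y : Type} [TopologicalSpace Y] [ChartedSpace H3 Y] [IsManifold I3 ∞ Y] [T2Space Y]
  [MeasurableSpace Y] [BorelSpace Y] [SecondCountableTopology Y] [CompactSpace Y]
  {κ : Type} [Fintype κ] {lam : Type} [Fintype lam]

section defs
variable (N : ND Y lam) (D : YD I3 Y κ lam) (β : YC Y κ lam)

/-- the symmetric operator -/
def AZ : Op Y (Option κ) (Cv (cy β)) (P2 (cy β).m.A (Ev (cy β))) := Op78.sl0 (SZ D β)

/-- Sobolev spaces on the cylinder -/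
abbrev HZ (k : ℕ) : Type := (cylP D.F.toPre).H k (pc (AZ D β).p)

/-- Sobolev spaces on the cross-section -/
abbrev HY (k : ℕ) : Type := D.F.H k (AZ D β).p

/-- the rescaled Hessian -/
def hs (u : Cz β) (x : Y × ℝ) : Cv (cy β) :=
  sc2 _ _ 2 1 (hz N D β (fun z => sc2 _ _ 2 1 (u z)) x)

/-- `K` is the rescaled Hessian -/
def IsK {k : ℕ} (K : HZ D β k →L[ℝ] HZ D β k) : Prop :=
  ∀ u h, Vr D β u → Is (cylP D.F.toPre) k _ h u → Is (cylP D.F.toPre) k _ (K h) (hs N D β u)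

end defs

variable {N : ND Y lam} {D : YD I3 Y κ lam} {β : YC Y κ lam} {u v : Cz β}

theorem cyO_AZ (h : Hz N D β) (hd : Module.finrank ℝ E3 ≤ 3) : CyO D.F (AZ D β) :=
  Op78.cyO_sz h.ok h.adm hd

theorem cyo_AZ (h : Hz N D β) : cyo (AZ D β) = SZ D β :=
  Op78.cyo_sl0 (A := SZ D β) (Op78.in_sz h.ok h.adm)

theorem pA (h : Hz N D β) : pc (AZ D β).p = (mbd D.B (cy β).m).pC := congrArg Op.p (cyo_AZ h)

theorem tg_iff (h : Hz N D β) : Tg D.B (cy β) u ↔ ∀ x, pc (AZ D β).p x (u x) = u x := by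
  rw [pA h]; rfl

theorem vr_sec (h : Hz N D β) (s : Sec (IC I3) (pc (AZ D β).p)) : Vr D β s.1 :=
  ⟨.of_hcs s.2.1 s.2.2.1, (tg_iff h).2 s.2.2.2⟩

theorem ex_isZ (h : Hz N D β) (hu : Vr D β u) (k : ℕ) :
    ∃ x : HZ D β k, Is (cylP D.F.toPre) k _ x u :=
  exists_Is (tame_Z h.ok).choose_spec.exh hu.fl.sm (hu.fl.fl k) ((tg_iff h).1 hu.tg)

section
variable {V W : Type} [NormedAddCommGroup V] [InnerProductSpace ℝ V] [FiniteDimensional ℝ V]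
  [NormedAddCommGroup W] [InnerProductSpace ℝ W] [FiniteDimensional ℝ W]

theorem nw0_clm (L : V →L[ℝ] W) : ∃ c ≥ 0, ∀ ψ : ℝ → ℝ, Neck67.Sm ψ → ∀ f : Y × ℝ → V,
    Fl D.Z.toPre f → nw D.Z.toPre 0 (fun x => ψ x.2) (fun x => L (f x)) ≤
      c * nw D.Z.toPre 0 (fun x => ψ x.2) f :=
  ⟨‖L‖, norm_nonneg _, fun ψ hψ f hf => nrm0_le (norm_nonneg _) ((hf.smul (cb_snd hψ.exp)).fl 0)
    fun x => by rw [← map_smul]; exact L.le_opNorm _⟩

theorem nwk_clm (L : V →L[ℝ] W) (k : ℕ) : ∃ c ≥ 0, ∀ (ψ : Y × ℝ → ℝ) d Dd, Wd D.Z.toPre ψ d Dd →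
    ∀ f : Y × ℝ → V, Fl D.Z.toPre f →
      nw D.Z.toPre k ψ (fun x => L (f x)) ≤ c * nw D.Z.toPre k ψ f :=
  ⟨cK (Option κ) k * ‖L‖, mul_nonneg (cK_nonneg _) (norm_nonneg _), fun _ _ _ hψ _ hf =>
    nw_clm hψ L hf k⟩

theorem nw0_sc2 (a b : ℝ) : ∃ c ≥ 0, ∀ ψ : ℝ → ℝ, Neck67.Sm ψ → ∀ f : Y × ℝ → P2 V W,
    Fl D.Z.toPre f → nw D.Z.toPre 0 (fun x => ψ x.2) (fun x => sc2 V W a b (f x)) ≤
      c * nw D.Z.toPre 0 (fun x => ψ x.2) f := nw0_clm _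

theorem nwk_sc2 (a b : ℝ) (k : ℕ) : ∃ c ≥ 0, ∀ (ψ : Y × ℝ → ℝ) d Dd, Wd D.Z.toPre ψ d Dd →
    ∀ f : Y × ℝ → P2 V W, Fl D.Z.toPre f →
      nw D.Z.toPre k ψ (fun x => sc2 V W a b (f x)) ≤ c * nw D.Z.toPre k ψ f := nwk_clm _ k

end

namespace Kp
variable (h : Kp N D β)
include h

theorem vr_hs (hu : Vr D β u) : Vr D β (hs N D β u) := vr_sc2 _ _ (h.vr_hz (vr_sc2 _ _ hu))

theorem hs_add (hu : Vr D β u) (hv : Vr D β v) : hs N D β (u + v) = hs N D β u + hs N D β v := by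
  funext x
  rw [hs, show (fun z => sc2 _ _ 2 1 ((u + v) z)) = (fun z => sc2 _ _ 2 1 (u z)) +
    fun z => sc2 _ _ 2 1 (v z) from funext fun z => map_add _ _ _, hz,
    h.tw.add _ _ (vr_sc2 _ _ hu) (vr_sc2 _ _ hv)]
  exact map_add _ _ _

theorem hs_smul (a : ℝ) (hu : Vr D β u) : hs N D β (a • u) = a • hs N D β u := by
  funext x
  rw [hs, show (fun z => sc2 _ _ 2 1 ((a • u) z)) = a • fun z => sc2 _ _ 2 1 (u z) from
    funext fun z => map_smul (sc2 _ _ 2 1) a (u z), hz, h.tw.smul a (vr_sc2 _ _ hu)]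
  exact map_smul (sc2 _ _ 2 1) a _

theorem hs_l2 : ∃ d > 0, ∃ C ≥ 0, ∀ ψ : ℝ → ℝ, Neck67.Sm ψ → (∀ t, |deriv ψ t| ≤ d) →
    ∀ u, Vr D β u → nw D.Z.toPre 0 (fun x => ψ x.2) (hs N D β u) ≤
      C * nw D.Z.toPre 0 (fun x => ψ x.2) u := by
  obtain ⟨d, hd, C, hC, H⟩ := h.l2
  obtain ⟨L, h0, hL⟩ := nw0_sc2 (D := D) (V := Fm (Option κ) (cy β).m.A) (W := (cy β).m.V) 2 1
  refine ⟨d, hd, L * (C * L), by positivity, fun ψ hψ hb u hu =>
    (hL ψ hψ _ (h.vr_hz (vr_sc2 2 1 hu)).fl).trans ?_⟩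
  rw [mul_assoc, mul_assoc]
  exact mul_le_mul_of_nonneg_left ((H ψ hψ hb _ (vr_sc2 2 1 hu)).trans
    (mul_le_mul_of_nonneg_left (hL ψ hψ _ hu.fl) hC)) h0

/-- weighted bounds in high Sobolev norms -/
theorem hs_bd : ∃ d > 0, ∀ k, 8 ≤ k → ∀ Dd : ℕ → ℝ, ∃ C ≥ 0, ∀ ψ : ℝ → ℝ,
    Wd D.Z.toPre (fun x => ψ x.2) d Dd → ∀ u, Vr D β u →
      nw D.Z.toPre k (fun x => ψ x.2) (hs N D β u) ≤ C * nw D.Z.toPre k (fun x => ψ x.2) u := by
  obtain ⟨d, hd, H⟩ := h.tw.bd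
  refine ⟨d, hd, fun k hk Dd => ?_⟩
  obtain ⟨C, hC, r, -, H⟩ := H k hk Dd
  obtain ⟨L, h0, hL⟩ := nwk_sc2 (D := D) (V := Fm (Option κ) (cy β).m.A) (W := (cy β).m.V) 2 1 k
  refine ⟨L * (C * L), by positivity, fun ψ hψ u hu =>
    (hL _ _ _ hψ _ (h.vr_hz (vr_sc2 2 1 hu)).fl).trans ?_⟩
  rw [mul_assoc, mul_assoc]
  exact mul_le_mul_of_nonneg_left ((H ψ hψ _ (vr_sc2 2 1 hu)).1.trans
    (mul_le_mul_of_nonneg_left (hL _ _ _ hψ _ hu.fl) hC)) h0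

theorem hs_nrm {k : ℕ} (hk : k = 0 ∨ 8 ≤ k) :
    ∃ C ≥ 0, ∀ u, Vr D β u → D.Z.nrm k (hs N D β u) ≤ C * D.Z.nrm k u := by
  rcases hk with rfl | hk
  · obtain ⟨d, hd, C, hC, H⟩ := h.hs_l2
    exact ⟨C, hC, fun u hu => by
      simpa only [nw_zero] using H 0 Neck67.Sm.zero (fun t => by simpa using hd.le) u hu⟩
  · obtain ⟨d, hd, H⟩ := h.hs_bd
    obtain ⟨C, hC, H⟩ := H k hk 0
    exact ⟨C, hC, fun u hu => by simpa only [nw_zero] using H 0 (wd_zero hd.le) u hu⟩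

theorem exists_K {k : ℕ} (hk : k = 0 ∨ 8 ≤ k) : ∃ K : HZ D β k →L[ℝ] HZ D β k, IsK N D β K := by
  obtain ⟨C, hC, H⟩ := h.hs_nrm hk
  have t := fun u => tg_iff (u := u) h.toHz
  obtain ⟨K, hK⟩ := exists_flop (tame_Z h.ok).choose_spec (p := pc (AZ D β).p) (q := pc (AZ D β).p)
    (T := hs N D β) (k := k) (j := k) hC
    (fun u hu pu => ⟨(h.vr_hs ⟨hu, (t u).2 pu⟩).fl, (t _).1 (h.vr_hs ⟨hu, (t u).2 pu⟩).tg,
      H u ⟨hu, (t u).2 pu⟩⟩)
    (fun u v hu pu hv pv => h.hs_add ⟨hu, (t u).2 pu⟩ ⟨hv, (t v).2 pv⟩)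
    fun a u hu pu => h.hs_smul a ⟨hu, (t u).2 pu⟩
  exact ⟨K, fun u x hu => hK u x hu.fl ((t u).1 hu.tg)⟩

theorem hz_shf (hu : Vb D β u) (r : ℝ) (x : Y × ℝ) :
    hz N D β (fun z => u (z.1, z.2 + r)) x = hz N D β u (x.1, x.2 + r) :=
  congrArg (deriv · (0 : ℝ)) (funext fun ε =>
    h.ti (ε • u) ⟨Cb_smul (Cb_const ε) hu.cb, hu.tg.smul fun _ => ε⟩ r x)

theorem hs_shf (hu : Vb D β u) (r : ℝ) (x : Y × ℝ) :
    hs N D β (fun z => u (z.1, z.2 + r)) x = hs N D β u (x.1, x.2 + r) :=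
  congrArg (sc2 _ _ 2 1) (h.hz_shf (u := fun z => sc2 _ _ 2 1 (u z))
    ⟨Cb_clm _ hu.cb, tg_sc2 2 1 hu.tg⟩ r x)

variable {K : HZ D β 0 →L[ℝ] HZ D β 0} (hK : IsK N D β K)
include hK

theorem inner_K (s t : Sec (IC I3) (pc (AZ D β).p)) :
    ⟪K ((cylP D.F.toPre).toH 0 _ s), (cylP D.F.toPre).toH 0 _ t⟫_ℝ =
      ∫ x, ⟪hs N D β s.1 x, t.1 x⟫_ℝ ∂D.Z.μ := by
  have := (hK _ _ (vr_sec h.toHz s) (Is.toH s)).inner_toH t
  rwa [incl_self] at this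

theorem K_symm (x y : HZ D β 0) : ⟪K x, y⟫_ℝ = ⟪x, K y⟫_ℝ := by
  induction x, y using H_ind₂ with
  | hP => exact isClosed_eq (by fun_prop) (by fun_prop)
  | h s t =>
    have e := h.inner_K hK t s
    rw [real_inner_comm] at e
    refine (h.inner_K hK s t).trans (Eq.trans ?_ e.symm)
    refine (integral_congr_ae (ae_of_all _ fun x => inner_sc2 2 1 _ _)).trans
      ((h.sy _ _ (vr_sc2 2 1 (vr_sec h.toHz s)) (vr_sc2 2 1 (vr_sec h.toHz t))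
        (s.2.2.1.comp_left (map_zero _)) (t.2.2.1.comp_left (map_zero _))).trans
        (integral_congr_ae (ae_of_all _ fun x => ?_)))
    exact (real_inner_comm _ _).trans (inner_sc2 2 1 _ _).symm

/-- **the Hessian is symmetric, translation invariant, with exponentially decaying kernel** -/
theorem tk : ∃ d C, TK (KZ K) d C := by
  obtain ⟨d, hd, C, hC, H⟩ := h.hs_l2
  refine ⟨d, C, tk_of hd hC (h.K_symm hK) (fun r s t => ?_) fun φ hφ hb s => ?_⟩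
  · refine (h.inner_K hK _ _).trans (Eq.trans ?_ (h.inner_K hK _ _).symm)
    refine (((MeasurePreserving.id D.F.μ).prod (measurePreserving_add_right volume r)).integral_comp
      (MeasurableEmbedding.id.prodMap (measurableEmbedding_addRight r)) _).symm.trans
      (integral_congr_ae (ae_of_all _ fun x => ?_))
    have e1 : hs N D β (shf r s).1 x = hs N D β s.1 (x.1, x.2 + r) :=
      h.hs_shf (vr_vb h.ok (vr_sec h.toHz s)) r x
    have e2 : (shf (-r) t).1 (x.1, x.2 + r) = t.1 x :=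
      congrArg t.1 (Prod.ext rfl (add_neg_cancel_right _ _))
    beta_reduce
    rw [e1, ← e2]
    rfl
  · have v := vr_smul (cb_snd hφ.neg.ex) (vr_sec h.toHz s)
    refine (Is.norm (F := D.Z) ((hK _ _ v ((Is.toH s).smulH (cb_snd' hφ.neg.ex))).smulH
      (cb_snd' hφ.ex)) ((h.vr_hs v).fl.smul (cb_snd hφ.ex)).sm).trans_le ?_
    have e : (fun x : Y × ℝ => exp (φ x.2) • Neck67.ex (-φ) x.2 • s.1 x) = s.1 := funext fun x => by
      rw [smul_smul, Neck67.ex, Pi.neg_apply, ← exp_add, add_neg_cancel, exp_zero, one_smul]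
    have k := H φ hφ hb _ v
    rw [nw, nw, e] at k
    exact k

end Kp

end Crest.Agent.X212.Cyf70
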