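import Crest.Agent.X212.Cyf70.Lam

/-!
# Row 212, CYLF (helper70): abstract cylinders `∂_t + L + K` on `L²(ℝ, X₀)`
-/

set_option autoImplicit false
set_option linter.unusedSectionVars false
open Function Filter Topology Module Set MeasureTheory
open scoped RealInnerProductSpace BoundedContinuousFunction ContDiff

noncomputable section
namespace Crest.Agent.X212.Cyf70
open Crest.Agent.X212.Fred93 (Fr ind Est)

variable {X₁ X₀ Z : Type*} [NormedAddCommGroup X₁] [NormedSpace ℝ X₁] [NormedAddCommGroup X₀]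
  [InnerProductSpace ℝ X₀] [NormedAddCommGroup Z] [NormedSpace ℝ Z]

/-- `Z` is `L²₁` of the cylinder, `J` its inclusion in `L²(ℝ, X₁)`, `T = τ ∂_t`, `τ = ± 1`. -/
structure CylD (τ : ℝ) (i L : X₁ →L[ℝ] X₀) (J : Z →L[ℝ] Lam X₁) (T : Z →L[ℝ] Lam X₀) : Prop where
  sq : τ * τ = 1
  inj : Injective i
  sym : ∀ u v, ⟪L u, i v⟫ = ⟪i u, L v⟫
  injJ : Injective J
  den : Dense {v | ∃ V V' : ℝ → X₁, (∀ t, HasDerivAt V (V' t) t) ∧ Continuous V' ∧
    HasCompactSupport V ∧ R (J v) V ∧ R (T v) fun t => τ • i (V' t)}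
  reg : ∀ y g, (∀ u, ⟪T u + cp L (J u), y⟫ = ⟪cp i (J u), g⟫) →
    ∃ v, cp i (J v) = y ∧ -T v + cp L (J v) = g
  reg' : ∀ y g, (∀ u, ⟪-T u + cp L (J u), y⟫ = ⟪cp i (J u), g⟫) →
    ∃ v, cp i (J v) = y ∧ T v + cp L (J v) = g
  gard : ∃ C, 0 ≤ C ∧ ∀ u, ‖u‖ ≤ C * (‖T u‖ + ‖cp L (J u)‖ + ‖cp i (J u)‖)
  rel : ∀ b : ℝ →ᵇ ℝ, ContDiff ℝ ∞ b → HasCompactSupport b → IsCompactOperator (ma b i ∘L J)

variable (i L : X₁ →L[ℝ] X₀) (J : Z →L[ℝ] Lam X₁) (T : Z →L[ℝ] Lam X₀) in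
/-- the operator `∂_t + L + K` -/
def Dz (K : Lam X₀ →L[ℝ] Lam X₀) : Z →L[ℝ] Lam X₀ := T + cp L ∘L J + K ∘L cp i ∘L J

/-- a smooth step function with its derivative -/
structure Stp (σ σ' : ℝ →ᵇ ℝ) (r : ℝ) : Prop where
  sm : ContDiff ℝ ∞ σ
  der : ∀ t, HasDerivAt σ (σ' t) t
  lo : ∀ t ≤ -r, σ t = 0
  hi : ∀ t ≥ r, σ t = 1
  pos : 0 < r

theorem Stp.sm' {σ σ' : ℝ →ᵇ ℝ} {r : ℝ} (h : Stp σ σ' r) : ContDiff ℝ ∞ σ' := by
  have : (σ' : ℝ → ℝ) = deriv σ := funext fun t => (h.der t).deriv.symm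
  rw [this]; exact h.sm.deriv'

theorem Stp.hcs' {σ σ' : ℝ →ᵇ ℝ} {r : ℝ} (h : Stp σ σ' r) : HasCompactSupport σ' := by
  refine HasCompactSupport.intro (isCompact_Icc (a := -r) (b := r)) fun t ht => ?_
  rw [mem_Icc, not_and_or, not_le, not_le] at ht
  rcases ht with ht | ht
  · exact (h.der t).unique ((hasDerivAt_const t 0).congr_of_eventuallyEq
      ((eventually_lt_nhds ht).mono fun s hs => h.lo s hs.le))
  · exact (h.der t).unique ((hasDerivAt_const t 1).congr_of_eventuallyEq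
      ((eventually_gt_nhds ht).mono fun s hs => h.hi s hs.le))

theorem Stp.hcs {σ σ' : ℝ →ᵇ ℝ} {r : ℝ} (h : Stp σ σ' r) : HasCompactSupport (σ - σ * σ :) := by
  refine HasCompactSupport.intro (isCompact_Icc (a := -r) (b := r)) fun t ht => ?_
  rw [mem_Icc, not_and_or, not_le, not_le] at ht
  rcases ht with ht | ht
  · simp [h.lo t ht.le]
  · simp [h.hi t ht.le]

theorem exists_stp : ∃ σ σ', Stp σ σ' 1 := by
  let σ : ℝ →ᵇ ℝ := .ofNormedAddCommGroup Real.smoothTransition Real.smoothTransition.continuous 1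
    fun t => by
      rw [Real.norm_of_nonneg (Real.smoothTransition.nonneg t)]; exact Real.smoothTransition.le_one t
  have h1 : ContDiff ℝ ∞ σ := Real.smoothTransition.contDiff
  have h2 : HasCompactSupport (deriv σ) := by
    refine HasCompactSupport.intro (isCompact_Icc (a := 0) (b := 1)) fun t ht => ?_
    rw [mem_Icc, not_and_or, not_le, not_le] at ht
    rcases ht with ht | ht
    · exact ((hasDerivAt_const t 0).congr_of_eventuallyEq ((eventually_lt_nhds ht).mono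
        fun s hs => Real.smoothTransition.zero_of_nonpos hs.le)).deriv
    · exact ((hasDerivAt_const t 1).congr_of_eventuallyEq ((eventually_gt_nhds ht).mono
        fun s hs => Real.smoothTransition.one_of_one_le hs.le)).deriv
  exact ⟨σ, ofCompactSupport _ (h1.continuous_deriv (by simp)) h2, h1,
    fun t => (h1.differentiable (by simp) t).hasDerivAt,
    fun t ht => Real.smoothTransition.zero_of_nonpos (by linarith),
    fun t ht => Real.smoothTransition.one_of_one_le ht, one_pos⟩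

variable {i L : X₁ →L[ℝ] X₀} {J : Z →L[ℝ] Lam X₁} {T : Z →L[ℝ] Lam X₀}

theorem Dz_apply (K : Lam X₀ →L[ℝ] Lam X₀) (u : Z) :
    Dz i L J T K u = T u + cp L (J u) + K (cp i (J u)) := rfl

theorem int_zero {f f' : ℝ → ℝ} (h : ∀ t, HasDerivAt f (f' t) t) (hc : HasCompactSupport f)
    (hi : Integrable f') : ∫ t, f' t = 0 :=
  integral_eq_zero_of_hasDerivAt_of_integrable h hi
    ((continuous_iff_continuousAt.2 fun t => (h t).continuousAt).integrable_of_hasCompactSupport hc)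

namespace CylD
variable {τ : ℝ} (h : CylD τ i L J T)
include h

theorem neg : CylD (-τ) i L J (-T) where
  sq := by rw [neg_mul_neg, h.sq]
  inj := h.inj
  sym := h.sym
  injJ := h.injJ
  den := h.den.mono (by
    rintro v ⟨V, V', h1, h2, h3, h4, h5⟩
    exact ⟨V, V', h1, h2, h3, h4, h5.neg.congr fun t => (neg_smul _ _).symm⟩)
  reg y g H := by simpa using h.reg' y g H
  reg' y g H := by simpa using h.reg y g (by simpa using H)
  gard := by simpa using h.gard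
  rel := h.rel

theorem injI : Injective fun u => cp i (J u) := (cp_inj h.inj).comp h.injJ

theorem ext {x y : Lam X₀} (H : ∀ u, ⟪cp i (J u), x⟫ = ⟪cp i (J u), y⟫) : x = y := by
  obtain ⟨v, h1, h2⟩ := h.reg 0 (x - y) fun u => by rw [inner_zero_right, inner_sub_right, H, sub_self]
  have : v = 0 := h.injI (by simpa using h1)
  rw [← sub_eq_zero, ← h2, this]; simp

/-- integration by parts against a `C¹` function -/
theorem ibp {G G' : Lam X₀} {g g' : ℝ → X₀} (hG : R G g) (hG' : R G' g')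
    (hd : ∀ t, HasDerivAt g (g' t) t) (u : Z) : ⟪T u, G⟫ + τ * ⟪cp i (J u), G'⟫ = 0 := by
  refine h.den.induction (P := fun u => ⟪T u, G⟫ + τ * ⟪cp i (J u), G'⟫ = 0) ?_
    (isClosed_eq (by fun_prop) continuous_const) u
  rintro u ⟨V, V', h1, h2, h3, h4, h5⟩
  have h6 : R (cp i (J u)) fun t => i (V t) := (h4.ma 1 i).congr fun t => by simp
  have i1 := h5.integrable hG
  have i2 := (h6.integrable hG').const_mul τ
  rw [h5.inner hG, h6.inner hG', ← integral_const_mul, ← integral_add i1 i2]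
  refine int_zero (f := fun t => τ * ⟪i (V t), g t⟫) (fun t => ?_) ?_ (i1.add i2)
  · refine (((i.hasFDerivAt.comp_hasDerivAt t (h1 t)).inner ℝ (hd t)).const_mul τ).congr_deriv ?_
    simp only [real_inner_smul_left, comp_apply]; ring
  · exact h3.mono fun t ht e => ht (by simp [e])

theorem ibp' {b b' : ℝ →ᵇ ℝ} (hb : ∀ t, HasDerivAt b (b' t) t) (c : X₀ →L[ℝ] X₀) (u v : Z) :
    ⟪T u, ma b c (cp i (J v))⟫ + ⟪cp i (J u), ma b c (T v) + τ • ma b' c (cp i (J v))⟫ = 0 := by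
  refine h.den.induction (P := fun v => ⟪T u, ma b c (cp i (J v))⟫ +
    ⟪cp i (J u), ma b c (T v) + τ • ma b' c (cp i (J v))⟫ = 0) ?_
    (isClosed_eq (by fun_prop) continuous_const) v
  rintro v ⟨V, V', h1, h2, h3, h4, h5⟩
  have := h.ibp (G := ma b c (cp i (J v))) (G' := τ • (ma b c (T v) + τ • ma b' c (cp i (J v))))
    (g := fun t => b t • c (i (V t))) (g' := fun t => b t • c (i (V' t)) + b' t • c (i (V t)))
    (R.congr (by rr) fun t => by simp) (R.congr (by rr) fun t => by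
      simp [smul_smul, mul_left_comm τ, ← mul_assoc τ τ, h.sq])
    (fun t => (hb t).smul ((c ∘L i).hasFDerivAt.comp_hasDerivAt t (h1 t))) u
  rwa [real_inner_smul_right, ← mul_assoc, h.sq, one_mul] at this

theorem skew (c : X₀ →L[ℝ] X₀) (u v : Z) :
    ⟪T u, cp c (cp i (J v))⟫ = -⟪cp i (J u), cp c (T v)⟫ := by
  have := h.ibp' (b := 1) (b' := 0) (fun t => hasDerivAt_const t 1) c u v
  rw [ma_zero, zero_apply, smul_zero, add_zero] at this
  linarith

theorem cylOp {S : X₁ →L[ℝ] X₀} (hS : ∀ u v, ⟪S u, i v⟫ = ⟪i u, S v⟫) :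
    CylOp (cp i ∘L J) T (cp S ∘L J) := by
  refine ⟨fun u v => ?_, fun u v => ?_, fun u => ?_⟩
  · simpa only [cp_id, ContinuousLinearMap.comp_apply] using h.skew (ContinuousLinearMap.id ℝ _) u v
  · exact R.inner_eq (R.ma 1 S (R.rfl _)) (R.ma 1 i (R.rfl _)) (R.ma 1 i (R.rfl _))
      (R.ma 1 S (R.rfl _)) (ae_of_all _ fun t => by simp [hS])
  refine h.den.induction (P := fun u => ⟪T u, cp S (J u)⟫ = 0) ?_
    (isClosed_eq (by fun_prop) continuous_const) u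
  rintro u ⟨V, V', h1, h2, h3, h4, h5⟩
  have h6 : R (cp S (J u)) fun t => S (V t) := (h4.ma 1 S).congr fun t => by simp
  rw [h5.inner h6]
  refine int_zero (f := fun t => τ / 2 * ⟪i (V t), S (V t)⟫) (fun t => ?_) ?_ (h5.integrable h6)
  · refine (((i.hasFDerivAt.comp_hasDerivAt t (h1 t)).inner ℝ
      (S.hasFDerivAt.comp_hasDerivAt t (h1 t))).const_mul (τ / 2)).congr_deriv ?_
    simp only [real_inner_smul_left, comp_apply]
    rw [← hS, real_inner_comm]; ring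
  · exact h3.mono fun t ht e => ht (by simp [e])

theorem gardK (K : Lam X₀ →L[ℝ] Lam X₀) :
    ∃ C, 0 ≤ C ∧ ∀ u, ‖u‖ ≤ C * (‖Dz i L J T K u‖ + ‖cp i (J u)‖) := by
  obtain ⟨C, hC, H⟩ := h.gard
  refine ⟨C * (2 * ‖K‖ + 2), by positivity, fun u => (H u).trans ?_⟩
  rw [mul_assoc]
  refine mul_le_mul_of_nonneg_left ?_ hC
  have h1 : ‖T u‖ ≤ ‖T u + cp L (J u)‖ := (h.cylOp h.sym).left_le u
  have h2 : ‖cp L (J u)‖ ≤ ‖T u + cp L (J u)‖ := (h.cylOp h.sym).right_le u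
  have h3 := norm_sub_le (Dz i L J T K u) (K (cp i (J u)))
  rw [Dz_apply, add_sub_cancel_right, ← Dz_apply] at h3
  nlinarith [K.le_opNorm (cp i (J u)), norm_nonneg K, norm_nonneg (Dz i L J T K u),
    norm_nonneg (cp i (J u))]

theorem adjK {K K' : Lam X₀ →L[ℝ] Lam X₀} (hK : ∀ x y, ⟪K x, y⟫ = ⟪x, K' y⟫) (u v : Z) :
    ⟪Dz i L J T K u, cp i (J v)⟫ = ⟪cp i (J u), Dz i L J (-T) K' v⟫ := by
  have h1 : ⟪T u, cp i (J v)⟫ = -⟪cp i (J u), T v⟫ := (h.cylOp h.sym).skew u v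
  have h2 : ⟪cp L (J u), cp i (J v)⟫ = ⟪cp i (J u), cp L (J v)⟫ := (h.cylOp h.sym).symm u v
  simp only [Dz_apply, inner_add_left, inner_add_right, hK, h1, h2, neg_apply, inner_neg_right]

theorem regK {K K' : Lam X₀ →L[ℝ] Lam X₀} (hK : ∀ x y, ⟪K x, y⟫ = ⟪x, K' y⟫) {y g : Lam X₀}
    (H : ∀ u, ⟪Dz i L J T K u, y⟫ = ⟪cp i (J u), g⟫) :
    ∃ v, cp i (J v) = y ∧ Dz i L J (-T) K' v = g := by
  obtain ⟨v, h1, h2⟩ := h.reg y (g - K' y) fun u => by
    rw [inner_sub_right, ← H, ← hK, Dz_apply, inner_add_left _ (K _), add_sub_cancel_right]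
  exact ⟨v, h1, by rw [Dz_apply, neg_apply, h2, h1, sub_add_cancel]⟩

/-- multiplication by functions of `t` on `Z` -/
theorem exists_mul {b b' : ℝ →ᵇ ℝ} (hb : ∀ t, HasDerivAt b (b' t) t) : ∃ s : Z →L[ℝ] Z, ∀ u,
    J (s u) = mt X₁ b (J u) ∧ T (s u) = mt X₀ b (T u) + τ • mt X₀ b' (cp i (J u)) := by
  have key : ∀ u, ∃ v, J v = mt X₁ b (J u) ∧ T v = mt X₀ b (T u) + τ • mt X₀ b' (cp i (J u)) := by
    intro u
    obtain ⟨v, h1, h2⟩ := h.reg' (mt X₀ b (cp i (J u)))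
      (mt X₀ b (T u) + τ • mt X₀ b' (cp i (J u)) + mt X₀ b (cp L (J u))) fun w => by
        rw [inner_add_left, inner_add_right _ _ (mt X₀ b (cp L (J u))), inner_neg_left,
          neg_eq_of_add_eq_zero_right (h.ibp' hb _ w u)]
        congr 1
        exact R.inner_eq (by rr) (by rr) (by rr) (by rr) (ae_of_all _ fun t => by
          simp [real_inner_smul_right, h.sym])
    have h3 : J v = mt X₁ b (J u) :=
      cp_inj h.inj (h1.trans (R.ext' (by rr) (by rr) fun t => by simp))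
    refine ⟨v, h3, add_right_cancel (h2.trans ?_)⟩
    rw [h3]; congr 1
    exact R.ext' (by rr) (by rr) fun t => by simp
  choose s hs using key
  obtain ⟨C, hC, H⟩ := h.gard
  let l : Z →ₗ[ℝ] Z :=
    { toFun := s
      map_add' := fun u v => h.injJ (by simp only [map_add, (hs _).1])
      map_smul' := fun c u => h.injJ (by simp only [map_smul, (hs _).1, RingHom.id_apply]) }
  let A := mt X₀ b ∘L T + τ • mt X₀ b' ∘L cp i ∘L J
  let B := mt X₁ b ∘L J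
  refine ⟨l.mkContinuous (C * (‖A‖ + ‖cp L ∘L B‖ + ‖cp i ∘L B‖)) fun u => (H (s u)).trans ?_, hs⟩
  rw [(hs u).1, (hs u).2, mul_assoc, add_mul, add_mul]
  exact mul_le_mul_of_nonneg_left (add_le_add (add_le_add (A.le_opNorm u)
    ((cp L ∘L B).le_opNorm u)) ((cp i ∘L B).le_opNorm u)) hC

theorem T_mul {b b' : ℝ →ᵇ ℝ} (hb : ∀ t, HasDerivAt b (b' t) t) {u v : Z}
    (H : J v = mt X₁ b (J u)) : T v = mt X₀ b (T u) + τ • mt X₀ b' (cp i (J u)) := by
  obtain ⟨s, hs⟩ := h.exists_mul hb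
  rw [h.injJ (H.trans (hs u).1.symm), (hs u).2]

theorem Dz_mul {b b' : ℝ →ᵇ ℝ} (hb : ∀ t, HasDerivAt b (b' t) t) {u v : Z}
    (H : J v = mt X₁ b (J u)) (K : Lam X₀ →L[ℝ] Lam X₀) :
    Dz i L J T K v = mt X₀ b (Dz i L J T K u) + τ • mt X₀ b' (cp i (J u)) +
      (K (mt X₀ b (cp i (J u))) - mt X₀ b (K (cp i (J u)))) := by
  have e : ∀ a : X₁ →L[ℝ] X₀, cp a (mt X₁ b (J u)) = mt X₀ b (cp a (J u)) := fun a =>
    R.ext' (by rr) (by rr) fun t => by simp
  simp only [Dz_apply, h.T_mul hb H, H, e, map_add]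
  abel

theorem cq_mt {b : ℝ →ᵇ ℝ} (h1 : ContDiff ℝ ∞ b) (h2 : HasCompactSupport b) :
    Cq (mt X₀ b ∘L cp i ∘L J) 0 :=
  (Cq.zero (h.rel b h1 h2)).congr (fun u => show mt X₀ b (cp i (J u)) = ma b i (J u) from
    R.ext' (by rr) (by rr) fun t => by simp) fun _ => rfl

variable [CompleteSpace X₀] [CompleteSpace Z]

theorem surj {K K' : Lam X₀ →L[ℝ] Lam X₀} (hK : ∀ x y, ⟪K x, y⟫ = ⟪x, K' y⟫)
    (hc : IsClosed ((Dz i L J T K).range : Set (Lam X₀)))
    (h' : ∀ v, Dz i L J (-T) K' v = 0 → v = 0) : Surjective (Dz i L J T K) := by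
  have : CompleteSpace (Dz i L J T K).range := hc.completeSpace_coe
  refine LinearMap.range_eq_top.1 (Submodule.orthogonal_eq_bot_iff.1 ?_)
  refine (Submodule.eq_bot_iff _).2 fun y hy => ?_
  obtain ⟨v, h1, h2⟩ := h.regK hK (y := y) (g := 0) fun u => by
    rw [inner_zero_right]; exact hy _ ⟨u, rfl⟩
  rw [← h1, h' v h2, map_zero, map_zero]

/-- **invertibility** from a lower bound -/
theorem bij {K K' : Lam X₀ →L[ℝ] Lam X₀} (hK : ∀ x y, ⟪K x, y⟫ = ⟪x, K' y⟫) {C : ℝ}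
    (hl : ∀ u, ‖cp i (J u)‖ ≤ C * ‖Dz i L J T K u‖)
    (h' : ∀ v, Dz i L J (-T) K' v = 0 → v = 0) : Bijective (Dz i L J T K) := by
  obtain ⟨C', hC', H⟩ := h.gardK K
  have hb : ∀ u, ‖u‖ ≤ C' * (1 + C) * ‖Dz i L J T K u‖ := fun u => (H u).trans (by
    rw [mul_assoc]; exact mul_le_mul_of_nonneg_left (by linarith [hl u]) hC')
  refine ⟨(injective_iff_map_eq_zero _).2 fun u hu => ?_,
    h.surj hK (Fred93.isClosed_range_of_bound hb) h'⟩
  simpa [hu] using hb u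

/-- symmetric translation invariant `K` -/
theorem bij_symm {K : Lam X₀ →L[ℝ] Lam X₀} (hK : ∀ x y, ⟪K x, y⟫ = ⟪x, K y⟫)
    (ho : ∀ u, ⟪T u, K (cp i (J u))⟫ = 0) {C : ℝ} (hC : 0 ≤ C)
    (hl : ∀ u, ‖cp i (J u)‖ ≤ C * (‖cp L (J u) + K (cp i (J u))‖ + ‖T u‖)) :
    Bijective (Dz i L J T K) := by
  have H : CylOp (cp i ∘L J) T (cp L ∘L J + K ∘L cp i ∘L J) :=
    ⟨(h.cylOp h.sym).skew, fun u v => by
      have : ⟪cp L (J u), cp i (J v)⟫ = ⟪cp i (J u), cp L (J v)⟫ := (h.cylOp h.sym).symm u v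
      simp [inner_add_left, inner_add_right, this, hK], fun u => by
      have : ⟪T u, cp L (J u)⟫ = 0 := (h.cylOp h.sym).orth u
      simp [inner_add_right, this, ho]⟩
  refine h.bij hK (C := 2 * C) (fun u => ?_) fun v hv => h.injI ?_
  · rw [Dz_apply, add_assoc]; exact H.low hC hl u
  · have := H.neg.low hC (fun u => by simpa using hl u) v
    rw [Dz_apply, add_assoc] at hv
    rw [show (-T) v + (cp L ∘L J + K ∘L cp i ∘L J) v = 0 from hv] at this
    simpa using this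

/-- slice-wise symmetric `a` with `L + a` invertible -/
theorem bij_cp [CompleteSpace X₁] {a : X₀ →L[ℝ] X₀} (ha : ∀ x y, ⟪a x, y⟫ = ⟪x, a y⟫)
    (hb : Bijective (L + a ∘L i : X₁ →L[ℝ] X₀)) : Bijective (Dz i L J T (cp a)) := by
  let e := ContinuousLinearEquiv.ofBijective _ (LinearMap.ker_eq_bot.2 hb.1)
    (LinearMap.range_eq_top.2 hb.2)
  refine h.bij_symm (inner_ma 1 ha) (fun u => ?_) (C := ‖i ∘L (e.symm : X₀ →L[ℝ] X₁)‖)
    (norm_nonneg _) fun u => ?_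
  · rw [ma_ma, one_mul]
    exact (h.cylOp (S := a ∘L i) fun u v => ha _ _).orth u
  · refine le_trans ?_ (mul_le_mul_of_nonneg_left (le_add_of_nonneg_right (norm_nonneg _))
      (norm_nonneg _))
    refine R.norm_le (by rr) (by rr) (ae_of_all _ fun t => ?_)
    have := (i ∘L (e.symm : X₀ →L[ℝ] X₁)).le_opNorm (e (J u t))
    rw [ContinuousLinearMap.comp_apply, ContinuousLinearEquiv.coe_coe, e.symm_apply_apply] at this
    simpa [e] using this

/-- the hypotheses of the index calculus -/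
theorem lim {σ σ' : ℝ →ᵇ ℝ} {r : ℝ} (hσ : Stp σ σ' r) {s : Z →L[ℝ] Z}
    (hs : ∀ u, J (s u) = mt X₁ σ (J u)) {K : Lam X₀ →L[ℝ] Lam X₀} (hb : Bijective (Dz i L J T K))
    (h1 : Cq (K ∘L mt X₀ σ ∘L cp i ∘L J) (mt X₀ σ ∘L K ∘L cp i ∘L J))
    (h2 : Cq (mt X₀ (σ - σ * σ) ∘L K ∘L cp i ∘L J) 0) :
    Lim s (mt X₀ σ) (Dz i L J T 0) (Dz i L J T K) := by
  refine ⟨hb, Cq.symm ?_, h2.congr (fun u => ?_) fun _ => rfl⟩
  · refine (((Cq.refl (mt X₀ σ ∘L Dz i L J T K)).add ((h.cq_mt hσ.sm' hσ.hcs').smul τ)).add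
      (h1.sub (Cq.refl (mt X₀ σ ∘L K ∘L cp i ∘L J)))).congr (fun u => h.Dz_mul hσ.der (hs u) K)
      fun u => by simp
  · simp only [Dz_apply, ma_sub, ma_ma, ContinuousLinearMap.comp_apply, _root_.sub_apply,
      zero_apply, add_zero, add_sub_cancel_left, ContinuousLinearMap.id_comp]

theorem lim_cp [CompleteSpace X₁] {σ σ' : ℝ →ᵇ ℝ} {r : ℝ} (hσ : Stp σ σ' r) {s : Z →L[ℝ] Z}
    (hs : ∀ u, J (s u) = mt X₁ σ (J u)) {a : X₀ →L[ℝ] X₀} (ha : ∀ x y, ⟪a x, y⟫ = ⟪x, a y⟫)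
    (hb : Bijective (L + a ∘L i : X₁ →L[ℝ] X₀)) :
    Lim s (mt X₀ σ) (Dz i L J T 0) (Dz i L J T (cp a)) :=
  h.lim hσ hs (h.bij_cp ha hb) (Cq.of_eq (ContinuousLinearMap.ext fun u => by simp [ma_ma]))
    (((h.cq_mt (hσ.sm.sub (hσ.sm.mul hσ.sm)) hσ.hcs).left (cp a)).congr
      (fun u => by simp [ma_ma]) fun u => by simp)

end CylD

end Crest.Agent.X212.Cyf70
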