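import Crest.Agent.X212.Cyf70.Sf

/-!
# Row 212, CYLF (helper70): `L²(ℝ, X)`, slice-wise operators `ma b a = b(t) a`, the weak ODE
-/

set_option autoImplicit false
set_option linter.unusedSectionVars false
open Function Filter Topology Module Set MeasureTheory
open scoped RealInnerProductSpace BoundedContinuousFunction ContDiff

noncomputable section
namespace Crest.Agent.X212.Cyf70

/-- `L²(ℝ, X)` -/
abbrev Lam (X : Type*) [NormedAddCommGroup X] := Lp X 2 (volume : Measure ℝ)

section R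
variable {X Y W : Type*} [NormedAddCommGroup X] [NormedSpace ℝ X] [NormedAddCommGroup Y]
  [NormedSpace ℝ Y] [NormedAddCommGroup W] [NormedSpace ℝ W]

/-- `g` represents `f` -/
def R (f : Lam X) (g : ℝ → X) : Prop := f =ᵐ[volume] g

theorem memLp_ma (b : ℝ →ᵇ ℝ) (a : X →L[ℝ] Y) (f : Lam X) :
    MemLp (fun t => b t • a (f t)) 2 volume := by
  refine (Lp.memLp f).of_le_mul (c := ‖b‖ * ‖a‖)
    (b.continuous.aestronglyMeasurable.smul
      (a.continuous.comp_aestronglyMeasurable (Lp.aestronglyMeasurable f))) (ae_of_all _ fun t => ?_)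
  rw [norm_smul, mul_assoc]
  exact mul_le_mul (b.norm_coe_le_norm t) (a.le_opNorm _) (norm_nonneg _) (norm_nonneg _)

namespace R
variable {f f' : Lam X} {g g' : ℝ → X}

theorem rfl (f : Lam X) : R f f := EventuallyEq.rfl

theorem add (h : R f g) (h' : R f' g') : R (f + f') fun t => g t + g' t :=
  (Lp.coeFn_add f f').trans (EventuallyEq.add h h')

theorem sub (h : R f g) (h' : R f' g') : R (f - f') fun t => g t - g' t :=
  (Lp.coeFn_sub f f').trans (EventuallyEq.sub h h')

theorem neg (h : R f g) : R (-f) fun t => -g t := (Lp.coeFn_neg f).trans (EventuallyEq.neg h)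

theorem smul (c : ℝ) (h : R f g) : R (c • f) fun t => c • g t :=
  (Lp.coeFn_smul c f).trans (EventuallyEq.const_smul h c)

theorem zero : R (0 : Lam X) fun _ => 0 := Lp.coeFn_zero _ _ _

theorem toLp (h : MemLp g 2 volume) : R (h.toLp g) g := h.coeFn_toLp

theorem congr (h : R f g) (e : ∀ t, g t = g' t) : R f g' := funext e ▸ h

theorem ae (h : R f g) (h' : R f g') : ∀ᵐ t, g t = g' t := EventuallyEq.trans h.symm h'

theorem ext (h : R f g) (h' : R f' g') (e : ∀ᵐ t, g t = g' t) : f = f' :=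
  Lp.ext (EventuallyEq.trans h (EventuallyEq.trans e h'.symm))

theorem ext' (h : R f g) (h' : R f' g') (e : ∀ t, g t = g' t) : f = f' := h.ext h' (ae_of_all _ e)

theorem norm_le {f' : Lam Y} {g' : ℝ → Y} (h : R f g) (h' : R f' g') {c : ℝ}
    (e : ∀ᵐ t, ‖g t‖ ≤ c * ‖g' t‖) : ‖f‖ ≤ c * ‖f'‖ := by
  refine Lp.norm_le_mul_norm_of_ae_le_mul ?_
  filter_upwards [h, h', e] with t h1 h2 h3
  rwa [h1, h2]

theorem memLp (h : R f g) : MemLp g 2 volume := (Lp.memLp f).ae_eq h

end R

/-- the slice-wise operator `f ↦ b(t) a (f t)` -/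
def ma (b : ℝ →ᵇ ℝ) : (X →L[ℝ] Y) →L[ℝ] Lam X →L[ℝ] Lam Y :=
  LinearMap.mkContinuous₂ (LinearMap.mk₂ ℝ (fun a f => (memLp_ma b a f).toLp _)
    (fun _ _ _ => (R.toLp _).ext' ((R.toLp _).add (R.toLp _)) fun t => by simp)
    (fun c _ _ => (R.toLp _).ext' ((R.toLp _).smul c) fun t => by simp [smul_comm c])
    (fun _ f g => (R.toLp _).ext ((R.toLp _).add (R.toLp _)) (by
      filter_upwards [Lp.coeFn_add f g] with t ht; rw [ht, Pi.add_apply, map_add, smul_add]))
    (fun c _ f => (R.toLp _).ext ((R.toLp _).smul c) (by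
      filter_upwards [Lp.coeFn_smul c f] with t ht; simp [ht, smul_comm c]))) ‖b‖
    fun a f => (R.toLp (memLp_ma b a f)).norm_le (R.rfl f) (ae_of_all _ fun t => by
      rw [norm_smul, mul_assoc]
      exact mul_le_mul (b.norm_coe_le_norm t) (a.le_opNorm _) (norm_nonneg _) (norm_nonneg _))

/-- a fixed operator in every slice -/
abbrev cp (a : X →L[ℝ] Y) : Lam X →L[ℝ] Lam Y := ma 1 a

variable (X) in
/-- multiplication by a function of `t` -/
abbrev mt (b : ℝ →ᵇ ℝ) : Lam X →L[ℝ] Lam X := ma b (ContinuousLinearMap.id ℝ X)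

theorem R.ma {f : Lam X} {g : ℝ → X} (b : ℝ →ᵇ ℝ) (a : X →L[ℝ] Y) (h : R f g) :
    R (ma b a f) fun t => b t • a (g t) := by
  refine (memLp_ma b a f).coeFn_toLp.trans ?_
  filter_upwards [h] with t ht
  rw [ht]

/-- computes representatives -/
macro "rr" : tactic => `(tactic| repeat' (first
  | with_reducible assumption
  | with_reducible apply R.ma | with_reducible apply R.add | with_reducible apply R.sub
  | with_reducible apply R.neg | with_reducible apply R.smul | with_reducible exact R.zero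
  | with_reducible exact R.rfl _))

theorem norm_ma_le (b : ℝ →ᵇ ℝ) (a : X →L[ℝ] Y) : ‖ma b a‖ ≤ ‖b‖ * ‖a‖ :=
  ContinuousLinearMap.opNorm_le_bound _ (by positivity) fun f =>
    R.norm_le (by rr) (by rr) (ae_of_all _ fun t => by
      rw [norm_smul, mul_assoc]
      exact mul_le_mul (b.norm_coe_le_norm t) (a.le_opNorm _) (norm_nonneg _) (norm_nonneg _))

theorem ma_ma (b b' : ℝ →ᵇ ℝ) (a : Y →L[ℝ] W) (a' : X →L[ℝ] Y) (f : Lam X) :
    ma b a (ma b' a' f) = ma (b * b') (a ∘L a') f :=
  R.ext' (by rr) (by rr) fun t => by simp [smul_smul]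

theorem cp_id (f : Lam X) : cp (ContinuousLinearMap.id ℝ X) f = f :=
  R.ext' (by rr) (by rr) fun t => by simp

theorem ma_add (b b' : ℝ →ᵇ ℝ) (a : X →L[ℝ] Y) : ma (b + b') a = ma b a + ma b' a :=
  ContinuousLinearMap.ext fun f => show _ = ma b a f + ma b' a f from
    R.ext' (by rr) (by rr) fun t => by simp [add_smul]

theorem ma_sub (b b' : ℝ →ᵇ ℝ) (a : X →L[ℝ] Y) : ma (b - b') a = ma b a - ma b' a :=
  ContinuousLinearMap.ext fun f => show _ = ma b a f - ma b' a f from
    R.ext' (by rr) (by rr) fun t => by simp [sub_smul]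

theorem ma_smul (c : ℝ) (b : ℝ →ᵇ ℝ) (a : X →L[ℝ] Y) : ma (c • b) a = c • ma b a :=
  ContinuousLinearMap.ext fun f => show _ = c • ma b a f from
    R.ext' (by rr) (by rr) fun t => by simp [smul_smul]

theorem ma_zero (a : X →L[ℝ] Y) : ma 0 a = 0 :=
  ContinuousLinearMap.ext fun f => show _ = 0 from R.ext' (by rr) (by rr) fun t => by simp

theorem cp_inj {a : X →L[ℝ] Y} (ha : Injective a) : Injective (cp a) := fun f g h =>
  R.ext (R.rfl f) (R.rfl g) (by
    filter_upwards [(R.ma 1 a (R.rfl f)).ae (h ▸ R.ma 1 a (R.rfl g))] with t ht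
    exact ha (by simpa using ht))

/-- the tensor `φ(t) x` -/
def ten (φ : Lam ℝ) : X →L[ℝ] Lam X :=
  (ma 1).flip φ ∘L ContinuousLinearMap.smulRightL ℝ ℝ X (ContinuousLinearMap.id ℝ ℝ)

theorem R.ten {φ : Lam ℝ} {g : ℝ → ℝ} (h : R φ g) (x : X) : R (ten φ x) fun t => g t • x :=
  (R.ma 1 (ContinuousLinearMap.smulRightL ℝ ℝ X (ContinuousLinearMap.id ℝ ℝ) x) h).congr
    fun t => by simp

end R

section inner
variable {X : Type*} [NormedAddCommGroup X] [InnerProductSpace ℝ X] {f f' : Lam X} {g g' : ℝ → X}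

theorem R.inner (h : R f g) (h' : R f' g') : ⟪f, f'⟫ = ∫ t, ⟪g t, g' t⟫ := by
  rw [L2.inner_def]
  refine integral_congr_ae ?_
  filter_upwards [h, h'] with t h1 h2
  rw [h1, h2]

theorem R.integrable (h : R f g) (h' : R f' g') : Integrable fun t => ⟪g t, g' t⟫ := by
  refine (L2.integrable_inner (𝕜 := ℝ) f f').congr ?_
  filter_upwards [h, h'] with t h1 h2
  rw [h1, h2]

theorem R.inner_eq {Y : Type*} [NormedAddCommGroup Y] [InnerProductSpace ℝ Y] {e e' : Lam Y}
    {k k' : ℝ → Y} (h : R f g) (h' : R f' g') (l : R e k) (l' : R e' k')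
    (H : ∀ᵐ t, ⟪g t, g' t⟫ = ⟪k t, k' t⟫) : ⟪f, f'⟫ = ⟪e, e'⟫ := by
  rw [h.inner h', l.inner l', integral_congr_ae H]

theorem inner_ma {Y : Type*} [NormedAddCommGroup Y] [InnerProductSpace ℝ Y] (b : ℝ →ᵇ ℝ)
    {a : X →L[ℝ] Y} {a' : Y →L[ℝ] X} (h : ∀ x y, ⟪a x, y⟫ = ⟪x, a' y⟫) (f : Lam X) (g : Lam Y) :
    ⟪ma b a f, g⟫ = ⟪f, ma b a' g⟫ :=
  R.inner_eq (by rr) (by rr) (by rr) (by rr) (ae_of_all _ fun t => by
    simp only [real_inner_smul_left, real_inner_smul_right, h])

/-- **The weak ODE `h' = -μ h`.** -/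
theorem weak_ode [CompleteSpace X] {h : Lam X} {μ F : ℝ → ℝ} (hμ : Continuous μ)
    (hF : ∀ t, HasDerivAt F (-(μ t * F t)) t) (hF0 : ∀ t, 0 < F t)
    (H : ∀ φ φ' : ℝ → ℝ, (∀ t, HasDerivAt φ (φ' t) t) → Continuous φ' → HasCompactSupport φ →
      ∫ t, (φ' t - μ t * φ t) • h t = 0) : ∃ c : X, ∀ᵐ t, h t = F t • c := by
  have cF : Continuous F := continuous_iff_continuousAt.2 fun t => (hF t).continuousAt
  have hl : LocallyIntegrable h volume := (Lp.memLp h).locallyIntegrable one_le_two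
  have key : ∀ ψ : ℝ → ℝ, Continuous ψ → HasCompactSupport ψ → ∫ t, F t * ψ t = 0 →
      ∫ t, ψ t • h t = 0 := by
    intro ψ c1 c2 h0
    obtain ⟨r, hr⟩ := c2.isCompact.isBounded.subset_closedBall 0
    have hz : ∀ t, r < |t| → ψ t = 0 := fun t ht => image_eq_zero_of_notMem_tsupport fun h =>
      ht.not_ge (by simpa using hr h)
    have c3 : Continuous fun t => F t * ψ t := cF.mul c1
    let G : ℝ → ℝ := fun t => ∫ s in (-(|r| + 1))..t, F s * ψ s
    have hG : ∀ t, HasDerivAt G (F t * ψ t) t := fun t => (c3.integral_hasStrictDerivAt _ t).hasDerivAt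
    have hG0 : ∀ t, |r| + 1 < |t| → G t = 0 := fun t ht => by
      rcases le_or_gt 0 t with h | h
      · rw [abs_of_nonneg h] at ht
        rw [← h0]
        refine intervalIntegral.integral_eq_integral_of_support_subset fun s hs => ?_
        have : |s| ≤ r := not_lt.1 fun h => hs (by simp [hz s h])
        have := abs_le.1 this
        constructor <;> linarith [le_abs_self r]
      · rw [abs_of_neg h] at ht
        refine (intervalIntegral.integral_congr (g := fun _ => 0) fun s hs => ?_).trans (by simp)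
        rw [uIcc_of_ge (by linarith)] at hs
        have : r < |s| := by
          rw [abs_of_nonpos (by linarith [hs.2, abs_nonneg r])]; linarith [hs.2, le_abs_self r]
        simp [hz s this]
    have cG : Continuous G := continuous_iff_continuousAt.2 fun t => (hG t).continuousAt
    have := H (fun t => G t / F t) (fun t => ψ t + μ t * (G t / F t)) (fun t => ?_)
      (c1.add (hμ.mul (cG.div cF fun t => (hF0 t).ne'))) ?_
    · simpa using this
    · refine ((hG t).div (hF t) (hF0 t).ne').congr_deriv ?_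
      have := (hF0 t).ne'
      field_simp
      ring
    · refine HasCompactSupport.intro (isCompact_closedBall (0 : ℝ) (|r| + 1)) fun t ht => ?_
      rw [hG0 t (by simpa using ht), zero_div]
  let β : ContDiffBump (0 : ℝ) := ⟨1, 2, one_pos, one_lt_two⟩
  have cβ : Continuous fun t => F t * β t := cF.mul β.continuous
  have iβ : Integrable fun t => F t * β t :=
    cβ.integrable_of_hasCompactSupport β.hasCompactSupport.mul_left
  have hβ : 0 < ∫ t, F t * β t :=
    cβ.integral_pos_of_hasCompactSupport_nonneg_nonzero β.hasCompactSupport.mul_left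
      (fun t => mul_nonneg (hF0 t).le β.nonneg) (x := 0) (by
        rw [β.one_of_mem_closedBall (by simp [β]), mul_one]; exact (hF0 0).ne')
  obtain ⟨m, hm⟩ : ∃ m, m = ∫ t, F t * β t := ⟨_, rfl⟩
  refine ⟨m⁻¹ • ∫ t, β t • h t, ae_eq_of_integral_contDiff_smul_eq hl
    (cF.smul continuous_const).locallyIntegrable fun ψ c1 c2 => ?_⟩
  have iψ : Integrable fun t => F t * ψ t :=
    (cF.mul c1.continuous).integrable_of_hasCompactSupport c2.mul_left
  obtain ⟨n, hn⟩ : ∃ n, n = ∫ t, F t * ψ t := ⟨_, rfl⟩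
  have h1 := key (fun t => ψ t - n / m * β t) (c1.continuous.sub (continuous_const.mul β.continuous))
    (c2.sub β.hasCompactSupport.mul_left) (by
      simp only [mul_sub, mul_left_comm (F _)]
      rw [integral_sub iψ (iβ.const_mul _), integral_const_mul, ← hm, ← hn,
        div_mul_cancel₀ _ (hm ▸ hβ.ne'), sub_self])
  simp only [sub_smul, mul_smul] at h1
  have i2 : Integrable fun t => (n / m) • β t • h t :=
    (hl.integrable_smul_left_of_hasCompactSupport β.continuous β.hasCompactSupport).smul _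
  rw [integral_sub (hl.integrable_smul_left_of_hasCompactSupport c1.continuous c2) i2,
    integral_smul, sub_eq_zero] at h1
  simp only [h1, smul_smul (ψ _), mul_comm (ψ _)]
  rw [integral_smul_const, ← hn, smul_smul, div_eq_mul_inv]

end inner

end Crest.Agent.X212.Cyf70
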