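import Crest.Agent.X212.Cyf70.Cyl
import Crest.Agent.X212.Cyf70.Lam
import Crest.Agent.X212.Prm93.H

/-!
# Row 212, CYLF (helper70): `Ψ k : L²_k(Y × ℝ) → L²(ℝ, L²_k(Y))`, unitary for `k = 0`
-/

set_option autoImplicit false
set_option linter.unusedSectionVars false
noncomputable section
open scoped Manifold ContDiff Topology InnerProductSpace BoundedContinuousFunction
open MeasureTheory Set Function Filter

namespace Crest.Agent.X212.Cyf70
open An An.Pre Sob92 Prm93

variable {E : Type} [NormedAddCommGroup E] [NormedSpace ℝ E] [FiniteDimensional ℝ E]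
  [MeasurableSpace E] [BorelSpace E]
  {HM : Type} [TopologicalSpace HM] {I : ModelWithCorners ℝ E HM} [I.Boundaryless]
  {Y : Type} [TopologicalSpace Y] [ChartedSpace HM Y] [IsManifold I ∞ Y] [T2Space Y]
  [MeasurableSpace Y] [BorelSpace Y] [SecondCountableTopology Y] [CompactSpace Y]
  {ι : Type} [Fintype ι]
  {V W : Type} [NormedAddCommGroup V] [InnerProductSpace ℝ V] [NormedAddCommGroup W]
  [InnerProductSpace ℝ W] {F : Pre I Y ι} {k j : ℕ} {p : Y → V →L[ℝ] V} {q : Y → W →L[ℝ] W}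

/-- the `t`-invariant bundle -/
abbrev pc (p : Y → V →L[ℝ] V) : Y × ℝ → V →L[ℝ] V := fun x => p x.1

/-- the slice of a section -/
def slc (u : Sec (IC I) (pc p)) (t : ℝ) : Sec I p :=
  ⟨fun y => u.1 (y, t), sm_slice_fst u.2.1 t, hcs_slice_fst u.2.2.1 t, fun y => u.2.2.2 (y, t)⟩

theorem dt_mem (F : Pre I Y ι) {u : Y × ℝ → V} (hu : u ∈ Sec (IC I) (pc p)) :
    (cylP F).D none u ∈ Sec (IC I) (pc p) :=
  ⟨(cylP F).sm_D hu.1 none, (cylP F).hcs_D hu.2.1 none, fun x =>
    (((p x.1).hasFDerivAt.comp_hasDerivAt x.2 (hasDerivAt_slice F hu.1 x.1 x.2)).unique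
      ((hasDerivAt_slice F hu.1 x.1 x.2).congr_of_eventuallyEq
        (Eventually.of_forall fun s => hu.2.2 (x.1, s))))⟩

variable (F) in
/-- the time derivative of a section -/
def dt (u : Sec (IC I) (pc p)) : Sec (IC I) (pc p) := ⟨_, dt_mem F u.2⟩

/-- the tensor product of a function of time and a section -/
def tens {φ : ℝ → ℝ} (h1 : ContDiff ℝ ∞ φ) (h2 : HasCompactSupport φ) (v : Sec I p) :
    Sec (IC I) (pc p) :=
  ⟨fun x => φ x.2 • v.1 x.1, (sm_snd h1).smul (sm_fst v.2.1),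
    HasCompactSupport.intro (isCompact_univ.prod h2.isCompact) fun x hx => by
      rw [image_eq_zero_of_notMem_tsupport fun h => hx ⟨trivial, h⟩, zero_smul],
    fun x => by rw [map_smul, v.2.2.2]⟩

theorem hcs_slc (u : Sec (IC I) (pc p)) : HasCompactSupport fun t => F.toH k p (slc u t) :=
  HasCompactSupport.intro (u.2.2.1.isCompact.image continuous_snd) fun t ht => by
    rw [show slc u t = 0 from Subtype.ext (funext fun y =>
      image_eq_zero_of_notMem_tsupport (f := u.1) fun h => ht ⟨(y, t), h, rfl⟩), map_zero]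

theorem hasDerivAt_slc (u : Sec (IC I) (pc p)) (t : ℝ) :
    HasDerivAt (fun s => F.toH k p (slc u s)) (F.toH k p (slc (dt F u) t)) t := by
  let o : F.H k (triv Y ℝ) := F.toH k _ ⟨fun _ => 1, mem_triv contMDiff_const (.of_compactSpace _)⟩
  let c := ContinuousLinearMap.smulRightL ℝ ℝ V (ContinuousLinearMap.id ℝ ℝ)
  let A : B F k V →L[ℝ] F.H k (triv Y V) := (mulB F k _).flip o ∘L B.clm c
  have hA : ∀ (g : B F k V) (v : Sec I p), B.fn g = v.1 → A g = fg F k p (F.toH k p v) := by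
    intro g v e
    rw [RepT_toH rep_fg]
    exact RepT_toH' (rep_mulH (B.clm c g).cb (Maps.triv _)) _ _ (funext fun x => by simp [c, e])
  have hj : JS I univ fun s y => u.1 (y, s) := fun s _ y =>
    ContMDiffAt.comp (g := u.1) (f := fun z : ℝ × Y => (z.2, z.1)) (s, y) (u.2.1 _)
      (contMDiffAt_snd.prodMk contMDiffAt_fst)
  have hf := hj.fam (F := F)
  have h1 := (A.hasFDerivAt.comp t (hf.hasFDerivAt (k := k) isCompact_univ isOpen_univ
    (mem_univ t))).hasDerivAt
  rw [ContinuousLinearMap.comp_apply, hA _ (slc (dt F u) t) (funext fun y => by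
    rw [B.fn_swap, fn_toB ((hf.pd isCompact_univ isOpen_univ).cb t trivial)]
    exact (hasDerivAt_slice F u.2.1 y t).deriv),
    show A ∘ (fun s => toB F k fun y => u.1 (y, s)) = fun s => fg F k p (F.toH k p (slc u s)) from
      funext fun s => hA _ _ (fn_toB (hf.cb s trivial))] at h1
  rw [hasDerivAt_iff_isLittleO] at h1 ⊢
  refine Asymptotics.IsLittleO.of_norm_left (h1.norm_left.congr_left fun s => ?_)
  rw [← map_smul, ← map_sub, ← map_sub, norm_fg]

theorem cont_slc (u : Sec (IC I) (pc p)) : Continuous fun t => F.toH k p (slc u t) :=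
  continuous_iff_continuousAt.2 fun t => (hasDerivAt_slc u t).continuousAt

theorem memLp_slc (u : Sec (IC I) (pc p)) : MemLp (fun t => F.toH k p (slc u t)) 2 volume :=
  (cont_slc u).memLp_of_hasCompactSupport (hcs_slc u)

theorem int_ip {u : Y × ℝ → V} (hu : Sm (IC I) u) (hc : HasCompactSupport u) :
    Integrable fun t => F.ip k (fun y => u (y, t)) fun y => u (y, t) :=
  ((R.toLp (memLp_slc (F := F) (k := k) (p := triv Y V) ⟨u, mem_triv hu hc⟩)).integrable
    (R.toLp (memLp_slc ⟨u, mem_triv hu hc⟩))).congr (ae_of_all _ fun _ => inner_toH ..)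

theorem ip_slc_zero {u v : Y × ℝ → V} (hu : Sm (IC I) u) (hc : HasCompactSupport u)
    (hv : Sm (IC I) v) :
    ∫ t, F.ip 0 (fun y => u (y, t)) (fun y => v (y, t)) = (cylP F).ip 0 u v :=
  (integral_cyl F (u := fun x => ⟪u x, v x⟫_ℝ) (hu.continuous.inner hv.continuous)
    (hc.mono fun x hx h => hx (by simp [h]))).symm

theorem ip_slc_le (k : ℕ) : ∀ {u : Y × ℝ → V}, Sm (IC I) u → HasCompactSupport u →
    ∫ t, F.ip k (fun y => u (y, t)) (fun y => u (y, t)) ≤ (cylP F).ip k u u := by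
  induction k with
  | zero => exact fun hu hc => (ip_slc_zero hu hc hu).le
  | succ k ih =>
    intro u hu hc
    have e : ∀ t, F.ip (k + 1) (fun y => u (y, t)) (fun y => u (y, t)) =
        F.ip 0 (fun y => u (y, t)) (fun y => u (y, t)) + ∑ a,
          F.ip k (fun y => (cylP F).D (some a) u (y, t)) fun y => (cylP F).D (some a) u (y, t) :=
      fun t => by simp only [D_some F hu]; rfl
    have i := fun a => int_ip (F := F) (k := k) ((cylP F).sm_D hu (some a)) ((cylP F).hcs_D hc _)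
    simp only [e]
    rw [integral_add (int_ip hu hc) (integrable_finsetSum _ fun a _ => i a),
      integral_finsetSum _ fun a _ => i a, ip_slc_zero hu hc hu, ip, ip, Fintype.sum_option]
    exact add_le_add_right (le_add_of_nonneg_of_le ((cylP F).ip_nonneg _ _) (Finset.sum_le_sum
      fun a _ => ih ((cylP F).sm_D hu _) ((cylP F).hcs_D hc _))) _

variable (F k p) in
/-- slices of smooth sections -/
def psl : Sec (IC I) (pc p) →ₗ[ℝ] Lam (F.H k p) where
  toFun u := (memLp_slc u).toLp _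
  map_add' u v := (R.toLp _).ext' ((R.toLp _).add (R.toLp _)) fun t =>
    map_add (F.toH k p) (slc u t) (slc v t)
  map_smul' c u := (R.toLp _).ext' ((R.toLp _).smul c) fun t => map_smul (F.toH k p) c (slc u t)

theorem R_psl (u : Sec (IC I) (pc p)) : R (psl F k p u) fun t => F.toH k p (slc u t) :=
  R.toLp (memLp_slc u)

theorem inner_psl (u v : Sec (IC I) (pc p)) : ⟪psl F k p u, psl F k p v⟫_ℝ =
    ∫ t, F.ip k (fun y => u.1 (y, t)) fun y => v.1 (y, t) :=
  ((R_psl u).inner (R_psl v)).trans (integral_congr_ae (ae_of_all _ fun t =>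
    F.inner_toH k p (slc u t) (slc v t)))

theorem norm_psl_le (u : Sec (IC I) (pc p)) : ‖psl F k p u‖ ≤ 1 * (cylP F).nrm k u.1 := by
  rw [one_mul, norm_eq_sqrt_real_inner, inner_psl]
  exact Real.sqrt_le_sqrt (ip_slc_le k u.2.1 u.2.2.1)

variable (F k p) in
/-- `L²_k(Y × ℝ) → L²(ℝ, L²_k(Y))` -/
def Ψ : (cylP F).H k (pc p) →L[ℝ] Lam (F.H k p) :=
  (exists_ext (F := cylP F) (k := k) (psl F k p) zero_le_one norm_psl_le).choose

theorem Ψ_toH (u : Sec (IC I) (pc p)) : Ψ F k p ((cylP F).toH k (pc p) u) = psl F k p u :=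
  (exists_ext (F := cylP F) (k := k) (psl F k p) zero_le_one norm_psl_le).choose_spec.1 u

theorem R_Ψ (u : Sec (IC I) (pc p)) :
    R (Ψ F k p ((cylP F).toH k (pc p) u)) fun t => F.toH k p (slc u t) := by
  rw [Ψ_toH]; exact R_psl u

theorem norm_Ψ_le : ‖Ψ F k p‖ ≤ 1 :=
  (exists_ext (F := cylP F) (k := k) (psl F k p) zero_le_one norm_psl_le).choose_spec.2

theorem inner_Ψ (x y : (cylP F).H 0 (pc p)) : ⟪Ψ F 0 p x, Ψ F 0 p y⟫_ℝ = ⟪x, y⟫_ℝ := by
  induction x, y using H_ind₂ with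
  | hP => exact isClosed_eq (by fun_prop) (by fun_prop)
  | h u v => rw [Ψ_toH, Ψ_toH, inner_psl, ip_slc_zero u.2.1 u.2.2.1 v.2.1, inner_toH]

theorem norm_Ψ (x : (cylP F).H 0 (pc p)) : ‖Ψ F 0 p x‖ = ‖x‖ := by
  rw [norm_eq_sqrt_real_inner, inner_Ψ, norm_eq_sqrt_real_inner]

theorem Ψ_surj : Surjective (Ψ F 0 p) := by
  have : CompleteSpace (Ψ F 0 p).range :=
    (Fred93.isClosed_range_of_bound (c := 1) fun x => by rw [norm_Ψ, one_mul]).completeSpace_coe
  refine LinearMap.range_eq_top.1 (Submodule.orthogonal_eq_bot_iff.1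
    ((Submodule.eq_bot_iff _).2 fun g hg => ?_))
  have hl : LocallyIntegrable g volume := (Lp.memLp _).locallyIntegrable one_le_two
  refine Lp.eq_zero_iff_ae_eq_zero.2 (ae_eq_zero_of_integral_contDiff_smul_eq_zero hl
    fun φ h1 h2 => ext_inner_left ℝ fun x => ?_)
  induction x using H_ind with
  | hP => exact isClosed_eq (by fun_prop) (by fun_prop)
  | h v =>
    have := hg _ ⟨(cylP F).toH 0 _ (tens h1 h2 v), rfl⟩
    rw [ContinuousLinearMap.coe_coe, (R_Ψ _).inner (R.rfl g)] at this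
    rw [inner_zero_right, ← integral_inner
      (hl.integrable_smul_left_of_hasCompactSupport h1.continuous h2), ← this]
    refine integral_congr_ae (ae_of_all _ fun t => ?_)
    simp only [show slc (tens h1 h2 v) t = φ t • v from rfl, map_smul, real_inner_smul_left,
      real_inner_smul_right]

variable (F p) in
/-- **`L²(Y × ℝ) = L²(ℝ, L²(Y))`** -/
def Ψe : (cylP F).H 0 (pc p) ≃ₗᵢ[ℝ] Lam (F.H 0 p) :=
  LinearIsometryEquiv.ofSurjective ⟨(Ψ F 0 p).toLinearMap, norm_Ψ⟩ Ψ_surj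

theorem Ψe_apply (x : (cylP F).H 0 (pc p)) : Ψe F p x = Ψ F 0 p x := rfl

/-- operators acting slice by slice -/
theorem Ψ_nat {k' : ℕ} {A : (cylP F).H k' (pc p) →L[ℝ] (cylP F).H j (pc q)}
    {T : (Y × ℝ → V) → Y × ℝ → W} (hA : (cylP F).Rep A T) {a : F.H k p →L[ℝ] F.H j q}
    {T' : (Y → V) → Y → W} (ha : F.Rep a T') (b : ℝ →ᵇ ℝ) (hk : k ≤ k')
    (h : ∀ (u : Sec (IC I) (pc p)) y t, T u.1 (y, t) = b t • T' (fun y => u.1 (y, t)) y)
    (x : (cylP F).H k' (pc p)) :
    Ψ F j q (A x) = ma b a (Ψ F k p ((cylP F).incl k' k (pc p) x)) := by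
  induction x using H_ind with
  | hP => exact isClosed_eq (by fun_prop) (by fun_prop)
  | h u =>
    rw [RepT_toH hA, incl_toH hk]
    refine (R_Ψ _).ext' ((R_Ψ u).ma b a) fun t => ?_
    rw [RepT_toH ha, ← map_smul]
    exact congrArg _ (Subtype.ext (funext fun y => h u y t))

theorem Ψ_incl (h : j ≤ k) (x : (cylP F).H k (pc p)) :
    Ψ F j p ((cylP F).incl k j (pc p) x) = cp (F.incl k j p) (Ψ F k p x) := by
  rw [Ψ_nat (rep_incl h) (rep_incl h) 1 le_rfl (fun _ _ _ => (one_smul _ _).symm), incl_self]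

theorem Ψ_smul {b : ℝ →ᵇ ℝ} (hb : (cylP F).Cb fun x => b x.2) (x : (cylP F).H k (pc p)) :
    Ψ F k p (smulH (cylP F) k (pc p) (fun x => b x.2) x) = mt _ b (Ψ F k p x) := by
  rw [Ψ_nat (rep_smulH hb) Rep_id b le_rfl (fun _ _ _ => rfl), incl_self]

theorem Ψ_mul {f : Y → V →L[ℝ] W} (hf : Sm I f) (hm : Maps p q f) (x : (cylP F).H k (pc p))
    (hf' : (cylP F).Cb fun x => f x.1) :
    Ψ F k q ((cylP F).mulH k (pc p) (pc q) (fun x => f x.1) x) =
      cp (F.mulH k p q f) (Ψ F k p x) := by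
  rw [Ψ_nat (rep_mulH hf' fun x => hm x.1) (rep_mulH (Cb_of_compact hf) hm) 1 le_rfl
    (fun _ _ _ => (one_smul _ _).symm), incl_self]

variable (F k p) in
/-- the time derivative -/
def DtH : (cylP F).H (k + 1) (pc p) →L[ℝ] (cylP F).H k (pc p) :=
  (cylP F).lift (k + 1) k (pc p) (pc p) ((cylP F).D none)

theorem rep_DtH' : (cylP F).Rep (DtH F k p) ((cylP F).D none) ∧ ‖DtH F k p‖ ≤ 1 :=
  rep_liftT (fun _ hu => dt_mem F hu) (fun _ hu _ hv => (cylP F).D_add hu.1 hv.1 _)
    (fun c _ hu => (cylP F).D_smul hu.1 c _) zero_le_one fun u _ => by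
      simpa using nrm_D_le k u none

theorem rep_DtH : (cylP F).Rep (DtH F k p) ((cylP F).D none) := rep_DtH'.1

theorem DtH_toH (u : Sec (IC I) (pc p)) :
    DtH F k p ((cylP F).toH (k + 1) _ u) = (cylP F).toH k _ (dt F u) := RepT_toH rep_DtH u

theorem incl_DtH (h : j ≤ k) (x : (cylP F).H (k + 1) (pc p)) :
    (cylP F).incl k j _ (DtH F k p x) = DtH F j p ((cylP F).incl (k + 1) (j + 1) _ x) :=
  Rep_incl rep_DtH rep_DtH (by omega) h x

theorem DtH_skew (x y : (cylP F).H 1 (pc p)) : ⟪DtH F 0 p x, (cylP F).incl 1 0 _ y⟫_ℝ =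
    -⟪(cylP F).incl 1 0 _ x, DtH F 0 p y⟫_ℝ := by
  induction x, y using H_ind₂ with
  | hP => exact isClosed_eq (by fun_prop) (by fun_prop)
  | h u v =>
    rw [DtH_toH, DtH_toH, incl_toH zero_le_one, incl_toH zero_le_one, inner_toH, inner_toH, ip, ip,
      eq_neg_iff_add_eq_zero, ← integral_add
        ((cylP F).integrable_inner (dt F u).2.1.continuous (dt F u).2.2.1 v.2.1.continuous)
        ((cylP F).integrable_inner u.2.1.continuous u.2.2.1 (dt F v).2.1.continuous),
      ← integral_D_none F (smooth_bil (innerSL ℝ (E := V)) u.2.1 v.2.1)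
        (hcs_bil_left _ _ u.2.2.1)]
    refine integral_congr_ae (ae_of_all _ fun x => ?_)
    exact (dv_bil (innerSL ℝ (E := V)) (u.2.1.mdifferentiableAt (by simp))
      (v.2.1.mdifferentiableAt (by simp))).symm

end Crest.Agent.X212.Cyf70
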