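import Crest.Agent.X212.Cyf70.Tr
import Crest.Agent.X212.Rf65.Cyi
import Mathlib.Analysis.Calculus.BumpFunction.Normed

/-!
# Row 212, CYLF (helper70): the slice part of a translation invariant non-local operator
-/

set_option autoImplicit false
set_option linter.unusedSectionVars false
open Function Filter Topology Module Set MeasureTheory
open scoped RealInnerProductSpace BoundedContinuousFunction ContDiff

noncomputable section
namespace Crest.Agent.X212.Cyf70
open Neck67 (Sm Bd ex up dn cS)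
open Dec35 Rf65
open ContinuousLinearMap (adjoint)

variable {X : Type*} [NormedAddCommGroup X] [InnerProductSpace ℝ X] [CompleteSpace X]
  {K : Lam X →L[ℝ] Lam X} {d C : ℝ}

theorem le_of_inner {A : Type*} [NormedAddCommGroup A] [InnerProductSpace ℝ A] {v : A} {c : ℝ}
    (h : ∀ y, ⟪v, y⟫ ≤ c * ‖y‖) (hc : 0 ≤ c := by positivity) : ‖v‖ ≤ c := by
  have := h v
  rw [real_inner_self_eq_norm_mul_norm] at this
  rcases (norm_nonneg v).eq_or_lt with h0 | h0
  · rwa [← h0]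
  · exact le_of_mul_le_mul_right this h0

/-- separated supports -/
theorem sep_le {A : Type*} [NormedAddCommGroup A] [InnerProductSpace ℝ A] {M : Mu A}
    {K : A →L[ℝ] A} (h : M.KW K d C) (hd : 0 ≤ d) {b c : ℝ → ℝ} (hb : Sm b) (hc : Sm c)
    {β γ p a : ℝ} (h1 : ∀ t, |b t| ≤ β) (h2 : ∀ t, |c t| ≤ γ) (ha : 1 ≤ a)
    (h3 : ((∀ t, b t ≠ 0 → t ≤ p) ∧ ∀ t, c t ≠ 0 → p + a ≤ t) ∨
      ((∀ t, c t ≠ 0 → t ≤ p) ∧ ∀ t, b t ≠ 0 → p + a ≤ t)) :
    ‖M.m b * K * M.m c‖ ≤ C * (β * γ) * Real.exp (-(d / cS 0 * a)) := by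
  have cS0 : 0 < cS 0 := lt_of_lt_of_le one_pos (Neck67.one_le_cS 0)
  have slope : ∀ {w : ℝ → ℝ}, Bd 0 (deriv w) (a⁻¹ * cS 0) →
      Bd 0 (deriv ((d / cS 0 * a) • w)) d := fun {w} hw => by
    have e : deriv ((d / cS 0 * a) • w) = (d / cS 0 * a) • deriv w := by
      ext t; exact deriv_const_smul_field _ _
    rw [e]
    refine (hw.smul _).mono (le_of_eq ?_)
    rw [abs_of_nonneg (by positivity)]; field_simp
  rcases h3 with ⟨s1, s2⟩ | ⟨s1, s2⟩
  · refine h.sep ((Neck67.sm_dn ha (p + a)).smul _) (slope (Neck67.bd_deriv_dn 0 ha _)) hb hc h1 h2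
      (fun t ht => ?_) fun t ht => ?_
    · rw [Pi.smul_apply, Neck67.dn_one (by linarith) (by linarith [s1 t ht])]; simp
    · rw [Pi.smul_apply, Neck67.dn_zero (by linarith) (s2 t ht)]; simp
  · refine h.sep ((Neck67.sm_up ha p).smul _) (slope (Neck67.bd_deriv_up 0 ha _)) hb hc h1 h2
      (fun t ht => ?_) fun t ht => ?_
    · rw [Pi.smul_apply, Neck67.up_one (by linarith) (s2 t ht)]; simp
    · rw [Pi.smul_apply, Neck67.up_zero (by linarith) (s1 t ht)]; simp

/-- an even bump function of integral one -/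
def ph : ℝ → ℝ := (⟨1 / 2, 1, by norm_num, by norm_num⟩ : ContDiffBump (0 : ℝ)).normed volume

theorem ph_cont : Continuous ph := ContDiffBump.continuous_normed _
theorem ph_hcs : HasCompactSupport ph := ContDiffBump.hasCompactSupport_normed _
theorem ph_neg (r : ℝ) : ph (-r) = ph r := ContDiffBump.normed_neg _ r
theorem ph_int : ∫ r, ph r = 1 := ContDiffBump.integral_normed _
theorem ph_zero {r : ℝ} (h : 1 ≤ |r|) : ph r = 0 := by
  by_contra h0
  have : r ∈ support ph := h0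
  rw [ph, ContDiffBump.support_normed_eq] at this
  exact h.not_gt (by simpa using this)

/-- the bump in `L²` -/
def Ph : Lam ℝ := (ph_cont.memLp_of_hasCompactSupport ph_hcs).toLp ph

theorem R_Ph : R Ph ph := R.toLp _

variable (X) in
/-- `a ↦ φ(t - r) a` -/
def Et (r : ℝ) : X →L[ℝ] Lam X := ten (tr ℝ (-r) Ph)

theorem R_Et (r : ℝ) (a : X) : R (Et X r a) fun t => ph (t + -r) • a := (R_Ph.tr _).ten a

theorem tr_Et (h r : ℝ) (a : X) : tr X h (Et X r a) = Et X (r - h) a :=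
  R.ext' ((R_Et r a).tr h) (R_Et _ a) fun t => by congr 2; ring

theorem norm_ten_le (φ : Lam ℝ) (a : X) : ‖ten φ a‖ ≤ ‖φ‖ * ‖a‖ := by
  rw [mul_comm]
  exact R.norm_le ((R.rfl φ).ten a) (R.rfl φ) (ae_of_all _ fun t => by rw [norm_smul, mul_comm])

theorem norm_Et (r : ℝ) (a : X) : ‖Et X r a‖ ≤ ‖Ph‖ * ‖a‖ := (norm_ten_le _ a).trans_eq (by rw [norm_tr])

theorem cont_Et : Continuous (Et X) := by
  have : LipschitzWith 1 (ten : Lam ℝ → X →L[ℝ] Lam X) := LipschitzWith.of_dist_le_mul fun φ ψ => by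
    rw [dist_eq_norm, dist_eq_norm, NNReal.coe_one, one_mul]
    refine ContinuousLinearMap.opNorm_le_bound _ (norm_nonneg _) fun a =>
      le_trans (le_of_eq ?_) (norm_ten_le (φ - ψ) a)
    exact congrArg _ (show ten φ a - ten ψ a = _ from
      R.ext' (by rt) (by rt) fun t => (sub_smul _ _ _).symm)
  exact this.continuous.comp ((cont_tr Ph).comp continuous_neg)

theorem ker_of_le {g : ℝ → X →L[ℝ] X} (hc : Continuous g) {f : ℝ → ℝ} (hb : ∀ r, ‖g r‖ ≤ f r)
    (hi : Integrable fun r => (1 + r ^ 2) * f r) : Ker g ∧ mo g ≤ ∫ r, (1 + r ^ 2) * f r := by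
  have h1 : ∀ r, (1 + r ^ 2) * ‖g r‖ ≤ (1 + r ^ 2) * f r := fun r =>
    mul_le_mul_of_nonneg_left (hb r) (by positivity)
  have h2 : Integrable fun r => (1 + r ^ 2) * ‖g r‖ :=
    hi.mono' (Continuous.aestronglyMeasurable (by fun_prop)) (ae_of_all _ fun r => by
      rw [Real.norm_of_nonneg (by positivity)]; exact h1 r)
  exact ⟨⟨hc, h2⟩, integral_mono h2 hi h1⟩

variable (X) in
/-- the bump as a kernel -/
def pI (r : ℝ) : X →L[ℝ] X := ph r • ContinuousLinearMap.id ℝ X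

/-- the moment of the bump -/
def mp : ℝ := ∫ r, (1 + r ^ 2) * ‖ph r‖

theorem ker_mo : Ker (pI X) ∧ mo (pI X) ≤ mp :=
  ker_of_le (ph_cont.smul continuous_const) (fun r => ContinuousLinearMap.opNorm_le_bound _
    (norm_nonneg _) fun x => (norm_smul (ph r) x).le) (Continuous.integrable_of_hasCompactSupport
    (by have := ph_cont; fun_prop) (HasCompactSupport.mul_left ph_hcs.norm))

variable (X) in
theorem ker_ph : Ker (pI X) := ker_mo.1

theorem mo_ph : mo (pI X) ≤ mp := ker_mo.2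

theorem mp_nonneg : 0 ≤ mp := integral_nonneg fun _ => by positivity

variable (X) in
/-- smoothing -/
def Cs : Lam X →L[ℝ] Lam X := (ker_ph X).cv

theorem cp_ph (r : ℝ) (x : Lam X) : cp (pI X r) x = ph r • x :=
  R.ext' (by rt) (by rt) fun t => by simp [pI]

theorem cp_int_ph (x : Lam X) : cp (∫ r, pI X r) x = x := by
  rw [(ker_ph X).cp_int]; simp only [cp_ph]; rw [integral_smul_const, ph_int, one_smul]

theorem norm_Cs (x : Lam X) : ‖Cs X x‖ ≤ mp * ‖x‖ :=
  ((ker_ph X).norm_cv x).trans (mul_le_mul_of_nonneg_right mo_ph (norm_nonneg _))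

theorem Lip.Cs {x : Lam X} {D : ℝ} (h : Lip x D) : Lip (Cs X x) (mp * D) :=
  h.map (ker_ph X).tr_cv norm_Cs mp_nonneg

theorem Cs_sub {x : Lam X} {D : ℝ} (h : Lip x D) : ‖Cs X x - x‖ ≤ mp * D := by
  have := (ker_ph X).cv_sub_le h
  rw [cp_int_ph] at this
  exact this.trans (mul_le_mul_of_nonneg_right mo_ph h.nonneg)

theorem Cs_even {x y : Lam X} {D D' : ℝ} (h : Lip x D) (h' : Lip y D') :
    |⟪Cs X x - x, y⟫| ≤ mp * (D * D') := by
  have := (ker_ph X).even (fun r => by rw [pI, ph_neg, pI]) h h'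
  rw [cp_int_ph] at this
  exact this.trans (mul_le_mul_of_nonneg_right mo_ph (mul_nonneg h.nonneg h'.nonneg))

theorem Cs2_sub {x : Lam X} {D : ℝ} (h : Lip x D) : ‖Cs X (Cs X x) - x‖ ≤ (mp * mp + mp) * D := by
  rw [← sub_add_sub_cancel _ (Cs X x)]
  exact (norm_add_le _ _).trans ((add_le_add (Cs_sub h.Cs) (Cs_sub h)).trans_eq (by ring))

theorem Cs2_even {x y : Lam X} {D D' : ℝ} (h : Lip x D) (h' : Lip y D') :
    |⟪Cs X (Cs X x) - x, y⟫| ≤ (mp * mp + mp) * (D * D') := by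
  rw [← sub_add_sub_cancel _ (Cs X x), inner_add_left]
  exact (abs_add_le _ _).trans ((add_le_add (Cs_even h.Cs h') (Cs_even h h')).trans_eq (by ring))

theorem Cs_symm (x y : Lam X) : ⟪Cs X x, y⟫ = ⟪x, Cs X y⟫ := by
  rw [real_inner_comm (Cs X y), Cs, Ker.inner_cv', Ker.inner_cv', ← integral_neg_eq_self]
  simp only [cp_ph, real_inner_smul_left, ph_neg, inner_tr _ x, neg_neg]
  simp only [real_inner_comm x]

theorem inner_Cs (w y : Lam X) : ⟪Cs X w, y⟫ = ∫ s, ⟪w, Et X s (y s)⟫ := by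
  rw [Cs, Ker.inner_cv]
  congr 1; funext s
  rw [R.inner (R.rfl w) (R_Et s _),
    ← integral_add_left_eq_self (fun t => ⟪w t, ph (t + -s) • y s⟫) s]
  simp [pI, real_inner_smul_left, real_inner_smul_right]

theorem Cs_comm (ht : ∀ r x, tr X r (K x) = K (tr X r x)) (x : Lam X) :
    Cs X (K x) = K (Cs X x) := by
  rw [Cs, Ker.map_cv, Ker.cv_apply]; simp only [cp_ph, map_smul, ht]

/-- symmetric, translation invariant, exponentially decaying kernel -/
structure TK (K : Lam X →L[ℝ] Lam X) (d C : ℝ) : Prop where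
  sym : ∀ x y, ⟪K x, y⟫ = ⟪x, K y⟫
  ti : ∀ r x, tr X r (K x) = K (tr X r x)
  kw : (muL X).KW K d C
  pos : 0 < d

/-- the smoothed kernel -/
def gk (K : Lam X →L[ℝ] Lam X) (r : ℝ) : X →L[ℝ] X := adjoint (Et X 0) ∘L K ∘L Et X r

/-- **the slice part** -/
def kk (K : Lam X →L[ℝ] Lam X) : X →L[ℝ] X := ∫ r, gk K r

theorem inner_gk (r : ℝ) (a b : X) : ⟪gk K r a, b⟫ = ⟪K (Et X r a), Et X 0 b⟫ :=
  ContinuousLinearMap.adjoint_inner_left (Et X 0) b (K (Et X r a))

theorem int_exp {e : ℝ} (he : 0 < e) :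
    Integrable fun r : ℝ => (1 + r ^ 2) * Real.exp (e * (5 - |r|)) := by
  refine (integrable_inv_one_add_sq.const_mul (2 * (1 + 24 / e ^ 4) * Real.exp (e * 5))).mono'
    (Continuous.aestronglyMeasurable (by fun_prop)) (ae_of_all _ fun r => ?_)
  have h1 := Real.pow_div_factorial_le_exp _ (mul_nonneg he.le (abs_nonneg r)) 4
  have h2 := Real.one_le_exp (mul_nonneg he.le (abs_nonneg r))
  have h3 : r ^ 4 ≤ 24 / e ^ 4 * Real.exp (e * |r|) := by
    rw [div_mul_eq_mul_div, le_div_iff₀ (by positivity)]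
    rw [mul_pow, show |r| ^ 4 = r ^ 4 from Even.pow_abs (by decide) r] at h1
    norm_num [Nat.factorial] at h1
    linarith
  rw [Real.norm_of_nonneg (by positivity), mul_sub, Real.exp_sub, ← div_eq_mul_inv,
    le_div_iff₀ (by positivity), mul_div_assoc', div_mul_eq_mul_div, div_le_iff₀ (by positivity)]
  have h4 : (1 + r ^ 2) ^ 2 ≤ 2 * (1 + 24 / e ^ 4) * Real.exp (e * |r|) := by
    nlinarith [sq_nonneg (1 - r ^ 2)]
  nlinarith [mul_le_mul_of_nonneg_left h4 (Real.exp_pos (e * 5)).le]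

/-- the constant of the moment -/
def cM (d : ℝ) : ℝ := ‖Ph‖ ^ 2 * ∫ r : ℝ, (1 + r ^ 2) * Real.exp (d / cS 0 * (5 - |r|))

namespace TK
variable (h : TK K d C)
include h

theorem norm_le : ‖K‖ ≤ C := h.kw.norm_le h.pos.le

theorem nonneg : 0 ≤ C := le_trans (norm_nonneg K) h.norm_le

theorem gk_neg (r : ℝ) (a b : X) : ⟪gk K (-r) a, b⟫ = ⟪a, gk K r b⟫ := by
  rw [real_inner_comm (gk K r b), inner_gk, inner_gk, h.sym, real_inner_comm,
    show Et X (-r) a = tr X r (Et X 0 a) by rw [tr_Et, zero_sub], real_inner_comm, inner_tr, h.ti,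
    tr_Et, zero_sub, neg_neg, real_inner_comm]

theorem norm_gk (r : ℝ) : ‖gk K r‖ ≤ C * (‖Ph‖ ^ 2 * Real.exp (d / cS 0 * (5 - |r|))) := by
  have C0 : 0 ≤ C := h.nonneg
  have e0 : 0 ≤ d / cS 0 := div_nonneg h.pos.le (zero_le_one.trans (Neck67.one_le_cS 0))
  let b : ℝ → ℝ → ℝ := fun s => up (s - 2) 1 * dn (s + 2) 1
  have sb : ∀ s, Sm (b s) := fun s => (Neck67.sm_up le_rfl _).mul (Neck67.sm_dn le_rfl _)
  have b1 : ∀ s t, |b s t| ≤ 1 := fun s t => by
    have h1 := Neck67.up_mem (s - 2) 1 t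
    have h2 := Neck67.dn_mem (s + 2) 1 t
    exact (abs_of_nonneg (mul_nonneg h1.1 h2.1)).trans_le (mul_le_one₀ h1.2 h2.1 h2.2)
  have b2 : ∀ s t, b s t ≠ 0 → s - 2 ≤ t ∧ t ≤ s + 2 := fun s t ht =>
    ⟨not_lt.1 fun h => ht (by simp [b, Neck67.up_zero one_pos h.le]),
      not_lt.1 fun h => ht (by simp [b, Neck67.dn_zero one_pos h.le])⟩
  have b3 : ∀ s a, (muL X).m (b s) (Et X s a) = Et X s a := fun s a =>
    R.ext' ((R_Et s a).ma _ _) (R_Et s a) fun t => by
      by_cases ht : 1 ≤ |t + -s|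
      · simp [ph_zero ht]
      · have := abs_lt.1 (not_le.1 ht)
        simp [bc_apply (sb s), b, Neck67.up_one (p := s - 2) (t := t) one_pos (by linarith),
          Neck67.dn_one (q := s + 2) (t := t) one_pos (by linarith)]
  have key : ‖(muL X).m (b 0) * K * (muL X).m (b r)‖ ≤ C * Real.exp (d / cS 0 * (5 - |r|)) := by
    by_cases h5 : |r| ≤ 5
    · have := h.kw.sep Neck67.Sm.zero (fun t => by simpa using h.pos.le) (sb 0) (sb r) (b1 0) (b1 r)
        (D := 0) (fun _ _ => le_rfl) fun _ _ => le_rfl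
      refine this.trans ?_
      rw [mul_one, mul_one]
      exact mul_le_mul_of_nonneg_left (Real.exp_le_exp.2 (by
        rw [neg_zero]; exact mul_nonneg e0 (by linarith))) C0
    · have := sep_le h.kw h.pos.le (sb 0) (sb r) (b1 0) (b1 r) (a := |r| - 4)
        (p := if 0 ≤ r then 2 else r + 2) (by linarith) (by
          split_ifs with h0
          · rw [abs_of_nonneg h0]
            exact .inl ⟨fun t ht => by linarith [(b2 0 t ht).2], fun t ht => by
              linarith [(b2 r t ht).1]⟩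
          · rw [abs_of_neg (not_le.1 h0)]
            exact .inr ⟨fun t ht => (b2 r t ht).2, fun t ht => by linarith [(b2 0 t ht).1]⟩)
      refine this.trans ?_
      rw [mul_one, mul_one]
      exact mul_le_mul_of_nonneg_left (Real.exp_le_exp.2 (by nlinarith)) C0
  refine ContinuousLinearMap.opNorm_le_bound _ (by positivity) fun a => ?_
  refine le_of_inner fun y => ?_
  rw [inner_gk, ← b3 r a, ← b3 0 y, ← (muL X).sym (sb 0)]
  have h1 := ContinuousLinearMap.le_of_opNorm_le_of_le _ key (norm_Et r a)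
  refine (real_inner_le_norm _ _).trans ((mul_le_mul h1 (norm_Et 0 y) (norm_nonneg _)
    (by positivity)).trans_eq (by ring))

theorem ker_mo : Ker (gk K) ∧ mo (gk K) ≤ cM d * C := by
  have e0 : 0 < d / cS 0 := div_pos h.pos (one_pos.trans_le (Neck67.one_le_cS 0))
  have := ker_of_le (g := gk K) (continuous_const.clm_comp (continuous_const.clm_comp cont_Et))
    h.norm_gk (((int_exp e0).const_mul (C * ‖Ph‖ ^ 2)).congr (ae_of_all _ fun r => by ring))
  refine ⟨this.1, this.2.trans_eq ?_⟩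
  rw [cM, mul_comm _ C, ← mul_assoc, ← integral_const_mul]
  congr 1; funext r; ring

theorem cv_eq (x : Lam X) : h.ker_mo.1.cv x = Cs X (K (Cs X x)) := by
  refine ext_inner_right ℝ fun y => ?_
  rw [Ker.inner_cv, inner_Cs]
  congr 1; funext s
  rw [h.sym, Cs_symm, real_inner_comm _ x, inner_Cs,
    ← integral_add_left_eq_self (fun t => ⟪K (Et X s (y s)), Et X t (x t)⟫) s]
  congr 1; funext r
  rw [inner_gk, show Et X 0 (y s) = tr X s (Et X s (y s)) by rw [tr_Et, sub_self],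
    real_inner_comm, inner_tr, h.ti, tr_Et, h.sym, sub_neg_eq_add, add_comm r]

theorem inner_kk (a b : X) : ⟪kk K a, b⟫ = ∫ r, ⟪gk K r a, b⟫ := by
  have := ((innerSL ℝ b ∘L ContinuousLinearMap.apply ℝ X a).integral_comp_comm
    h.ker_mo.1.int').symm
  simpa only [ContinuousLinearMap.comp_apply, ContinuousLinearMap.apply_apply, innerSL_apply_apply,
    kk, real_inner_comm _ b] using this

theorem kk_symm (a b : X) : ⟪kk K a, b⟫ = ⟪a, kk K b⟫ := by
  rw [real_inner_comm (kk K b), h.inner_kk, h.inner_kk, ← integral_neg_eq_self]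
  simp only [h.gk_neg, real_inner_comm a]

theorem norm_kk : ‖kk K‖ ≤ cM d * C := by
  have := (h.ker_mo.1.bd h.ker_mo.1.cont (c := 1) fun r => by
    nlinarith [norm_nonneg (gk K r), mul_nonneg (sq_nonneg r) (norm_nonneg (gk K r))]).2
  rw [mul_one] at this
  exact this.trans h.ker_mo.2

theorem cM_nonneg : 0 ≤ cM d * C := (mo_nonneg _).trans h.ker_mo.2

theorem split (x : Lam X) : K x - cp (kk K) x =
    (h.ker_mo.1.cv x - cp (kk K) x) - K (Cs X (Cs X x) - x) := by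
  rw [h.cv_eq, Cs_comm h.ti, map_sub]; abel

theorem est {x : Lam X} {D : ℝ} (hx : Lip x D) :
    ‖K x - cp (kk K) x‖ ≤ (cM d * C + C * (mp * mp + mp)) * D := by
  have h1 := (h.ker_mo.1.cv_sub_le hx).trans (mul_le_mul_of_nonneg_right h.ker_mo.2 hx.nonneg)
  have h2 := ContinuousLinearMap.le_of_opNorm_le_of_le _ h.norm_le (Cs2_sub hx)
  rw [h.split]
  exact (norm_sub_le _ _).trans ((add_le_add h1 h2).trans_eq (by ring))

end TK

/-- `k` is the slice part of `K`, second order vanishing on the range of `P` -/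
structure NK (K : Lam X →L[ℝ] Lam X) (k P : X →L[ℝ] X) (M : ℝ) : Prop where
  sym : ∀ x y, ⟪K x, y⟫ = ⟪x, K y⟫
  ti : ∀ r x, tr X r (K x) = K (tr X r x)
  ks : ∀ a b, ⟪k a, b⟫ = ⟪a, k b⟫
  est : ∀ x D, Lip x D → ‖K x - cp k x‖ ≤ M * D
  quad : ∀ x y D D', Lip x D → Lip y D' →
    |⟪K (cp P x) - cp k (cp P x), cp P y⟫| ≤ M * (D * D')

/-- `P` symmetric, the smoothed kernel symmetric on the range of `P` -/
theorem TK.nk (h : TK K d C) {P : X →L[ℝ] X} (hP : ∀ a b, ⟪P a, b⟫ = ⟪a, P b⟫)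
    (hr : ∀ r a b, ⟪gk K r (P a), P b⟫ = ⟪P a, gk K r (P b)⟫) : ∃ M, 0 ≤ M ∧ NK K (kk K) P M := by
  obtain ⟨hk, -⟩ := h.ker_mo
  obtain ⟨E, hE⟩ : ∃ E, E = cM d * C + C * (mp * mp + mp) := ⟨_, rfl⟩
  have mp0 := mp_nonneg
  have E0 : 0 ≤ E := by have := h.cM_nonneg; have := h.nonneg; rw [hE]; positivity
  let g : ℝ → X →L[ℝ] X := fun r => P ∘L gk K r ∘L P
  obtain ⟨hg, -⟩ := ker_of_le (g := g) (continuous_const.clm_comp (hk.cont.clm_comp continuous_const))
    (f := fun r => ‖P‖ * (‖gk K r‖ * ‖P‖)) (fun r => (P.opNorm_comp_le _).trans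
      (mul_le_mul_of_nonneg_left ((gk K r).opNorm_comp_le P) (norm_nonneg P)))
    ((hk.int.const_mul (‖P‖ * ‖P‖)).congr (ae_of_all _ fun r => by ring))
  have ev : ∀ r, g (-r) = g r := fun r => ContinuousLinearMap.ext fun a =>
    ext_inner_right ℝ fun b => by simp only [g, ContinuousLinearMap.comp_apply, hP, h.gk_neg, hr]
  refine ⟨E + (mo g + (mp * mp + mp) * ‖P‖ * (E * ‖P‖) + (mp * mp + mp) * ‖P‖ * (‖kk K‖ * ‖P‖)),
    by have := mo_nonneg g; positivity, h.sym, h.ti, h.kk_symm, fun x D hx => ?_,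
    fun x y D D' hx hy => ?_⟩
  · refine (hE ▸ h.est hx).trans (mul_le_mul_of_nonneg_right (le_add_of_nonneg_right ?_) hx.nonneg)
    have := mo_nonneg g; positivity
  have sP := inner_ma (X := X) 1 hP
  have e1 : ⟪hk.cv (cp P x) - cp (kk K) (cp P x), cp P y⟫ = ⟪hg.cv x - cp (∫ r, g r) x, y⟫ := by
    rw [← sP, map_sub, hk.map_cv, kk, hk.cp_int, hg.cv_apply, hg.cp_int,
      ← (cp P).integral_comp_comm (hk.int_cp _)]
    simp only [tr_cp, ma_ma, mul_one, g]
  have h1 := hg.even ev hx hy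
  have hx' := hx.cp P
  have hy' := hy.cp P
  have h2 := (abs_real_inner_le_norm _ _).trans (mul_le_mul (Cs2_sub hx') (hE ▸ h.est hy')
    (norm_nonneg _) (by have := hx'.nonneg; positivity))
  have h3 := Cs2_even hx' (hy'.cp (kk K))
  have e2 : ⟪K (Cs X (Cs X (cp P x)) - cp P x), cp P y⟫ =
      ⟪Cs X (Cs X (cp P x)) - cp P x, K (cp P y) - cp (kk K) (cp P y)⟫ +
        ⟪Cs X (Cs X (cp P x)) - cp P x, cp (kk K) (cp P y)⟫ := by
    rw [h.sym, ← inner_add_right, sub_add_cancel]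
  rw [h.split, inner_sub_left, e1, e2]
  have h4 : 0 ≤ E * (D * D') := mul_nonneg E0 (mul_nonneg hx.nonneg hy.nonneg)
  have := abs_le.1 h1; have := abs_le.1 h2; have := abs_le.1 h3
  rw [abs_le]; constructor <;> linarith

/-- rank one -/
theorem TK.nk_one (h : TK K d C) {P : X →L[ℝ] X} (hP : ∀ a b, ⟪P a, b⟫ = ⟪a, P b⟫) {N : X}
    (hN : ∀ a, ∃ c : ℝ, P a = c • N) : ∃ M, 0 ≤ M ∧ NK K (kk K) P M :=
  h.nk hP fun r a b => by
    obtain ⟨c, hc⟩ := hN a
    obtain ⟨c', hc'⟩ := hN b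
    simp only [hc, hc', map_smul, real_inner_smul_left, real_inner_smul_right, real_inner_comm N]

end Crest.Agent.X212.Cyf70
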