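import Crest.Agent.X212.Cyf70.CD
import Mathlib.MeasureTheory.Function.LpSpace.ContinuousCompMeasurePreserving

/-!
# Row 212, CYLF (helper70): translations and convolutions on `L²(ℝ, X)`
-/

set_option autoImplicit false
set_option linter.unusedSectionVars false
open Function Filter Topology Module Set MeasureTheory
open scoped RealInnerProductSpace BoundedContinuousFunction ContDiff

noncomputable section
namespace Crest.Agent.X212.Cyf70

section tr
variable {X Y : Type*} [NormedAddCommGroup X] [NormedSpace ℝ X] [NormedAddCommGroup Y]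
  [NormedSpace ℝ Y]

variable (X) in
/-- translation -/
def tr (h : ℝ) : Lam X →L[ℝ] Lam X :=
  (Lp.compMeasurePreservingₗᵢ ℝ (fun t : ℝ => t + h)
    (measurePreserving_add_right volume h)).toContinuousLinearMap

theorem R.tr {f : Lam X} {g : ℝ → X} (h : ℝ) (H : R f g) : R (tr X h f) fun t => g (t + h) :=
  (Lp.coeFn_compMeasurePreserving f _).trans
    ((measurePreserving_add_right volume h).quasiMeasurePreserving.ae_eq_comp H)

theorem R.cp {f : Lam X} {g : ℝ → X} (a : X →L[ℝ] Y) (h : R f g) : R (cp a f) fun t => a (g t) :=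
  (h.ma 1 a).congr fun t => by simp

/-- evaluation at `x` -/
def cpx (x : Lam X) : (X →L[ℝ] Y) →L[ℝ] Lam Y :=
  ContinuousLinearMap.apply ℝ (Lam Y) x ∘L ma (X := X) (Y := Y) 1

theorem cpx_apply (x : Lam X) (a : X →L[ℝ] Y) : cpx x a = cp a x := rfl

/-- computes representatives -/
macro "rt" : tactic => `(tactic| repeat' (first
  | with_reducible assumption
  | with_reducible apply R.ma | with_reducible apply R.tr | with_reducible apply R.ten
  | with_reducible apply R.add | with_reducible apply R.sub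
  | with_reducible apply R.neg | with_reducible apply R.smul | with_reducible exact R.zero
  | with_reducible exact R.rfl _))

theorem norm_tr (h : ℝ) (f : Lam X) : ‖tr X h f‖ = ‖f‖ := Lp.norm_compMeasurePreserving f _

theorem tr_tr (h k : ℝ) (f : Lam X) : tr X h (tr X k f) = tr X (h + k) f :=
  R.ext' (by rt) (by rt) fun t => by rw [add_assoc]

theorem tr_zero (f : Lam X) : tr X 0 f = f := R.ext' (by rt) (by rt) fun t => by rw [add_zero]

theorem tr_cp (h : ℝ) (a : X →L[ℝ] Y) (f : Lam X) : tr Y h (cp a f) = cp a (tr X h f) :=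
  R.ext' (by rt) (by rt) fun t => by simp

theorem tr_ten (h : ℝ) (φ : Lam ℝ) (x : X) : tr X h (ten φ x) = ten (tr ℝ h φ) x :=
  R.ext' (by rt) (by rt) fun t => rfl

theorem cont_tr (f : Lam X) : Continuous fun h => tr X h f :=
  Continuous.compMeasurePreservingLp (f := fun _ : ℝ => f)
    (g := fun h : ℝ => (⟨fun t : ℝ => t + h, by fun_prop⟩ : C(ℝ, ℝ))) continuous_const
    (ContinuousMap.continuous_of_continuous_uncurry _ (by
      change Continuous fun p : ℝ × ℝ => p.2 + p.1; fun_prop))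
    (fun h => measurePreserving_add_right volume h) (by simp)

theorem norm_cp_le (a : X →L[ℝ] Y) (f : Lam X) : ‖cp a f‖ ≤ ‖a‖ * ‖f‖ :=
  R.norm_le (by rt) (by rt) (ae_of_all _ fun t => by simpa using a.le_opNorm _)

/-- `x'` has norm at most `D` -/
def Lip (x : Lam X) (D : ℝ) : Prop := ∀ r, ‖tr X r x - x‖ ≤ |r| * D

theorem Lip.nonneg {x : Lam X} {D : ℝ} (h : Lip x D) : 0 ≤ D := by
  simpa using (norm_nonneg _).trans (h 1)

theorem Lip.map {x : Lam X} {D N : ℝ} (h : Lip x D) {B : Lam X →L[ℝ] Lam Y}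
    (hB : ∀ r z, tr Y r (B z) = B (tr X r z)) (hN : ∀ z, ‖B z‖ ≤ N * ‖z‖) (N0 : 0 ≤ N) :
    Lip (B x) (N * D) := fun r => by
  rw [hB, ← map_sub, mul_left_comm]
  exact (hN _).trans (mul_le_mul_of_nonneg_left (h r) N0)

theorem Lip.cp {x : Lam X} {D : ℝ} (h : Lip x D) (a : X →L[ℝ] Y) : Lip (cp a x) (‖a‖ * D) :=
  h.map (fun r z => tr_cp r a z) (norm_cp_le a) (norm_nonneg _)

/-- kernels -/
structure Ker (g : ℝ → X →L[ℝ] Y) : Prop where
  cont : Continuous g
  int : Integrable fun r => (1 + r ^ 2) * ‖g r‖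

/-- the moment of a kernel -/
def mo (g : ℝ → X →L[ℝ] Y) : ℝ := ∫ r, (1 + r ^ 2) * ‖g r‖

theorem mo_nonneg (g : ℝ → X →L[ℝ] Y) : 0 ≤ mo g := integral_nonneg fun _ => by positivity

namespace Ker
variable {g : ℝ → X →L[ℝ] Y} (hg : Ker g)
include hg

theorem bd {N : Type*} [NormedAddCommGroup N] [NormedSpace ℝ N] {f : ℝ → N} (hf : Continuous f)
    {c : ℝ} (h : ∀ r, ‖f r‖ ≤ (1 + r ^ 2) * ‖g r‖ * c) : Integrable f ∧ ‖∫ r, f r‖ ≤ mo g * c :=
  ⟨(hg.int.mul_const c).mono' hf.aestronglyMeasurable (ae_of_all _ h),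
    (norm_integral_le_of_norm_le (hg.int.mul_const c) (ae_of_all _ h)).trans_eq
      (integral_mul_const _ _)⟩

theorem int' : Integrable g := (hg.bd hg.cont (c := 1) fun r => by
  nlinarith [norm_nonneg (g r), mul_nonneg (sq_nonneg r) (norm_nonneg (g r))]).1

theorem cc {x : ℝ → Lam X} (hx : Continuous x) : Continuous fun r => cp (g r) (x r) :=
  ((ma 1).continuous.comp hg.cont).clm_apply hx

theorem bd' {x : ℝ → Lam X} (hx : Continuous x) {c : ℝ} (h : ∀ r, ‖x r‖ ≤ (1 + r ^ 2) * c) :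
    Integrable (fun r => cp (g r) (x r)) ∧ ‖∫ r, cp (g r) (x r)‖ ≤ mo g * c :=
  hg.bd (hg.cc hx) fun r => (norm_cp_le _ _).trans
    ((mul_le_mul_of_nonneg_left (h r) (norm_nonneg _)).trans_eq (by ring))

theorem bd_tr (x : Lam X) :
    Integrable (fun r => cp (g r) (tr X r x)) ∧ ‖∫ r, cp (g r) (tr X r x)‖ ≤ mo g * ‖x‖ :=
  hg.bd' (cont_tr x) fun r => by
    rw [norm_tr]; nlinarith [mul_nonneg (sq_nonneg r) (norm_nonneg x)]

/-- the convolution operator -/
def cv : Lam X →L[ℝ] Lam Y :=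
  LinearMap.mkContinuous
    { toFun := fun x => ∫ r, cp (g r) (tr X r x)
      map_add' := fun x y => by
        simp only [map_add]; exact integral_add (hg.bd_tr x).1 (hg.bd_tr y).1
      map_smul' := fun c x => by simp only [map_smul, integral_smul, RingHom.id_apply] }
    (mo g) fun x => (hg.bd_tr x).2

theorem cv_apply (x : Lam X) : hg.cv x = ∫ r, cp (g r) (tr X r x) := rfl

theorem norm_cv (x : Lam X) : ‖hg.cv x‖ ≤ mo g * ‖x‖ := (hg.bd_tr x).2

variable [CompleteSpace Y]

theorem map_cv {W : Type*} [NormedAddCommGroup W] [NormedSpace ℝ W] [CompleteSpace W]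
    (B : Lam Y →L[ℝ] W) (x : Lam X) : B (hg.cv x) = ∫ r, B (cp (g r) (tr X r x)) :=
  (B.integral_comp_comm (hg.bd_tr x).1).symm

theorem tr_cv (h : ℝ) (x : Lam X) : tr Y h (hg.cv x) = hg.cv (tr X h x) := by
  rw [hg.map_cv]; simp only [cv_apply, tr_cp, tr_tr, add_comm h]

theorem cp_int (x : Lam X) : cp (∫ r, g r) x = ∫ r, cp (g r) x :=
  ((cpx x).integral_comp_comm hg.int').symm

theorem int_cp (x : Lam X) : Integrable fun r => cp (g r) x :=
  (cpx x).integrable_comp hg.int'

theorem cv_sub (x : Lam X) : hg.cv x - cp (∫ r, g r) x = ∫ r, cp (g r) (tr X r x - x) := by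
  rw [cv_apply, hg.cp_int, ← integral_sub (hg.bd_tr x).1 (hg.int_cp x)]
  simp only [map_sub]

theorem cv_sub_le {x : Lam X} {D : ℝ} (h : Lip x D) : ‖hg.cv x - cp (∫ r, g r) x‖ ≤ mo g * D := by
  rw [hg.cv_sub]
  refine (hg.bd' ((cont_tr x).sub continuous_const) fun r => (h r).trans ?_).2
  refine mul_le_mul_of_nonneg_right ?_ h.nonneg
  nlinarith [sq_abs r, sq_nonneg (|r| - 1), abs_nonneg r]

end Ker
end tr

section inner
variable {X Y : Type*} [NormedAddCommGroup X] [InnerProductSpace ℝ X] [NormedAddCommGroup Y]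
  [InnerProductSpace ℝ Y]

theorem inner_tr (h : ℝ) (f g : Lam X) : ⟪tr X h f, g⟫ = ⟪f, tr X (-h) g⟫ := by
  rw [R.inner (f := tr X h f) (by rt) (R.rfl g), R.inner (R.rfl f) (f' := tr X (-h) g) (by rt),
    ← integral_add_right_eq_self (fun t => ⟪f t, g (t + -h)⟫) h]
  simp

theorem fub_int {μ : Measure ℝ} [SFinite μ] {g : ℝ → X →L[ℝ] Y} (hg : Continuous g)
    (hi : Integrable g μ) {x : Lam X} {W : ℝ → X} (hx : R x W) (mW : StronglyMeasurable W)
    (y : Lam Y) : Integrable (uncurry fun r s => ⟪g r (W (s + r)), y s⟫) (μ.prod volume) := by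
  have m1 : StronglyMeasurable (uncurry fun r s => ⟪g r (W (s + r)), y s⟫) :=
    StronglyMeasurable.inner
      ((ContinuousLinearMap.id ℝ (X →L[ℝ] Y)).continuous₂.comp_stronglyMeasurable
        ((hg.stronglyMeasurable.comp_measurable measurable_fst).prodMk
          (mW.comp_measurable (measurable_snd.add measurable_fst))))
      ((Lp.stronglyMeasurable y).comp_measurable measurable_snd)
  have i1 : ∀ r, Integrable fun s => ⟪g r (W (s + r)), y s⟫ := fun r =>
    R.integrable ((hx.tr r).cp _) (R.rfl y)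
  refine (integrable_prod_iff m1.aestronglyMeasurable).2 ⟨ae_of_all _ i1, ?_⟩
  refine (hi.norm.mul_const (⟪x, x⟫ + ⟪y, y⟫)).mono'
    m1.norm.integral_prod_right'.aestronglyMeasurable (ae_of_all _ fun r => ?_)
  have a1 := R.integrable (hx.tr r) (hx.tr r)
  have a2 := R.integrable (R.rfl y) (R.rfl y)
  have e : ⟪x, x⟫ = ⟪tr X r x, tr X r x⟫ := by simp only [real_inner_self_eq_norm_sq, norm_tr]
  rw [e, R.inner (hx.tr r) (hx.tr r), R.inner (R.rfl y) (R.rfl y), ← integral_add a1 a2,
    ← integral_const_mul, Real.norm_of_nonneg (integral_nonneg fun _ => norm_nonneg _)]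
  refine integral_mono (i1 r).norm ((a1.add a2).const_mul _) fun s => ?_
  have b1 := (abs_real_inner_le_norm _ (y s)).trans
    (mul_le_mul_of_nonneg_right ((g r).le_opNorm (W (s + r))) (norm_nonneg _))
  simp only [uncurry, real_inner_self_eq_norm_sq, Real.norm_eq_abs]
  nlinarith [mul_nonneg (norm_nonneg (g r)) (sq_nonneg (‖W (s + r)‖ - ‖y s‖)),
    mul_nonneg (norm_nonneg (g r)) (mul_nonneg (norm_nonneg (W (s + r))) (norm_nonneg (y s)))]

namespace Ker
variable [CompleteSpace Y] {g : ℝ → X →L[ℝ] Y} (hg : Ker g)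
include hg

theorem inner_cv' (x : Lam X) (y : Lam Y) : ⟪hg.cv x, y⟫ = ∫ r, ⟪cp (g r) (tr X r x), y⟫ := by
  simpa only [innerSL_apply_apply, real_inner_comm y] using hg.map_cv (innerSL ℝ y) x

theorem inner_cv (x : Lam X) (y : Lam Y) :
    ⟪hg.cv x, y⟫ = ∫ s, ∫ r, ⟪g r (x (s + r)), y s⟫ := by
  rw [hg.inner_cv', ← integral_integral_swap
    (fub_int hg.cont hg.int' (R.rfl x) (Lp.stronglyMeasurable x) y)]
  congr 1; funext r
  exact R.inner (((R.rfl x).tr r).cp _) (R.rfl y)

/-- even kernels -/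
theorem even (he : ∀ r, g (-r) = g r) {x : Lam X} {y : Lam Y} {D D' : ℝ} (hx : Lip x D)
    (hy : Lip y D') : |⟪hg.cv x - cp (∫ r, g r) x, y⟫| ≤ mo g * (D * D') := by
  have c1 : Continuous fun r => tr X r x - x := (cont_tr x).sub continuous_const
  have i1 : Integrable fun r => cp (g r) (tr X r x - x) := by
    simp only [map_sub]; exact (hg.bd_tr x).1.sub (hg.int_cp x)
  let a : ℝ → ℝ := fun r => ⟪cp (g r) (tr X r x - x), y⟫
  have ia : Integrable a := i1.inner_const y
  have e1 : ⟪hg.cv x - cp (∫ r, g r) x, y⟫ = ∫ r, a r := by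
    rw [hg.cv_sub]
    simpa only [innerSL_apply_apply, a, real_inner_comm y] using
      ((innerSL ℝ y).integral_comp_comm i1).symm
  have e2 : ∀ r, ⟪cp (g r) (tr X r x - x), tr Y r y - y⟫ = -(a r + a (-r)) := fun r => by
    have : ⟪cp (g r) (tr X r x - x), tr Y r y⟫ = ⟪cp (g r) (x - tr X (-r) x), y⟫ := by
      rw [real_inner_comm, inner_tr, real_inner_comm, tr_cp, map_sub (tr X (-r)), tr_tr,
        neg_add_cancel, tr_zero]
    rw [inner_sub_right, this]
    simp only [a, he, map_sub, inner_sub_left]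
    ring
  have := (hg.bd (f := fun r => ⟪cp (g r) (tr X r x - x), tr Y r y - y⟫)
    ((hg.cc c1).inner ((cont_tr y).sub continuous_const)) (c := D * D') fun r => by
      refine (norm_inner_le_norm _ _).trans ((mul_le_mul ((norm_cp_le _ _).trans
        (mul_le_mul_of_nonneg_left (hx r) (norm_nonneg _))) (hy r) (norm_nonneg _)
        (mul_nonneg (norm_nonneg _) (mul_nonneg (abs_nonneg _) hx.nonneg))).trans ?_)
      have := mul_nonneg (norm_nonneg (g r)) (mul_nonneg hx.nonneg hy.nonneg)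
      rw [← sq_abs r]; nlinarith).2
  simp only [e2, integral_neg, norm_neg] at this
  rw [integral_add ia ia.comp_neg, integral_neg_eq_self a, ← two_mul, norm_mul, Real.norm_two,
    Real.norm_eq_abs] at this
  rw [e1]; linarith [abs_nonneg (∫ r, a r)]

end Ker
end inner

namespace CylD
variable {X₁ X₀ Z : Type*} [NormedAddCommGroup X₁] [NormedSpace ℝ X₁] [NormedAddCommGroup X₀]
  [InnerProductSpace ℝ X₀] [NormedAddCommGroup Z] [NormedSpace ℝ Z] [CompleteSpace X₀]
  {τ : ℝ} {i L : X₁ →L[ℝ] X₀} {J : Z →L[ℝ] Lam X₁} {T : Z →L[ℝ] Lam X₀} (h : CylD τ i L J T)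
include h

theorem abs_τ : |τ| = 1 := by
  have := h.sq
  rcases mul_self_eq_one_iff.1 this with e | e <;> simp [e]

theorem tr_sub (a : ℝ) (u : Z) :
    tr X₀ a (cp i (J u)) - cp i (J u) = τ • ∫ r in (0 : ℝ)..a, tr X₀ r (T u) := by
  refine Dense.induction (P := fun u => tr X₀ a (cp i (J u)) - cp i (J u) =
    τ • ∫ r in (0 : ℝ)..a, tr X₀ r (T u)) h.den ?_ (isClosed_eq (by fun_prop) ?_) u
  · rintro v ⟨V, V', h1, h2, -, h4, h5⟩
    refine ext_inner_right ℝ fun y => ?_
    have c : Continuous fun t => τ • i (V' t) := by fun_prop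
    have e1 := ((innerSL ℝ y).intervalIntegral_comp_comm
      ((cont_tr (T v)).intervalIntegrable (μ := volume) 0 a)).symm
    simp only [innerSL_apply_apply, real_inner_comm _ y] at e1
    have e2 : ∀ r, ⟪tr X₀ r (T v), y⟫ = ∫ s, ⟪τ • i (V' (s + r)), y s⟫ := fun r =>
      R.inner (h5.tr r) (R.rfl y)
    rw [real_inner_smul_left, e1, R.inner (f := tr X₀ a (cp i (J v)) - cp i (J v)) (by rt) (R.rfl y)]
    simp only [e2]
    rw [intervalIntegral_integral_swap (f := fun r s => ⟪τ • i (V' (s + r)), y s⟫)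
      (fub_int (g := fun _ => ContinuousLinearMap.id ℝ X₀) continuous_const
        (μ := volume.restrict (uIoc 0 a)) (continuous_const.integrableOn_uIoc) h5 c.stronglyMeasurable y),
      ← integral_const_mul]
    congr 1; funext s
    have d : ∀ r, HasDerivAt (fun r => ⟪i (V (s + r)), y s⟫) ⟪i (V' (s + r)), y s⟫ r := fun r => by
      simpa using (i.hasFDerivAt.comp_hasDerivAt r ((h1 (s + r)).comp_const_add s r)).inner ℝ
        (hasDerivAt_const r (y s))
    simp only [real_inner_smul_left, intervalIntegral.integral_const_mul, ← mul_assoc, h.sq]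
    rw [intervalIntegral.integral_eq_sub_of_hasDerivAt (fun r _ => d r)
      (Continuous.intervalIntegrable (by fun_prop) _ _)]
    simp [inner_sub_left]
  · refine Continuous.const_smul (LipschitzWith.continuous (K := ⟨|a| * ‖T‖, by positivity⟩)
      (LipschitzWith.of_dist_le_mul fun u v => ?_)) τ
    rw [dist_eq_norm, dist_eq_norm, ← intervalIntegral.integral_sub
      ((cont_tr _).intervalIntegrable _ _) ((cont_tr _).intervalIntegrable _ _)]
    refine (intervalIntegral.norm_integral_le_of_norm_le_const (C := ‖T‖ * ‖u - v‖)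
      fun r _ => ?_).trans_eq (show _ = |a| * ‖T‖ * ‖u - v‖ by rw [sub_zero]; ring)
    rw [← map_sub, norm_tr, ← map_sub]; exact T.le_opNorm _

theorem lip (u : Z) : Lip (cp i (J u)) ‖T u‖ := fun r => by
  rw [h.tr_sub, norm_smul, Real.norm_eq_abs, h.abs_τ, one_mul]
  exact (intervalIntegral.norm_integral_le_of_norm_le_const fun s _ => (norm_tr _ _).le).trans_eq
    (by simp [mul_comm])

/-- a symmetric translation invariant operator is orthogonal to the derivative -/
theorem orth {K : Lam X₀ →L[ℝ] Lam X₀} (hK : ∀ x y, ⟪K x, y⟫ = ⟪x, K y⟫)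
    (ht : ∀ r x, tr X₀ r (K x) = K (tr X₀ r x)) (u : Z) : ⟪T u, K (cp i (J u))⟫ = 0 := by
  set x := cp i (J u)
  let ψ : ℝ → ℝ := fun r => ⟪tr X₀ r (T u), K x⟫
  have cψ : Continuous ψ := (cont_tr _).inner continuous_const
  let a : ℝ → ℝ := fun b => τ * ∫ r in (0 : ℝ)..b, ψ r
  have e : ∀ b, a b = ⟪tr X₀ b x - x, K x⟫ := fun b => by
    have e1 := (innerSL ℝ (K x)).intervalIntegral_comp_comm
      ((cont_tr (T u)).intervalIntegrable (μ := volume) 0 b)
    simp only [innerSL_apply_apply, real_inner_comm _ (K x)] at e1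
    rw [h.tr_sub, real_inner_smul_left, ← e1]
  have ev : ∀ b, a (-b) = a b := fun b => by
    rw [e, e, inner_sub_left, inner_sub_left, inner_tr, neg_neg, ht, ← hK, real_inner_comm]
  have d : HasDerivAt a (τ * ψ 0) 0 := (cψ.integral_hasStrictDerivAt 0 0).hasDerivAt.const_mul τ
  have d' : HasDerivAt a (-(τ * ψ 0)) 0 := by
    have := HasDerivAt.comp_const_sub (a := 0) (x := 0) (f := a) (by simpa using d)
    simpa [ev] using this
  have := d.unique d'
  have h0 : τ * (τ * ψ 0) = 0 := by rw [show τ * ψ 0 = 0 by linarith, mul_zero]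
  rw [← mul_assoc, h.sq, one_mul] at h0
  simpa only [ψ, tr_zero] using h0

end CylD

end Crest.Agent.X212.Cyf70
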